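import Vale.Agent.P174.MathlibUsed

section

/-!
Finite systems of equations over a group: basic definitions.
-/

namespace Vale.Agent.P174

universe u

/-- The free product `G * F_n`. -/
abbrev Words (G : Type u) [Group G] (n : ℕ) : Type u := Monoid.Coprod G (FreeGroup (Fin n))

/-- The homomorphism `G * F_n → ℤ^n` that kills `G` and sends `x_j` to `e_j`. -/
def expSum (G : Type u) [Group G] (n : ℕ) : Words G n →* Multiplicative (Fin n → ℤ) :=
  Monoid.Coprod.lift 1 (FreeGroup.lift fun j => Multiplicative.ofAdd (Pi.single j 1))

/-- The exponent-sum matrix of a system `w_1, …, w_m ∈ G * F_n`. -/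
def expMatrix {G : Type u} [Group G] {m n : ℕ} (w : Fin m → Words G n) :
    Matrix (Fin m) (Fin n) ℤ :=
  fun i j => Multiplicative.toAdd (expSum G n (w i)) j

/-- The exponent-sum matrix has rank `m` (the number of equations) over the field `k`. -/
def FullRank (k : Type) [Field k] {G : Type u} [Group G] {m n : ℕ} (w : Fin m → Words G n) :
    Prop :=
  ((expMatrix w).map (fun a : ℤ => (a : k))).rank = m

/-- The system `w = 1` is solvable over `G`: there are a group `H` containing a copy of `G`
and elements of `H` at which every `w_i` evaluates to `1`. -/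
def SolvableOver {G : Type u} [Group G] {m n : ℕ} (w : Fin m → Words G n) : Prop :=
  ∃ (H : Type u) (_ : Group H) (ι : G →* H) (h : Fin n → H),
    Function.Injective ι ∧ ∀ i, Monoid.Coprod.lift ι (FreeGroup.lift h) (w i) = 1

/-- Every finite system over `G` whose exponent-sum matrix has rank `m` over `k` is solvable
over `G`. For `k = ℚ` this is Howie's conjecture for the coefficient group `G`. -/
def HowieOver (k : Type) [Field k] (G : Type u) [Group G] : Prop :=
  ∀ (m n : ℕ) (w : Fin m → Words G n), FullRank k w → SolvableOver w

/-- Every nontrivial finitely generated subgroup maps onto `ℤ`. -/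
def LocallyIndicable (G : Type u) [Group G] : Prop :=
  ∀ H : Subgroup G, H.FG → H ≠ ⊥ → ∃ f : H →* Multiplicative ℤ, Function.Surjective f

end Vale.Agent.P174

end

section

/-!
Hyperlinear groups.
-/

namespace Vale.Agent.P174

universe u

open Filter Topology

/-- The normalized Hilbert-Schmidt distance of two `k × k` matrices. -/
noncomputable def hsDist {k : ℕ} (a b : Matrix (Fin k) (Fin k) ℂ) : ℝ :=
  Real.sqrt ((∑ p, ∑ q, ‖a p q - b p q‖ ^ 2) / k)

/-- A group is hyperlinear if it embeds into a metric ultraproduct of unitary groups with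
normalized Hilbert-Schmidt metrics: there are an index set `I`, an ultrafilter `F` on `I`, sizes
`k i` and a map `g ↦ (φ g i)_i` into the product of the groups `U(k i)` which is
multiplicative up to sequences of `F`-limit distance `0` and sends no nontrivial element to
a sequence at `F`-limit distance `0` from the identity. -/
def Hyperlinear (G : Type u) [Group G] : Prop :=
  ∃ (I : Type u) (F : Ultrafilter I) (k : I → ℕ)
    (φ : G → ∀ i, Matrix.unitaryGroup (Fin (k i)) ℂ),
    (∀ g h : G, Tendsto (fun i => hsDist (φ (g * h) i).1 (φ g i * φ h i).1) F (𝓝 0)) ∧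
    ∀ g : G, g ≠ 1 → ¬ Tendsto (fun i => hsDist (φ g i).1 1) F (𝓝 0)

end Vale.Agent.P174

end

section

/-!
Fox derivatives, characterized by their rules.
-/

namespace Vale.Agent.P174

universe u v

/-- `D u` is the row of the Fox derivatives of `u ∈ G * F_n` with respect to the unknowns,
with values in `k[Q]` along `φ : G * F_n → Q`. -/
def IsFox {k : Type} [Field k] {G : Type u} [Group G] {Q : Type v} [Group Q] {n : ℕ}
    (φ : Words G n →* Q) (D : Words G n → Fin n → MonoidAlgebra k Q) : Prop :=
  (∀ u u' : Words G n, D (u * u') = D u + MonoidAlgebra.single (φ u) (1 : k) • D u') ∧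
    (∀ g : G, D (Monoid.Coprod.inl g) = 0) ∧
    ∀ j : Fin n, D (Monoid.Coprod.inr (FreeGroup.of j)) = Pi.single j 1

end Vale.Agent.P174

end

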