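import Vale.Agent.P174.MathlibUsed
import Vale.Agent.P174.Bdl.D

set_option linter.all false

section

/-!
Signed words over a labelled graph, heights in a field, and lifts of words to the
covering determined by a height function.
-/

namespace Vale.Agent.P174

open FreeGroup

section Paths

variable {V L : Type*}

/-- start vertex of a signed letter -/
def sS (src tgt : L → V) (x : L × Bool) : V := if x.2 then src x.1 else tgt x.1

/-- end vertex of a signed letter -/
def sT (src tgt : L → V) (x : L × Bool) : V := if x.2 then tgt x.1 else src x.1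

/-- `IsPath src tgt v l v'`: the signed word `l` is a path from `v` to `v'` -/
def IsPath (src tgt : L → V) : V → List (L × Bool) → V → Prop
  | v, [], v' => v = v'
  | v, x :: l, v' => sS src tgt x = v ∧ IsPath src tgt (sT src tgt x) l v'

variable (src tgt : L → V)

@[simp] lemma isPath_nil (v v' : V) : IsPath src tgt v [] v' ↔ v = v' := Iff.rfl

@[simp] lemma isPath_cons (v v' : V) (x : L × Bool) (l : List (L × Bool)) :
    IsPath src tgt v (x :: l) v' ↔ sS src tgt x = v ∧ IsPath src tgt (sT src tgt x) l v' :=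
  Iff.rfl

lemma isPath_append (l₁ l₂ : List (L × Bool)) (v v'' : V) :
    IsPath src tgt v (l₁ ++ l₂) v'' ↔
      ∃ v', IsPath src tgt v l₁ v' ∧ IsPath src tgt v' l₂ v'' := by
  induction l₁ generalizing v with
  | nil => simp only [List.nil_append, isPath_nil, exists_eq_left']
  | cons x l ih =>
    simp only [List.cons_append, isPath_cons, ih]
    constructor
    · rintro ⟨h1, v', h2, h3⟩; exact ⟨v', ⟨h1, h2⟩, h3⟩
    · rintro ⟨v', ⟨h1, h2⟩, h3⟩; exact ⟨h1, v', h2, h3⟩

/-- visited vertices -/
def verts (v : V) (l : List (L × Bool)) : List V := v :: l.map (sT src tgt)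

lemma sS_mem_verts {l : List (L × Bool)} {v v' : V} (h : IsPath src tgt v l v')
    {x : L × Bool} (hx : x ∈ l) : sS src tgt x ∈ verts src tgt v l := by
  induction l generalizing v with
  | nil => simp at hx
  | cons y l ih =>
    obtain ⟨h1, h2⟩ := h
    rcases List.mem_cons.1 hx with rfl | hx
    · rw [h1]; simp only [verts, List.map_cons, List.mem_cons, List.mem_map, Prod.exists, Bool.exists_bool, true_or]
    · have := ih h2 hx
      simp only [verts, List.mem_cons, List.map_cons] at this ⊢
      (clear * - this; tauto)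

lemma sT_mem_verts {l : List (L × Bool)} {v : V}
    {x : L × Bool} (hx : x ∈ l) : sT src tgt x ∈ verts src tgt v l := by
  simp only [verts, List.mem_cons, List.mem_map]
  exact Or.inr ⟨x, hx, rfl⟩

end Paths

section Heights

variable {V L k : Type*} [Field k] (src tgt : L → V) (f : L → k)

/-- height of a signed letter -/
def sh (x : L × Bool) : k := if x.2 then f x.1 else - f x.1

/-- total height of a signed word -/
def ht (l : List (L × Bool)) : k := (l.map (sh f)).sum

@[simp] lemma ht_nil : ht f [] = 0 := rfl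

@[simp] lemma ht_cons (x : L × Bool) (l : List (L × Bool)) :
    ht f (x :: l) = sh f x + ht f l := by simp [ht]

@[simp] lemma ht_append (l₁ l₂ : List (L × Bool)) :
    ht f (l₁ ++ l₂) = ht f l₁ + ht f l₂ := by simp [ht]

@[simp] lemma ht_invRev (l : List (L × Bool)) : ht f (invRev l) = - ht f l := by
  induction l with
  | nil => simp
  | cons x l ih =>
    rw [invRev_cons, ht_append, ih, ht_cons]
    rcases x with ⟨a, b⟩
    cases b <;> simp [invRev, sh]

/-- height as a homomorphism -/
def htHom : FreeGroup L →* Multiplicative k := FreeGroup.lift fun a => Multiplicative.ofAdd (f a)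

lemma htHom_mk (l : List (L × Bool)) : htHom f (FreeGroup.mk l) = Multiplicative.ofAdd (ht f l) := by
  induction l with
  | nil => rw [← FreeGroup.one_eq_mk]; simp only [_root_.map_one, ht_nil, ofAdd_zero]
  | cons x l ih =>
    have : FreeGroup.mk (x :: l) = FreeGroup.mk [x] * FreeGroup.mk l := by
      rw [FreeGroup.mul_mk]; rfl
    rw [this, MonoidHom.map_mul, ih, ht_cons, ofAdd_add]
    congr 1
    rcases x with ⟨a, b⟩
    cases b
    · have : (FreeGroup.mk [(a, false)] : FreeGroup L) = (FreeGroup.of a)⁻¹ := rfl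
      rw [this, MonoidHom.map_inv]
      simp only [htHom, lift_apply_of, sh, Bool.false_eq_true, ↓reduceIte, ofAdd_neg]
    · have : (FreeGroup.mk [(a, true)] : FreeGroup L) = FreeGroup.of a := rfl
      rw [this]
      simp [htHom, sh]

lemma ht_eq_of_mk_eq {l₁ l₂ : List (L × Bool)} (h : FreeGroup.mk l₁ = FreeGroup.mk l₂) :
    ht f l₁ = ht f l₂ := by
  have := congrArg (htHom f) h
  rw [htHom_mk, htHom_mk] at this
  exact Multiplicative.ofAdd.injective this

/-- lifted letter: the height component is the height of the source vertex of the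
underlying edge -/
def lx (h : k) (x : L × Bool) : (L × k) × Bool :=
  if x.2 then ((x.1, h), true) else ((x.1, h - f x.1), false)

/-- lift of a word starting at height `h` -/
def lft : k → List (L × Bool) → List ((L × k) × Bool)
  | _, [] => []
  | h, x :: l => lx f h x :: lft (h + sh f x) l

@[simp] lemma lft_nil (h : k) : lft f h [] = [] := rfl

@[simp] lemma lft_cons (h : k) (x : L × Bool) (l : List (L × Bool)) :
    lft f h (x :: l) = lx f h x :: lft f (h + sh f x) l := rfl

lemma lft_append (h : k) (l₁ l₂ : List (L × Bool)) :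
    lft f h (l₁ ++ l₂) = lft f h l₁ ++ lft f (h + ht f l₁) l₂ := by
  induction l₁ generalizing h with
  | nil => simp
  | cons x l ih => simp [ih, add_assoc]

/-- projection of signed letters -/
def px (x : (L × k) × Bool) : L × Bool := (x.1.1, x.2)

@[simp] lemma px_lx (h : k) (x : L × Bool) : px (lx f h x) = x := by
  rcases x with ⟨a, b⟩; cases b <;> simp [px, lx]

@[simp] lemma map_px_lft (h : k) (l : List (L × Bool)) : (lft f h l).map px = l := by
  induction l generalizing h with
  | nil => rfl
  | cons x l ih => simp [ih]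

@[simp] lemma length_lft (h : k) (l : List (L × Bool)) : (lft f h l).length = l.length := by
  rw [← congrArg List.length (map_px_lft f h l), List.length_map]

lemma exists_of_mem_lft {h : k} {l : List (L × Bool)} {y : (L × k) × Bool}
    (hy : y ∈ lft f h l) : px y ∈ l := by
  have := List.mem_map_of_mem (f := px) hy
  rwa [map_px_lft] at this

lemma exists_lift_of_mem (h : k) {l : List (L × Bool)} {x : L × Bool}
    (hx : x ∈ l) : ∃ y ∈ lft f h l, px y = x := by
  have : x ∈ (lft f h l).map px := by rwa [map_px_lft]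
  simpa only [Prod.exists, Bool.exists_bool] using List.mem_map.1 this

/-- source map on lifted letters -/
def lsrc (a : L × k) : V × k := (src a.1, a.2)

/-- target map on lifted letters -/
def ltgt (a : L × k) : V × k := (tgt a.1, a.2 + f a.1)

lemma sS_lx (h : k) (x : L × Bool) :
    sS (lsrc src) (ltgt tgt f) (lx f h x) = (sS src tgt x, h) := by
  rcases x with ⟨a, b⟩; cases b <;> simp [sS, lx, lsrc, ltgt]

lemma sT_lx (h : k) (x : L × Bool) :
    sT (lsrc src) (ltgt tgt f) (lx f h x) = (sT src tgt x, h + sh f x) := by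
  rcases x with ⟨a, b⟩; cases b <;> simp [sT, lx, lsrc, ltgt, sh, sub_eq_add_neg]

lemma isPath_lft {h : k} {l : List (L × Bool)} {v v' : V} (hl : IsPath src tgt v l v') :
    IsPath (lsrc src) (ltgt tgt f) (v, h) (lft f h l) (v', h + ht f l) := by
  induction l generalizing v h with
  | nil => simpa using hl
  | cons x l ih =>
    obtain ⟨h1, h2⟩ := hl
    refine ⟨?_, ?_⟩
    · rw [sS_lx, h1]
    · rw [sT_lx, ht_cons, ← add_assoc]
      exact ih h2

lemma sT_px_fst (y : (L × k) × Bool) :
    (sT (lsrc src) (ltgt tgt f) y).1 = sT src tgt (px y) := by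
  rcases y with ⟨⟨a, h⟩, b⟩; cases b <;> simp [sT, px, lsrc, ltgt]

lemma map_fst_verts_lft (h : k) (l : List (L × Bool)) (v : V) :
    (verts (lsrc src) (ltgt tgt f) (v, h) (lft f h l)).map Prod.fst = verts src tgt v l := by
  simp only [verts, List.map_cons, List.map_map]
  congr 1
  conv_rhs => rw [← map_px_lft f h l]
  rw [List.map_map]
  apply List.map_congr_left
  intro y _
  exact sT_px_fst src tgt f y

lemma lft_invRev (h : k) (l : List (L × Bool)) :
    lft f (h + ht f l) (invRev l) = invRev (lft f h l) := by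
  induction l generalizing h with
  | nil => simp
  | cons x l ih =>
    rw [invRev_cons, lft_append, lft_cons, invRev_cons, ht_cons, ht_invRev, ← add_assoc, ih]
    congr 1
    have e : h + sh f x + ht f l + -ht f l = h + sh f x := by ring
    rw [e]
    rcases x with ⟨a, b⟩
    cases b <;> simp [invRev, lx, sh, sub_eq_add_neg]

lemma mk_lft_of_red {l₁ l₂ : List (L × Bool)} (h12 : FreeGroup.Red l₁ l₂) (h : k) :
    FreeGroup.mk (lft f h l₁) = FreeGroup.mk (lft f h l₂) := by
  induction h12 with
  | refl => rfl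
  | tail _ hs ih =>
    rw [ih]
    cases hs with
    | @not L₁ L₂ a b =>
      rw [lft_append, lft_append, lft_cons, lft_cons]
      have e1 : h + ht f L₁ + sh f (a, b) + sh f (a, !b) = h + ht f L₁ := by
        cases b <;> simp [sh]
      rw [e1]
      have e2 : lx f (h + ht f L₁ + sh f (a, b)) (a, !b) =
          ((lx f (h + ht f L₁) (a, b)).1, !(lx f (h + ht f L₁) (a, b)).2) := by
        cases b <;> simp [lx, sh, sub_eq_add_neg]
      rw [e2]
      exact Quot.sound FreeGroup.Red.Step.not

lemma mk_lft_eq {l₁ l₂ : List (L × Bool)} (h12 : FreeGroup.mk l₁ = FreeGroup.mk l₂) (h : k) :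
    FreeGroup.mk (lft f h l₁) = FreeGroup.mk (lft f h l₂) := by
  obtain ⟨l₃, h13, h23⟩ := FreeGroup.Red.exact.1 h12
  rw [mk_lft_of_red f h13, mk_lft_of_red f h23]

end Heights

end Vale.Agent.P174
end

section

/-!
Exponent rows of signed words and their linear independence after lifting.
-/

namespace Vale.Agent.P174

section Rows

variable {L G : Type*} {k : Type*} [Field k]

/-- contribution of a signed letter to the exponent row; only letters without a
coefficient value count -/
noncomputable def rx (k : Type*) [Field k] (val : L → Option G) (x : L × Bool) : L →₀ k :=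
  match val x.1 with
  | some _ => 0
  | none => Finsupp.single x.1 (if x.2 then 1 else -1)

/-- exponent row of a signed word -/
noncomputable def rowOf (k : Type*) [Field k] (val : L → Option G) (l : List (L × Bool)) : L →₀ k :=
  (l.map (rx k val)).sum

@[simp] lemma rowOf_nil (val : L → Option G) : rowOf k val [] = 0 := rfl

@[simp] lemma rowOf_cons (val : L → Option G) (x : L × Bool) (l : List (L × Bool)) :
    rowOf k val (x :: l) = rx k val x + rowOf k val l := by simp [rowOf]

/-- values of lifted letters -/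
def lval (val : L → Option G) : L × k → Option G := fun a => val a.1

/-- the moment map of a polynomial -/
noncomputable def mom (q : Polynomial k) : (L × k →₀ k) →ₗ[k] (L →₀ k) :=
  Finsupp.linearCombination k (fun p : L × k => Finsupp.single p.1 (q.eval p.2))

/-- offset of a signed letter -/
def off (f : L → k) (x : L × Bool) : k := if x.2 then 0 else - f x.1

lemma mom_rx (val : L → Option G) (f : L → k) (q : Polynomial k) (h : k) (x : L × Bool) :
    mom q (rx k (lval val) (lx f h x)) = q.eval (h + off f x) • rx k val x := by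
  rcases x with ⟨a, b⟩
  cases b
  · simp only [rx, lval, lx, off, Bool.false_eq_true, if_false]
    cases hv : val a with
    | some g => simp
    | none => simp only [mom, sub_eq_add_neg, Finsupp.single_neg, map_neg, Finsupp.linearCombination_single, one_smul, smul_neg, Finsupp.smul_single, smul_eq_mul, mul_one]
  · simp only [rx, lval, lx, off, if_true, add_zero]
    cases hv : val a with
    | some g => simp only [map_zero, smul_zero]
    | none => simp only [mom, Finsupp.linearCombination_single, one_smul, Finsupp.smul_single, smul_eq_mul, mul_one]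

lemma sum_mom_rowOf (val : L → Option G) (f : L → k) (q : Polynomial k) (B : Finset k) (g : k → k)
    (hq : ∀ δ, ∑ h ∈ B, g h * q.eval (h + δ) = ∑ h ∈ B, g h * q.eval h)
    (l : List (L × Bool)) (δ : k) :
    ∑ h ∈ B, g h • mom q (rowOf k (lval val) (lft f (h + δ) l)) =
      (∑ h ∈ B, g h * q.eval h) • rowOf k val l := by
  induction l generalizing δ with
  | nil => simp
  | cons x l ih =>
    simp only [lft_cons, rowOf_cons, map_add, smul_add, Finset.sum_add_distrib]
    congr 1
    · rw [← hq (δ + off f x), Finset.sum_smul]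
      refine Finset.sum_congr rfl fun h _ => ?_
      rw [mom_rx, smul_smul, add_assoc]
    · rw [← ih (δ + sh f x)]
      refine Finset.sum_congr rfl fun h _ => ?_
      rw [add_assoc]

lemma degree_comp_sub_lt (q : Polynomial k) (hq0 : q ≠ 0) (δ : k) :
    (q.comp (Polynomial.X + Polynomial.C δ) - q).degree < q.degree := by
  have hX : (Polynomial.X + Polynomial.C δ : Polynomial k).natDegree = 1 :=
    Polynomial.natDegree_X_add_C δ
  have hne : q.comp (Polynomial.X + Polynomial.C δ) ≠ 0 := by
    intro h0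
    have := Polynomial.leadingCoeff_comp (p := q) (q := Polynomial.X + Polynomial.C δ)
      (by rw [hX]; exact one_ne_zero)
    rw [h0, Polynomial.leadingCoeff_X_add_C] at this
    simp only [Polynomial.leadingCoeff_zero, one_pow, mul_one] at this
    exact hq0 (Polynomial.leadingCoeff_eq_zero.1 this.symm)
  have hdeg : (q.comp (Polynomial.X + Polynomial.C δ)).degree = q.degree := by
    rw [Polynomial.degree_eq_natDegree hne, Polynomial.degree_eq_natDegree hq0,
      Polynomial.natDegree_comp, hX, mul_one]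
  have := Polynomial.degree_sub_lt hdeg hne (by
    rw [Polynomial.leadingCoeff_comp (by rw [hX]; exact one_ne_zero),
      Polynomial.leadingCoeff_X_add_C, one_pow, mul_one])
  rwa [hdeg] at this

/-- Rows of lifts of words with independent rows are independent. -/
theorem linearIndependent_lift {I : Type*} (val : L → Option G) (f : L → k)
    (word : I → List (L × Bool))
    (hli : LinearIndependent k (fun i => rowOf k val (word i))) :
    LinearIndependent k
      (fun p : I × k => rowOf k (lval (k := k) val) (lft f p.2 (word p.1))) := by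
  classical
  rw [linearIndependent_iff']
  intro s g hs p₀ hp₀
  set A := s.image Prod.fst with hA
  set B := s.image Prod.snd with hB
  set g' : I → k → k := fun i h => if (i, h) ∈ s then g (i, h) else 0 with hg'
  have hsub : s ⊆ A ×ˢ B := by
    intro p hp
    simp only [Finset.mem_product, hA, hB, Finset.mem_image]
    exact ⟨⟨p, hp, rfl⟩, ⟨p, hp, rfl⟩⟩
  have hsum : ∑ i ∈ A, ∑ h ∈ B, g' i h • rowOf k (lval (k := k) val) (lft f h (word i)) = 0 := by
    rw [← Finset.sum_product' (s := A) (t := B)
      (f := fun i h => g' i h • rowOf k (lval (k := k) val) (lft f h (word i)))]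
    rw [← hs]
    symm
    have : ∀ p ∈ s, g p • rowOf k (lval (k := k) val) (lft f p.2 (word p.1)) =
        g' p.1 p.2 • rowOf k (lval (k := k) val) (lft f p.2 (word p.1)) := by
      intro p hp
      simp only [hg']
      rw [if_pos hp]
    rw [Finset.sum_congr rfl this]
    apply Finset.sum_subset hsub
    intro p _ hp
    simp only [hg']
    rw [if_neg hp, zero_smul]
  have key : ∀ n : ℕ, ∀ q : Polynomial k, q.degree < n → ∀ i ∈ A,
      ∑ h ∈ B, g' i h * q.eval h = 0 := by
    intro n
    induction n with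
    | zero =>
      intro q hq i _
      have : q = 0 := by
        rw [← Polynomial.degree_eq_bot]
        simpa only [Polynomial.degree_eq_bot, CharP.cast_eq_zero, Nat.WithBot.lt_zero_iff] using hq
      simp [this]
    | succ n ih =>
      intro q hq
      by_cases hq0 : q = 0
      · intro i _; simp [hq0]
      have hshift : ∀ i ∈ A, ∀ δ, ∑ h ∈ B, g' i h * q.eval (h + δ) =
          ∑ h ∈ B, g' i h * q.eval h := by
        intro i hi δ
        have h1 := ih (q.comp (Polynomial.X + Polynomial.C δ) - q) (by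
          refine lt_of_lt_of_le (degree_comp_sub_lt q hq0 δ) ?_
          rw [Polynomial.degree_eq_natDegree hq0] at hq ⊢
          exact_mod_cast Nat.lt_succ_iff.1 (by exact_mod_cast hq)) i hi
        simp only [Polynomial.eval_sub, Polynomial.eval_comp, Polynomial.eval_add,
          Polynomial.eval_X, Polynomial.eval_C, mul_sub, Finset.sum_sub_distrib] at h1
        exact sub_eq_zero.1 h1
      have h2 := congrArg (mom q) hsum
      rw [map_sum, map_zero] at h2
      have h3 : ∑ i ∈ A, (∑ h ∈ B, g' i h * q.eval h) • rowOf k val (word i) = 0 := by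
        rw [← h2]
        refine Finset.sum_congr rfl fun i hi => ?_
        rw [map_sum, ← sum_mom_rowOf val f q B (g' i) (hshift i hi) (word i) 0]
        refine Finset.sum_congr rfl fun h _ => ?_
        rw [map_smul, add_zero]
      exact (linearIndependent_iff'.1 hli) A _ h3
  have hiA : p₀.1 ∈ A := Finset.mem_image_of_mem _ hp₀
  have hhB : p₀.2 ∈ B := Finset.mem_image_of_mem _ hp₀
  set q : Polynomial k := ∏ h ∈ B.erase p₀.2, (Polynomial.X - Polynomial.C h) with hqdef
  have h4 := key (q.natDegree + 1) q (by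
    refine lt_of_le_of_lt Polynomial.degree_le_natDegree ?_
    exact_mod_cast Nat.lt_succ_self _) p₀.1 hiA
  rw [Finset.sum_eq_single p₀.2] at h4
  · have h5 : q.eval p₀.2 ≠ 0 := by
      rw [hqdef, Polynomial.eval_prod, Finset.prod_ne_zero_iff]
      intro h hh
      simp only [Polynomial.eval_sub, Polynomial.eval_X, Polynomial.eval_C]
      exact sub_ne_zero.2 (Finset.ne_of_mem_erase hh).symm
    have h6 := (mul_eq_zero.1 h4).resolve_right h5
    simpa [hg', hp₀] using h6
  · intro h hh hne
    have : q.eval h = 0 := by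
      rw [hqdef, Polynomial.eval_prod]
      exact Finset.prod_eq_zero (Finset.mem_erase.2 ⟨hne, hh⟩) (by simp)
    rw [this, mul_zero]
  · intro hn; exact absurd hhB hn

/-- prescribing a linear functional on an independent family -/
lemma exists_functional {I M : Type*} [AddCommGroup M] [Module k M] (v : I → M)
    (hli : LinearIndependent k v) (b : I → k) : ∃ F : M →ₗ[k] k, ∀ i, F (v i) = b i := by
  classical
  obtain ⟨g, hg⟩ := LinearMap.exists_leftInverse_of_injective
    (Finsupp.linearCombination k v) (LinearMap.ker_eq_bot.2 hli)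
  refine ⟨(Finsupp.linearCombination k b).comp g, fun i => ?_⟩
  have h1 : g (v i) = Finsupp.single i 1 := by
    have := LinearMap.congr_fun hg (Finsupp.single i 1)
    simpa using this
  simp [h1]

end Rows

end Vale.Agent.P174
end

section

namespace Vale.Agent.P174

open Matrix Finset

section Piola

variable {ι : Type*} [Fintype ι] [DecidableEq ι] {K : Type*} [Field K]

lemma det_update_swap (D : Matrix ι ι K) {a b : ι} (h : a ≠ b) (x y : ι → K) :
    ((D.updateCol a x).updateCol b y).det = - ((D.updateCol a y).updateCol b x).det := by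
  have e : (D.updateCol a x).updateCol b y
      = ((D.updateCol a y).updateCol b x).submatrix id (Equiv.swap a b) := by
    ext i j
    rcases eq_or_ne j a with rfl | hja
    · simp [h]
    · rcases eq_or_ne j b with rfl | hjb
      · simp [h]
      · rw [Matrix.submatrix_apply, Equiv.swap_apply_of_ne_of_ne hja hjb]
        simp [hja, hjb]
  rw [e, Matrix.det_permute', Equiv.Perm.sign_swap h]
  simp only [Units.val_neg, Units.val_one, Int.reduceNeg, Int.cast_neg, Int.cast_one, neg_mul, one_mul]

lemma sum_det_updateCol (D M : Matrix ι ι K) :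
    ∑ b, (D.updateCol b (fun i => M i b)).det = Matrix.trace (D.adjugate * M) := by
  unfold Matrix.trace
  refine Finset.sum_congr rfl fun b _ => ?_
  rw [← Matrix.cramer_apply, Matrix.cramer_eq_adjugate_mulVec]
  rfl

lemma sum_det_updateCol_mul (D f : Matrix ι ι K) :
    ∑ b, (D.updateCol b (fun i => (f * D) i b)).det = f.trace * D.det := by
  rw [sum_det_updateCol, ← Matrix.mul_assoc, Matrix.trace_mul_comm, ← Matrix.mul_assoc,
    Matrix.mul_adjugate, Matrix.smul_mul, Matrix.one_mul, Matrix.trace_smul, smul_eq_mul, mul_comm]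

lemma det_update_mulVec (D : Matrix ι ι K) {a b : ι} (h : a ≠ b) (v g : ι → K) :
    ((D.updateCol a v).updateCol b (D *ᵥ g)).det
      = g b * (D.updateCol a v).det - g a * (D.updateCol b v).det := by
  have hsum : D *ᵥ g = ∑ c, g c • (fun i => D i c) := by
    ext i
    simp only [mulVec, dotProduct, Finset.sum_apply, Pi.smul_apply, smul_eq_mul, mul_comm]
  have hc : ∀ c, ((D.updateCol a v).updateCol b (fun i => D i c)).det
      = (if c = b then (D.updateCol a v).det else 0) - (if c = a then (D.updateCol b v).det else 0) := by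
    intro c
    rcases eq_or_ne c b with rfl | hcb
    · have : (D.updateCol a v).updateCol c (fun i => D i c) = D.updateCol a v := by
        ext i j
        rcases eq_or_ne j c with rfl | hj
        · simp [Matrix.updateCol_ne h.symm]
        · simp [hj]
      rw [this]; simp only [↓reduceIte, h.symm, sub_zero]
    · rcases eq_or_ne c a with rfl | hca
      · rw [det_update_swap D h]
        have : (D.updateCol c (fun i => D i c)) = D := by
          ext i j
          rcases eq_or_ne j c with rfl | hj
          · simp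
          · simp [hj]
        rw [this]; simp only [hcb, ↓reduceIte, zero_sub]
      · simp only [hcb, hca, if_false, sub_zero]
        refine Matrix.det_zero_of_column_eq (i := b) (j := c) hcb.symm fun k => ?_
        simp [Matrix.updateCol_ne hcb, Matrix.updateCol_ne hca]
  have hlin : ((D.updateCol a v).updateCol b (D *ᵥ g)).det
      = ∑ c, g c * ((D.updateCol a v).updateCol b (fun i => D i c)).det := by
    have h1 : (D.updateCol a v).cramer (D *ᵥ g) b
        = ∑ c, g c * (D.updateCol a v).cramer (fun i => D i c) b := by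
      rw [hsum, map_sum, Finset.sum_apply]
      refine Finset.sum_congr rfl fun c _ => ?_
      rw [map_smul, Pi.smul_apply, smul_eq_mul]
    simpa only [Matrix.cramer_apply] using h1
  rw [hlin]
  simp only [hc, mul_sub, Finset.sum_sub_distrib]
  simp only [mul_ite, mul_zero, sum_ite_eq', mem_univ, ↓reduceIte]

variable [CharZero K]

/-- The algebraic core of the Piola identity. -/
theorem star_identity (ad : (ι → K) →ₗ[K] Matrix ι ι K)
    (htr : ∀ x, (ad x).trace = 0) (hanti : ∀ x y, ad x *ᵥ y = - (ad y *ᵥ x))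
    (D : Matrix ι ι K) (v : ι → K) (A : ι → ι → ι → K)
    (hA : ∀ a b, A a b - A b a = ad (fun i => D i a) *ᵥ (fun i => D i b)
      - D *ᵥ (ad (Pi.single a 1) *ᵥ (Pi.single b 1))) :
    ∑ a, ∑ b, (if a = b then 0 else ((D.updateCol a v).updateCol b (A a b)).det) = 0 := by
  have hself : ∀ x, ad x *ᵥ x = 0 := fun x => by
    have := hanti x x
    have h2 : (2 : K) • (ad x *ᵥ x) = 0 := by
      rw [two_smul]; nth_rewrite 1 [this]; simp
    exact (smul_eq_zero.mp h2).resolve_left two_ne_zero
  set S := ∑ a, ∑ b, (if a = b then 0 else ((D.updateCol a v).updateCol b (A a b)).det) with hS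
  -- antisymmetrization
  have hswap : S = - ∑ a, ∑ b, (if a = b then 0 else ((D.updateCol a v).updateCol b (A b a)).det) := by
    rw [hS, Finset.sum_comm, ← Finset.sum_neg_distrib]
    refine Finset.sum_congr rfl fun a _ => ?_
    rw [← Finset.sum_neg_distrib]
    refine Finset.sum_congr rfl fun b _ => ?_
    rcases eq_or_ne a b with rfl | hab
    · simp
    · rw [if_neg hab.symm, if_neg hab, det_update_swap D hab.symm, Matrix.updateCol_comm _ hab.symm]
  have h2S : S + S = ∑ a, ∑ b, (if a = b then 0 else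
      ((D.updateCol a v).updateCol b (A a b - A b a)).det) := by
    nth_rewrite 2 [hswap]
    rw [hS, ← sub_eq_add_neg, ← Finset.sum_sub_distrib]
    refine Finset.sum_congr rfl fun a _ => ?_
    rw [← Finset.sum_sub_distrib]
    refine Finset.sum_congr rfl fun b _ => ?_
    rcases eq_or_ne a b with rfl | hab
    · simp
    · simp only [if_neg hab, ← Matrix.cramer_apply, map_sub, Pi.sub_apply]
  have h1 : ∀ a, ∑ b, (if a = b then 0 else
      ((D.updateCol a v).updateCol b (ad (fun i => D i a) *ᵥ (fun i => D i b))).det)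
      = (D.updateCol a (ad v *ᵥ (fun i => D i a))).det := by
    intro a
    have key := sum_det_updateCol_mul (D.updateCol a v) (ad (fun i => D i a))
    rw [htr, zero_mul, ← Finset.add_sum_erase _ _ (Finset.mem_univ a)] at key
    rw [← Finset.add_sum_erase _ _ (Finset.mem_univ a)]
    have e1 : ((D.updateCol a v).updateCol a (fun i => (ad (fun i => D i a) * D.updateCol a v) i a)).det
        = - (D.updateCol a (ad v *ᵥ (fun i => D i a))).det := by
      have : (fun i => (ad (fun i => D i a) * D.updateCol a v) i a) = - (ad v *ᵥ (fun i => D i a)) := by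
        rw [← hanti]
        ext i
        simp only [Matrix.mul_apply, updateCol_self, mulVec, dotProduct]
      rw [this, ← Matrix.cramer_apply, map_neg, Pi.neg_apply, Matrix.cramer_apply]
      simp only [updateCol_idem]
    have e2 : ∀ b ∈ Finset.univ.erase a, ((D.updateCol a v).updateCol b
        (fun i => (ad (fun i => D i a) * D.updateCol a v) i b)).det
        = (if a = b then 0 else
      ((D.updateCol a v).updateCol b (ad (fun i => D i a) *ᵥ (fun i => D i b))).det) := by
      intro b hb
      have hba : b ≠ a := Finset.ne_of_mem_erase hb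
      rw [if_neg hba.symm]
      congr 2
      ext i
      simp only [Matrix.mul_apply, Matrix.updateCol_ne hba, mulVec, dotProduct]
    rw [Finset.sum_congr rfl e2, e1] at key
    simp only [if_true, zero_add]
    linear_combination key
  have h1' : ∑ a, ∑ b, (if a = b then 0 else
      ((D.updateCol a v).updateCol b (ad (fun i => D i a) *ᵥ (fun i => D i b))).det) = 0 := by
    rw [Finset.sum_congr rfl fun a _ => h1 a]
    have := sum_det_updateCol_mul D (ad v)
    rw [htr, zero_mul] at this
    rw [← this]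
    refine Finset.sum_congr rfl fun a _ => ?_
    congr 2
  have h2' : ∑ a, ∑ b, (if a = b then 0 else
      ((D.updateCol a v).updateCol b (D *ᵥ (ad (Pi.single a 1) *ᵥ (Pi.single b 1)))).det) = 0 := by
    have hterm : ∀ a b, (if a = b then 0 else
        ((D.updateCol a v).updateCol b (D *ᵥ (ad (Pi.single a 1) *ᵥ (Pi.single b 1)))).det)
        = (ad (Pi.single a 1)) b b * (D.updateCol a v).det
          + (ad (Pi.single b 1)) a a * (D.updateCol b v).det := by
      intro a b
      have q1 : (ad (Pi.single a 1) *ᵥ (Pi.single b 1)) b = (ad (Pi.single a 1)) b b := by simp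
      have q2 : (ad (Pi.single a 1) *ᵥ (Pi.single b 1)) a = - (ad (Pi.single b 1)) a a := by
        rw [hanti]; simp
      rcases eq_or_ne a b with rfl | hab
      · have : (ad (Pi.single a 1)) a a = 0 := by
          have := congrFun (hself (Pi.single a 1)) a
          simpa using this
        simp only [↓reduceIte, this, zero_mul, add_zero]
      · rw [if_neg hab, det_update_mulVec D hab, q1, q2]; ring
    simp only [hterm, Finset.sum_add_distrib]
    rw [Finset.sum_comm (f := fun a b => (ad (Pi.single b 1)) a a * (D.updateCol b v).det)]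
    simp only [← Finset.sum_mul]
    have : ∀ a, ∑ i, (ad (Pi.single a 1)) i i = 0 := fun a => htr _
    simp only [this, zero_mul, sum_const_zero, add_zero]
  have : S + S = 0 := by
    rw [h2S]
    have : ∀ a b, (if a = b then 0 else
      ((D.updateCol a v).updateCol b (A a b - A b a)).det)
      = (if a = b then 0 else
      ((D.updateCol a v).updateCol b (ad (fun i => D i a) *ᵥ (fun i => D i b))).det)
      - (if a = b then 0 else
      ((D.updateCol a v).updateCol b (D *ᵥ (ad (Pi.single a 1) *ᵥ (Pi.single b 1)))).det) := by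
      intro a b
      rcases eq_or_ne a b with rfl | hab
      · simp
      · simp only [hA, ← cramer_apply, map_sub, Pi.sub_apply, if_neg hab]
    simp only [this, Finset.sum_sub_distrib, h1', h2', sub_zero]
  have h2 : (2 : K) * S = 0 := by rw [two_mul]; exact this
  exact (mul_eq_zero.mp h2).resolve_left two_ne_zero

end Piola

section Deriv

variable {ι : Type*} [Fintype ι] [DecidableEq ι] {K : Type*} [Field K] [CharZero K]
  {R : Type*} [CommRing R] [Algebra K R]

lemma derivation_prod (T : Derivation K R R) {κ : Type*} [DecidableEq κ] (s : Finset κ) (f : κ → R) :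
    T (∏ i ∈ s, f i) = ∑ i ∈ s, (∏ j ∈ s.erase i, f j) * T (f i) := by
  induction s using Finset.induction_on with
  | empty => simp
  | insert a s ha ih =>
    rw [Finset.prod_insert ha, Derivation.leibniz, ih, Finset.sum_insert ha, Finset.erase_insert ha,
      smul_eq_mul, smul_eq_mul, add_comm, Finset.mul_sum]
    congr 1
    refine Finset.sum_congr rfl fun i hi => ?_
    have hia : i ≠ a := fun h => ha (h ▸ hi)
    rw [Finset.erase_insert_of_ne hia.symm, Finset.prod_insert (fun h => ha (Finset.mem_of_mem_erase h))]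
    ring

lemma derivation_det (T : Derivation K R R) (M : Matrix ι ι R) :
    T M.det = ∑ b, (M.updateCol b (fun i => T (M i b))).det := by
  simp only [Matrix.det_apply, map_sum]
  rw [Finset.sum_comm]
  refine Finset.sum_congr rfl fun σ _ => ?_
  have h0 : T (Equiv.Perm.sign σ • ∏ i, M (σ i) i) = Equiv.Perm.sign σ • T (∏ i, M (σ i) i) := by
    rcases Int.units_eq_one_or (Equiv.Perm.sign σ) with h | h <;> simp [h]
  rw [h0, derivation_prod, Finset.smul_sum]
  refine Finset.sum_congr rfl fun b _ => ?_
  congr 1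
  rw [← Finset.mul_prod_erase _ _ (Finset.mem_univ b), mul_comm]
  congr 1
  · simp
  · refine Finset.prod_congr rfl fun i hi => ?_
    rw [Matrix.updateCol_ne (Finset.ne_of_mem_erase hi)]

lemma ev_derivation_det (T : Derivation K R R) (ev : R →+* K) (M : Matrix ι ι R) :
    ev (T M.det) = ∑ b, ((M.map ev).updateCol b (fun i => ev (T (M i b)))).det := by
  rw [derivation_det, map_sum]
  refine Finset.sum_congr rfl fun b _ => ?_
  rw [RingHom.map_det]
  congr 1
  ext i j
  rcases eq_or_ne j b with rfl | h
  · simp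
  · simp [h]

theorem piola (T : ι → Derivation K R R) (Z : Derivation K R R) (ev : R →+* K)
    (ad : (ι → K) →ₗ[K] Matrix ι ι K)
    (htr : ∀ x, (ad x).trace = 0) (hanti : ∀ x y, ad x *ᵥ y = - (ad y *ᵥ x))
    (D : Matrix ι ι R) (v : ι → R) (F : R) (g : ι → K)
    (hF1 : ∀ a, ev (T a F) = ∑ c, g c * ev (D c a))
    (hF2 : ev (Z F) = ∑ c, g c * ev (v c))
    (hMC1 : ∀ a b, (fun c => ev (T a (D c b))) - (fun c => ev (T b (D c a)))
      = ad (fun c => ev (D c a)) *ᵥ (fun c => ev (D c b))
        - (D.map ev) *ᵥ (ad (Pi.single a 1) *ᵥ (Pi.single b 1)))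
    (hMC2 : ∀ b, (fun c => ev (Z (D c b))) - (fun c => ev (T b (v c)))
      = ad (fun c => ev (v c)) *ᵥ (fun c => ev (D c b))) :
    ev (Z (F * D.det)) = ∑ a, ev (T a (F * (D.updateCol a v).det)) := by
  set E : Matrix ι ι K := D.map ev with hE
  set w : ι → K := fun c => ev (v c) with hw
  have hEc : ∀ a, (fun c => ev (D c a)) = fun c => E c a := fun a => rfl
  have hdet : ev D.det = E.det := by rw [RingHom.map_det]; rfl
  have hCa : ∀ a, ev (D.updateCol a v).det = (E.updateCol a w).det := by
    intro a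
    rw [RingHom.map_det]
    congr 1
    ext i j
    rcases eq_or_ne j a with rfl | h
    · simp [hw]
    · simp [h, hE]
  -- derivative of the cofactors
  have hCder : ∀ a, ev (T a (D.updateCol a v).det)
      = (E.updateCol a (fun c => ev (T a (v c)))).det
        + ∑ b, (if a = b then 0 else ((E.updateCol a w).updateCol b (fun c => ev (T a (D c b)))).det) := by
    intro a
    rw [ev_derivation_det]
    have hmap : (D.updateCol a v).map ev = E.updateCol a w := by
      ext i j
      rcases eq_or_ne j a with rfl | h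
      · simp [hw]
      · simp [h, hE]
    rw [hmap, ← Finset.add_sum_erase _ _ (Finset.mem_univ a),
      ← Finset.add_sum_erase (s := Finset.univ) (a := a) (h := Finset.mem_univ a)
        (f := fun b => (if a = b then 0 else
          ((E.updateCol a w).updateCol b (fun c => ev (T a (D c b)))).det))]
    simp only [if_true, zero_add]
    congr 1
    · simp only [updateCol_self, updateCol_idem]
    · refine Finset.sum_congr rfl fun b hb => ?_
      have hba : b ≠ a := Finset.ne_of_mem_erase hb
      rw [if_neg hba.symm]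
      congr 2
      ext c
      rw [Matrix.updateCol_ne hba]
  have hstar := star_identity ad htr hanti E w (fun a b c => ev (T a (D c b)))
    (fun a b => by simpa only [hEc] using hMC1 a b)
  have hZ : ev (Z D.det) = ∑ a, (E.updateCol a (fun c => ev (T a (v c)))).det := by
    rw [ev_derivation_det]
    have h0 := sum_det_updateCol_mul E (ad w)
    rw [htr, zero_mul] at h0
    have h1 : ∀ b, (E.updateCol b (fun i => (ad w * E) i b)).det
        = (E.updateCol b (fun c => ev (Z (D c b)))).det
          - (E.updateCol b (fun c => ev (T b (v c)))).det := by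
      intro b
      have : (fun i => (ad w * E) i b) = (fun c => ev (Z (D c b))) - (fun c => ev (T b (v c))) := by
        rw [hMC2]
        rfl
      rw [this]
      simp only [← Matrix.cramer_apply, map_sub, Pi.sub_apply]
    simp only [h1, Finset.sum_sub_distrib] at h0
    exact sub_eq_zero.mp h0
  have hCsum : ∑ a, (E.updateCol a w).det * (∑ c, g c * E c a) = E.det * ∑ c, g c * w c := by
    have h2 := Matrix.mulVec_cramer E w
    have h3 : ∀ c, ∑ a, E c a * (E.updateCol a w).det = E.det * w c := by
      intro c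
      have := congrFun h2 c
      simpa only [mulVec, dotProduct, cramer_apply, Pi.smul_apply, smul_eq_mul] using this
    calc ∑ a, (E.updateCol a w).det * (∑ c, g c * E c a)
        = ∑ a, ∑ c, g c * (E c a * (E.updateCol a w).det) := by
          refine Finset.sum_congr rfl fun a _ => ?_
          rw [Finset.mul_sum]
          refine Finset.sum_congr rfl fun c _ => ?_
          ring
      _ = ∑ c, g c * ∑ a, (E c a * (E.updateCol a w).det) := by
          rw [Finset.sum_comm]
          simp only [Finset.mul_sum]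
      _ = _ := by
          simp only [h3, Finset.mul_sum]
          refine Finset.sum_congr rfl fun c _ => ?_
          ring
  have hLHS : ev (Z (F * D.det)) = ev F * ev (Z D.det) + E.det * ∑ c, g c * w c := by
    rw [Derivation.leibniz, map_add, smul_eq_mul, smul_eq_mul, map_mul, map_mul, hF2, hdet]
  have hRHS : ∀ a, ev (T a (F * (D.updateCol a v).det))
      = ev F * ev (T a (D.updateCol a v).det) + (E.updateCol a w).det * ∑ c, g c * E c a := by
    intro a
    rw [Derivation.leibniz, map_add, smul_eq_mul, smul_eq_mul, map_mul, map_mul, hF1, hCa]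
    rfl
  rw [hLHS]
  simp only [hRHS, Finset.sum_add_distrib, hCsum, ← Finset.mul_sum, hCder]
  rw [hstar, add_zero, hZ]

end Deriv

end Vale.Agent.P174
end

section

namespace Vale.Agent.P174

open Matrix Finset MvPolynomial

/-- complex square matrices -/
abbrev Mat (N : ℕ) := Matrix (Fin N) (Fin N) ℂ

/-- the unitary group -/
abbrev UU (N : ℕ) := Matrix.unitaryGroup (Fin N) ℂ

/-- polynomials in the entries of the generic matrices and of their formal inverses -/
abbrev PP (V : Type*) (N : ℕ) := MvPolynomial (V × Bool × Fin N × Fin N) ℂ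

section Ring

variable {V : Type*} {N : ℕ}

/-- generic matrix -/
noncomputable def XX (v : V) (b : Bool) : Matrix (Fin N) (Fin N) (PP V N) :=
  Matrix.of fun p q => X (v, b, p, q)

/-- constant matrix -/
noncomputable def CC (Y : Mat N) : Matrix (Fin N) (Fin N) (PP V N) := Y.map C

/-- the derivation in the direction `Y` -/
noncomputable def TT (Y : V → Mat N) : Derivation ℂ (PP V N) (PP V N) :=
  mkDerivation ℂ (fun x => if x.2.1 then
      (CC (Y x.1) * XX x.1 true : Matrix (Fin N) (Fin N) (PP V N)) x.2.2.1 x.2.2.2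
    else - (XX x.1 false * CC (Y x.1) : Matrix (Fin N) (Fin N) (PP V N)) x.2.2.1 x.2.2.2)

lemma TT_X_true (Y : V → Mat N) (v : V) :
    (XX v true).map (TT Y) = CC (Y v) * XX v true := by
  ext1 p q
  simp only [Matrix.map_apply, XX, Matrix.of_apply, TT, mkDerivation_X]
  rfl

lemma TT_X_false (Y : V → Mat N) (v : V) :
    (XX v false).map (TT Y) = - (XX v false * CC (Y v)) := by
  ext1 p q
  simp only [Matrix.map_apply, XX, Matrix.of_apply, TT, mkDerivation_X]
  rfl

lemma TT_C (Y : V → Mat N) (M : Mat N) : (CC M : Matrix (Fin N) (Fin N) (PP V N)).map (TT Y) = 0 := by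
  ext1 p q
  simp [CC]

/-- Leibniz for matrices -/
lemma map_deriv_mul {R : Type*} [CommRing R] [Algebra ℂ R] {l m n : Type*} [Fintype m]
    (T : Derivation ℂ R R) (A : Matrix l m R) (B : Matrix m n R) :
    (A * B).map T = A.map T * B + A * B.map T := by
  ext1 p q
  simp only [Matrix.map_apply, Matrix.mul_apply, Matrix.add_apply, map_sum, Derivation.leibniz,
    smul_eq_mul, ← Finset.sum_add_distrib]
  refine Finset.sum_congr rfl fun i _ => ?_
  ring

lemma map_deriv_one {R : Type*} [CommRing R] [Algebra ℂ R] {n : Type*} [Fintype n] [DecidableEq n]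
    (T : Derivation ℂ R R) : (1 : Matrix n n R).map T = 0 := by
  ext1 p q
  rcases eq_or_ne p q with rfl | h
  · simp
  · simp only [map_apply, Matrix.one_apply_ne h, map_zero, Matrix.zero_apply]

lemma map_deriv_neg {R : Type*} [CommRing R] [Algebra ℂ R] {m n : Type*}
    (T : Derivation ℂ R R) (A : Matrix m n R) : (-A).map T = - A.map T := by
  ext1 p q
  simp only [map_apply, Matrix.neg_apply, map_neg]

lemma CC_mul (A B : Mat N) : (CC (A * B) : Matrix (Fin N) (Fin N) (PP V N)) = CC A * CC B := by
  simp [CC, Matrix.map_mul]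

lemma CC_add (A B : Mat N) : (CC (A + B) : Matrix (Fin N) (Fin N) (PP V N)) = CC A + CC B := by
  ext1 p q; simp [CC]

lemma CC_sub (A B : Mat N) : (CC (A - B) : Matrix (Fin N) (Fin N) (PP V N)) = CC A - CC B := by
  ext1 p q; simp [CC]

lemma CC_smul (c : ℂ) (A : Mat N) :
    (CC (c • A) : Matrix (Fin N) (Fin N) (PP V N)) = c • CC A := by
  ext1 p q; simp [CC, MvPolynomial.smul_eq_C_mul]

lemma TT_ext {Y : V → Mat N} {D : Derivation ℂ (PP V N) (PP V N)}
    (h1 : ∀ v, (XX v true).map (TT Y) = (XX v true).map D)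
    (h2 : ∀ v, (XX v false).map (TT Y) = (XX v false).map D) : TT Y = D := by
  apply MvPolynomial.derivation_ext
  rintro ⟨v, b, p, q⟩
  cases b
  · exact congrFun (congrFun (h2 v) p) q
  · exact congrFun (congrFun (h1 v) p) q

lemma TT_add (Y Y' : V → Mat N) : TT (Y + Y') = TT Y + TT Y' := by
  apply TT_ext
  · intro v
    have : (XX v true).map (TT Y + TT Y') = (XX v true).map (TT Y) + (XX v true).map (TT Y') := rfl
    rw [this, TT_X_true, TT_X_true, TT_X_true, Pi.add_apply, CC_add, Matrix.add_mul]
  · intro v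
    have : (XX v false).map (TT Y + TT Y') = (XX v false).map (TT Y) + (XX v false).map (TT Y') := rfl
    rw [this, TT_X_false, TT_X_false, TT_X_false, Pi.add_apply, CC_add, Matrix.mul_add]
    abel

lemma TT_smul (c : ℂ) (Y : V → Mat N) : TT (c • Y) = c • TT Y := by
  apply TT_ext
  · intro v
    have : (XX v true).map (c • TT Y) = c • (XX v true).map (TT Y) := rfl
    rw [this, TT_X_true, TT_X_true, Pi.smul_apply, CC_smul, Matrix.smul_mul]
  · intro v
    have : (XX v false).map (c • TT Y) = c • (XX v false).map (TT Y) := rfl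
    rw [this, TT_X_false, TT_X_false, Pi.smul_apply, CC_smul, Matrix.mul_smul, smul_neg]

/-- commutator of the derivations -/
lemma TT_comm (Y Y' : V → Mat N) (f : PP V N) :
    TT Y (TT Y' f) - TT Y' (TT Y f) = - TT (Y * Y' - Y' * Y) f := by
  have h : ⁅TT Y, TT Y'⁆ = - TT (Y * Y' - Y' * Y) := by
    rw [eq_comm, neg_eq_iff_eq_neg]
    apply TT_ext
    · intro v
      have : (XX v true).map (-⁅TT Y, TT Y'⁆) = -(((XX v true).map (TT Y')).map (TT Y)
          - ((XX v true).map (TT Y)).map (TT Y')) := by
        ext1 p q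
        simp only [lie_skew, map_apply, Derivation.commutator_apply, Matrix.map_map, Matrix.neg_apply, Matrix.sub_apply, Function.comp_apply, neg_sub]
      rw [this, TT_X_true, TT_X_true, TT_X_true, map_deriv_mul, map_deriv_mul, TT_C, TT_C,
        TT_X_true, TT_X_true, Pi.sub_apply, Pi.mul_apply, Pi.mul_apply, CC_sub, CC_mul, CC_mul]
      simp only [Matrix.zero_mul, zero_add, Matrix.sub_mul, Matrix.mul_assoc]
      abel
    · intro v
      have : (XX v false).map (-⁅TT Y, TT Y'⁆) = -(((XX v false).map (TT Y')).map (TT Y)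
          - ((XX v false).map (TT Y)).map (TT Y')) := by
        ext1 p q
        simp only [lie_skew, map_apply, Derivation.commutator_apply, Matrix.map_map, Matrix.neg_apply, Matrix.sub_apply, Function.comp_apply, neg_sub]
      rw [this, TT_X_false, TT_X_false, TT_X_false, map_deriv_neg, map_deriv_neg, map_deriv_mul,
        map_deriv_mul, TT_C, TT_C,
        TT_X_false, TT_X_false, Pi.sub_apply, Pi.mul_apply, Pi.mul_apply, CC_sub, CC_mul, CC_mul]
      simp only [Matrix.mul_zero, add_zero, Matrix.mul_sub, Matrix.neg_mul, Matrix.mul_assoc]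
      abel
  have := congrArg (fun D : Derivation ℂ (PP V N) (PP V N) => D f) h
  simpa only [Derivation.commutator_apply, Derivation.coe_neg, Pi.neg_apply] using this

end Ring

end Vale.Agent.P174
end

section

namespace Vale.Agent.P174

open Matrix Finset MvPolynomial

/-- the tangent group of the unitary group -/
structure TG (N : ℕ) where
  x : Mat N
  u : UU N

namespace TG

variable {N : ℕ}

@[ext] lemma ext' {a b : TG N} (h1 : a.x = b.x) (h2 : a.u = b.u) : a = b := by
  cases a; cases b; simp_all

instance : Mul (TG N) := ⟨fun a b => ⟨a.x + (a.u : Mat N) * b.x * ((a.u⁻¹ : UU N) : Mat N), a.u * b.u⟩⟩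
instance : One (TG N) := ⟨⟨0, 1⟩⟩
instance : Inv (TG N) := ⟨fun a => ⟨- (((a.u⁻¹ : UU N) : Mat N) * a.x * (a.u : Mat N)), a.u⁻¹⟩⟩

lemma mul_x (a b : TG N) : (a * b).x = a.x + (a.u : Mat N) * b.x * ((a.u⁻¹ : UU N) : Mat N) := rfl
lemma mul_u (a b : TG N) : (a * b).u = a.u * b.u := rfl
lemma one_x : (1 : TG N).x = 0 := rfl
lemma one_u : (1 : TG N).u = 1 := rfl
lemma inv_x (a : TG N) : (a⁻¹).x = - (((a.u⁻¹ : UU N) : Mat N) * a.x * (a.u : Mat N)) := rfl
lemma inv_u (a : TG N) : (a⁻¹).u = a.u⁻¹ := rfl

lemma coe_inv_mul (u : UU N) : ((u⁻¹ : UU N) : Mat N) * (u : Mat N) = 1 := by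
  rw [← Submonoid.coe_mul, inv_mul_cancel]; rfl

lemma coe_mul_inv (u : UU N) : (u : Mat N) * ((u⁻¹ : UU N) : Mat N) = 1 := by
  rw [← Submonoid.coe_mul, mul_inv_cancel]; rfl

instance : Group (TG N) := Group.ofLeftAxioms
  (fun a b c => by
    apply ext'
    · simp only [mul_x, mul_u, _root_.mul_inv_rev, Submonoid.coe_mul, mul_add, add_mul, mul_assoc, add_assoc]
    · simp only [mul_u, mul_assoc])
  (fun a => by
    apply ext'
    · simp [mul_x, one_x, one_u]
    · simp [mul_u, one_u])
  (fun a => by
    apply ext'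
    · rw [mul_x, inv_x, inv_u, inv_inv, one_x]
      simp
    · simp [mul_u, inv_u, one_u])

end TG

section Word

variable {V : Type*} {N : ℕ}

/-- evaluation at a point -/
noncomputable def ev (t : V → UU N) : PP V N →+* ℂ :=
  eval (fun x => if x.2.1 then (t x.1 : Mat N) x.2.2.1 x.2.2.2
    else (((t x.1)⁻¹ : UU N) : Mat N) x.2.2.1 x.2.2.2)

lemma ev_XX_true (t : V → UU N) (v : V) : (XX v true).map (ev t) = (t v : Mat N) := by
  ext1 p q
  simp only [ev, XX, Matrix.map_apply, Matrix.of_apply, eval_X]
  rfl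

lemma ev_XX_false (t : V → UU N) (v : V) :
    (XX v false).map (ev t) = (((t v)⁻¹ : UU N) : Mat N) := by
  ext1 p q
  simp only [ev, XX, Matrix.map_apply, Matrix.of_apply, eval_X]
  rfl

lemma ev_CC (t : V → UU N) (Y : Mat N) : (CC Y : Matrix _ _ (PP V N)).map (ev t) = Y := by
  ext1 p q
  simp only [CC, ev, UnitaryGroup.inv_val, star_apply, RCLike.star_def, map_apply, eval_C]

lemma map_ev_mul {R S : Type*} [CommRing R] [CommRing S] {l m n : Type*} [Fintype m]
    (f : R →+* S) (A : Matrix l m R) (B : Matrix m n R) :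
    (A * B).map f = A.map f * B.map f := by
  simp only [Matrix.map_mul]

lemma map_ev_add {R S : Type*} [CommRing R] [CommRing S] {l m : Type*}
    (f : R →+* S) (A B : Matrix l m R) :
    (A + B).map f = A.map f + B.map f := by
  ext1 p q; simp only [map_apply, Matrix.add_apply, map_add]

lemma map_ev_sub {R S : Type*} [CommRing R] [CommRing S] {l m : Type*}
    (f : R →+* S) (A B : Matrix l m R) :
    (A - B).map f = A.map f - B.map f := by
  ext1 p q; simp

lemma map_ev_neg {R S : Type*} [CommRing R] [CommRing S] {l m : Type*}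
    (f : R →+* S) (A : Matrix l m R) :
    (- A).map f = - A.map f := by
  ext1 p q; simp only [map_apply, Matrix.neg_apply, map_neg]

/-- word matrix -/
noncomputable def Wd : List (V × Bool) → Matrix (Fin N) (Fin N) (PP V N)
  | [] => 1
  | x :: L => XX x.1 x.2 * Wd L

/-- inverse word matrix -/
noncomputable def Wi : List (V × Bool) → Matrix (Fin N) (Fin N) (PP V N)
  | [] => 1
  | x :: L => Wi L * XX x.1 (!x.2)

lemma mk_cons_true (v : V) (L : List (V × Bool)) :
    FreeGroup.mk ((v, true) :: L) = FreeGroup.of v * FreeGroup.mk L := rfl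

lemma mk_cons_false (v : V) (L : List (V × Bool)) :
    FreeGroup.mk ((v, false) :: L) = (FreeGroup.of v)⁻¹ * FreeGroup.mk L := rfl

lemma ev_Wd (t : V → UU N) (L : List (V × Bool)) :
    (Wd L).map (ev t) = ((FreeGroup.lift t (FreeGroup.mk L) : UU N) : Mat N) := by
  induction L with
  | nil =>
    rw [show FreeGroup.mk ([] : List (V × Bool)) = 1 from rfl, map_one]
    simp only [Wd, map_zero, map_one, Matrix.map_one, OneMemClass.coe_one]
  | cons x L ih =>
    obtain ⟨v, b⟩ := x
    rw [Wd, map_ev_mul, ih]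
    cases b
    · rw [mk_cons_false, map_mul, map_inv, FreeGroup.lift_apply_of, ev_XX_false]; rfl
    · rw [mk_cons_true, map_mul, FreeGroup.lift_apply_of, ev_XX_true]; rfl

lemma ev_Wi (t : V → UU N) (L : List (V × Bool)) :
    (Wi L).map (ev t) = (((FreeGroup.lift t (FreeGroup.mk L))⁻¹ : UU N) : Mat N) := by
  induction L with
  | nil =>
    rw [show FreeGroup.mk ([] : List (V × Bool)) = 1 from rfl, map_one]
    simp only [Wi, map_zero, map_one, Matrix.map_one, inv_one, OneMemClass.coe_one]
  | cons x L ih =>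
    obtain ⟨v, b⟩ := x
    rw [Wi, map_ev_mul, ih]
    cases b
    · rw [mk_cons_false, map_mul, map_inv, FreeGroup.lift_apply_of, _root_.mul_inv_rev, inv_inv,
        Bool.not_false, ev_XX_true]
      rfl
    · rw [mk_cons_true, map_mul, FreeGroup.lift_apply_of, _root_.mul_inv_rev, Bool.not_true, ev_XX_false]
      rfl

/-- tangent evaluation -/
noncomputable def fox (t : V → UU N) (Y : V → Mat N) : FreeGroup V →* TG N :=
  FreeGroup.lift fun v => ⟨Y v, t v⟩

lemma fox_of (t : V → UU N) (Y : V → Mat N) (v : V) :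
    fox t Y (FreeGroup.of v) = ⟨Y v, t v⟩ := by
  simp [fox]

lemma fox_u (t : V → UU N) (Y : V → Mat N) (w : FreeGroup V) :
    (fox t Y w).u = FreeGroup.lift t w := by
  let f : FreeGroup V →* UU N :=
    { toFun := fun w => (fox t Y w).u
      map_one' := by simp [TG.one_u]
      map_mul' := fun a b => by simp only [map_mul, TG.mul_u] }
  have : f = FreeGroup.lift t := by
    ext1 v
    simp [f, fox_of]
  exact congrArg (fun g : FreeGroup V →* UU N => g w) this

/-- the derivative of the word `w` at `t` in the direction `Y` (right trivialized) -/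
noncomputable def fx (t : V → UU N) (Y : V → Mat N) (w : FreeGroup V) : Mat N := (fox t Y w).x

lemma fx_one (t : V → UU N) (Y : V → Mat N) : fx t Y 1 = 0 := by
  simp [fx, TG.one_x]

lemma fx_of (t : V → UU N) (Y : V → Mat N) (v : V) : fx t Y (FreeGroup.of v) = Y v := by
  simp [fx, fox_of]

lemma fx_mul (t : V → UU N) (Y : V → Mat N) (a b : FreeGroup V) :
    fx t Y (a * b) = fx t Y a + ((FreeGroup.lift t a : UU N) : Mat N) * fx t Y b *
      (((FreeGroup.lift t a)⁻¹ : UU N) : Mat N) := by
  rw [fx, map_mul, TG.mul_x, fox_u]; rfl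

lemma fx_inv (t : V → UU N) (Y : V → Mat N) (a : FreeGroup V) :
    fx t Y a⁻¹ = - ((((FreeGroup.lift t a)⁻¹ : UU N) : Mat N) * fx t Y a *
      ((FreeGroup.lift t a : UU N) : Mat N)) := by
  rw [fx, map_inv, TG.inv_x, fox_u]; rfl

lemma fox_link (t : V → UU N) (Y : V → Mat N) (L : List (V × Bool)) :
    ((Wd L).map (TT Y)).map (ev t)
      = fx t Y (FreeGroup.mk L) * ((FreeGroup.lift t (FreeGroup.mk L) : UU N) : Mat N) := by
  induction L with
  | nil =>
    rw [show FreeGroup.mk ([] : List (V × Bool)) = 1 from rfl, fx_one, Wd, map_deriv_one]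
    ext1 p q
    simp only [map_apply, Matrix.zero_apply, map_zero, map_one, OneMemClass.coe_one, mul_one]
  | cons x L ih =>
    obtain ⟨v, b⟩ := x
    rw [Wd, map_deriv_mul, map_ev_add, map_ev_mul, map_ev_mul, ih, ev_Wd]
    cases b
    · rw [mk_cons_false, map_mul, map_inv, FreeGroup.lift_apply_of, ev_XX_false, TT_X_false,
        map_ev_neg, map_ev_mul, ev_XX_false, ev_CC, fx_mul, fx_inv, fx_of, map_inv,
        FreeGroup.lift_apply_of, inv_inv]
      set A := ((FreeGroup.lift t (FreeGroup.mk L) : UU N) : Mat N)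
      set x := fx t Y (FreeGroup.mk L)
      have h := TG.coe_mul_inv (t v)
      rw [Submonoid.coe_mul]
      set U := (t v : Mat N)
      set U' := (((t v)⁻¹ : UU N) : Mat N)
      have h' : ∀ M : Mat N, U * (U' * M) = M := fun M => by rw [← Matrix.mul_assoc, h, Matrix.one_mul]
      simp only [Matrix.add_mul, Matrix.neg_mul, Matrix.mul_assoc]
      rw [h']
    · rw [mk_cons_true, map_mul, FreeGroup.lift_apply_of, ev_XX_true, TT_X_true,
        map_ev_mul, ev_XX_true, ev_CC, fx_mul, fx_of,
        FreeGroup.lift_apply_of]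
      set A := ((FreeGroup.lift t (FreeGroup.mk L) : UU N) : Mat N)
      set x := fx t Y (FreeGroup.mk L)
      have h := TG.coe_inv_mul (t v)
      rw [Submonoid.coe_mul]
      set U := (t v : Mat N)
      set U' := (((t v)⁻¹ : UU N) : Mat N)
      have h' : ∀ M : Mat N, U' * (U * M) = M := fun M => by rw [← Matrix.mul_assoc, h, Matrix.one_mul]
      simp only [Matrix.add_mul, Matrix.mul_assoc]
      rw [h']

lemma fox_link_inv (t : V → UU N) (Y : V → Mat N) (L : List (V × Bool)) :
    ((Wi L).map (TT Y)).map (ev t)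
      = - ((((FreeGroup.lift t (FreeGroup.mk L))⁻¹ : UU N) : Mat N) * fx t Y (FreeGroup.mk L)) := by
  induction L with
  | nil =>
    rw [show FreeGroup.mk ([] : List (V × Bool)) = 1 from rfl, fx_one, Wi, map_deriv_one]
    ext1 p q
    simp only [map_apply, Matrix.zero_apply, map_zero, map_one, inv_one, OneMemClass.coe_one, mul_zero, Matrix.neg_apply, neg_zero]
  | cons x L ih =>
    obtain ⟨v, b⟩ := x
    rw [Wi, map_deriv_mul, map_ev_add, map_ev_mul, map_ev_mul, ih, ev_Wi]
    cases b
    · rw [mk_cons_false, map_mul, map_inv, FreeGroup.lift_apply_of, Bool.not_false, ev_XX_true,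
        TT_X_true, map_ev_mul, ev_XX_true, ev_CC, fx_mul, fx_inv, fx_of, map_inv,
        FreeGroup.lift_apply_of, inv_inv, _root_.mul_inv_rev, inv_inv]
      set A := (((FreeGroup.lift t (FreeGroup.mk L))⁻¹ : UU N) : Mat N) with hA
      set x := fx t Y (FreeGroup.mk L)
      have h := TG.coe_mul_inv (t v)
      rw [Submonoid.coe_mul, ← hA]
      set U := (t v : Mat N)
      set U' := (((t v)⁻¹ : UU N) : Mat N)
      have h' : ∀ M : Mat N, U * (U' * M) = M := fun M => by rw [← Matrix.mul_assoc, h, Matrix.one_mul]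
      simp only [Matrix.mul_add, Matrix.neg_mul, Matrix.mul_neg, Matrix.mul_assoc, h', neg_add, neg_neg]
      abel
    · rw [mk_cons_true, map_mul, FreeGroup.lift_apply_of, Bool.not_true, ev_XX_false, TT_X_false,
        map_ev_neg, map_ev_mul, ev_XX_false, ev_CC, fx_mul, fx_of,
        FreeGroup.lift_apply_of, _root_.mul_inv_rev]
      set A := (((FreeGroup.lift t (FreeGroup.mk L))⁻¹ : UU N) : Mat N) with hA
      set x := fx t Y (FreeGroup.mk L)
      have h := TG.coe_inv_mul (t v)
      rw [Submonoid.coe_mul, ← hA]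
      set U := (t v : Mat N)
      set U' := (((t v)⁻¹ : UU N) : Mat N)
      have h' : ∀ M : Mat N, U' * (U * M) = M := fun M => by rw [← Matrix.mul_assoc, h, Matrix.one_mul]
      simp only [Matrix.neg_mul, Matrix.mul_assoc, Matrix.mul_neg, Matrix.mul_add, h', neg_add]
      abel

/-- polynomial lift of the derivative of a word -/
noncomputable def Dp (Y : V → Mat N) (L : List (V × Bool)) : Matrix (Fin N) (Fin N) (PP V N) :=
  (Wd L).map (TT Y) * Wi L

lemma ev_Dp (t : V → UU N) (Y : V → Mat N) (L : List (V × Bool)) :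
    (Dp Y L).map (ev t) = fx t Y (FreeGroup.mk L) := by
  rw [Dp, map_ev_mul, fox_link, ev_Wi, Matrix.mul_assoc, TG.coe_mul_inv, Matrix.mul_one]

lemma fx_add (t : V → UU N) (Y Y' : V → Mat N) (w : FreeGroup V) :
    fx t (Y + Y') w = fx t Y w + fx t Y' w := by
  classical
  rw [← FreeGroup.mk_toWord (x := w), ← ev_Dp, ← ev_Dp, ← ev_Dp, Dp, Dp, Dp, TT_add, ← map_ev_add,
    ← Matrix.add_mul]
  rfl

lemma fx_smul (t : V → UU N) (c : ℂ) (Y : V → Mat N) (w : FreeGroup V) :
    fx t (c • Y) w = c • fx t Y w := by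
  classical
  have h : ∀ Z : V → Mat N, ∀ w, fx t Z w * ((FreeGroup.lift t w : UU N) : Mat N)
      = ((Wd w.toWord).map (TT Z)).map (ev t) := by
    intro Z w
    rw [fox_link, FreeGroup.mk_toWord]
  have h2 : fx t (c • Y) w * ((FreeGroup.lift t w : UU N) : Mat N)
      = c • fx t Y w * ((FreeGroup.lift t w : UU N) : Mat N) := by
    rw [h, Matrix.smul_mul, h, TT_smul]
    ext1 p q
    simp only [Derivation.coe_smul, ev, UnitaryGroup.inv_val, star_apply, RCLike.star_def, map_apply, Pi.smul_apply, smul_eq_C_mul, map_mul, eval_C, Matrix.map_map, Matrix.smul_apply, Function.comp_apply, smul_eq_mul]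
  have h3 := congrArg (fun M => M * (((FreeGroup.lift t w)⁻¹ : UU N) : Mat N)) h2
  simpa only [Matrix.mul_assoc, TG.coe_mul_inv, Matrix.mul_one] using h3

/-- Maurer-Cartan -/
lemma MC (t : V → UU N) (Y Y' : V → Mat N) (L : List (V × Bool)) :
    ((Dp Y' L).map (TT Y)).map (ev t) - ((Dp Y L).map (TT Y')).map (ev t)
      = fx t Y (FreeGroup.mk L) * fx t Y' (FreeGroup.mk L)
        - fx t Y' (FreeGroup.mk L) * fx t Y (FreeGroup.mk L)
        - fx t (Y * Y' - Y' * Y) (FreeGroup.mk L) := by
  have e : ∀ Y Y' : V → Mat N, ((Dp Y' L).map (TT Y)).map (ev t)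
      = (((Wd L).map (TT Y')).map (TT Y)).map (ev t)
          * (((FreeGroup.lift t (FreeGroup.mk L))⁻¹ : UU N) : Mat N)
        - fx t Y' (FreeGroup.mk L) * fx t Y (FreeGroup.mk L) := by
    intro Y Y'
    rw [Dp, map_deriv_mul, map_ev_add, map_ev_mul, map_ev_mul, fox_link, fox_link_inv, ev_Wi,
      Matrix.mul_neg, ← sub_eq_add_neg]
    congr 1
    rw [Matrix.mul_assoc, ← Matrix.mul_assoc _ _ (fx t Y _), TG.coe_mul_inv, Matrix.one_mul]
  have e2 : (((Wd L).map (TT Y')).map (TT Y)) - (((Wd L).map (TT Y)).map (TT Y'))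
      = - ((Wd L).map (TT (Y * Y' - Y' * Y))) := by
    ext1 p q
    simp only [Matrix.sub_apply, Matrix.map_apply, Matrix.neg_apply]
    exact TT_comm Y Y' _
  have e3 : fx t (Y * Y' - Y' * Y) (FreeGroup.mk L)
      = ((Wd L).map (TT (Y * Y' - Y' * Y))).map (ev t)
        * (((FreeGroup.lift t (FreeGroup.mk L))⁻¹ : UU N) : Mat N) := by
    rw [fox_link, Matrix.mul_assoc, TG.coe_mul_inv, Matrix.mul_one]
  rw [e Y Y', e Y' Y, e3]
  have e4 := congrArg (fun M => M.map (ev t) * (((FreeGroup.lift t (FreeGroup.mk L))⁻¹ : UU N) : Mat N)) e2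
  simp only [map_ev_sub, map_ev_neg, Matrix.sub_mul, Matrix.neg_mul] at e4
  have e5 : ∀ a b c d e : Mat N, a - b = - c → (a - d) - (b - e) = (e - d) - c := by
    intro a b c d e h
    have : a = b - c := by rw [sub_eq_add_neg, ← h]; abel
    rw [this]; abel
  exact e5 _ _ _ _ _ e4

end Word

end Vale.Agent.P174
end

section

namespace Vale.Agent.P174

open Matrix Finset MvPolynomial MeasureTheory

section Instances

variable {N : ℕ}

instance instSecondCountableMat : SecondCountableTopology (Mat N) := by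
  have h1 : SecondCountableTopology ℂ := inferInstance
  have h2 : SecondCountableTopology (Fin N → ℂ) := inferInstance
  have h : SecondCountableTopology (Fin N → Fin N → ℂ) := inferInstance
  exact h

instance instCompactUU : CompactSpace (UU N) := by
  apply isCompact_iff_compactSpace.mp
  have hsub : (Matrix.unitaryGroup (Fin N) ℂ : Set (Mat N))
      ⊆ Set.pi Set.univ (fun _ => Set.pi Set.univ (fun _ => Metric.closedBall (0 : ℂ) 1)) := by
    intro U hU i _ j _
    rw [mem_closedBall_zero_iff]
    exact entry_norm_bound_of_unitary hU i j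
  have hc : IsCompact (Set.pi Set.univ (fun _ : Fin N => Set.pi Set.univ
      (fun _ : Fin N => Metric.closedBall (0 : ℂ) 1)) : Set (Fin N → Fin N → ℂ)) :=
    isCompact_univ_pi fun _ => isCompact_univ_pi fun _ => isCompact_closedBall _ _
  have hclosed : IsClosed (Matrix.unitaryGroup (Fin N) ℂ : Set (Mat N)) := isClosed_unitary
  exact hc.of_isClosed_subset hclosed hsub

noncomputable instance instMeasUU : MeasurableSpace (UU N) := borel _

instance instBorelUU : BorelSpace (UU N) := ⟨rfl⟩

instance instSecondCountableUU : SecondCountableTopology (UU N) :=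
  TopologicalSpace.Subtype.secondCountableTopology
    ((Matrix.unitaryGroup (Fin N) ℂ : Set (Mat N)))

end Instances

section Haar

variable (G : Type*) [Group G] [TopologicalSpace G] [IsTopologicalGroup G] [CompactSpace G]
  [MeasurableSpace G] [BorelSpace G]

/-- the invariant probability measure on a compact group -/
noncomputable def haarP : Measure G := Measure.haarMeasure ⊤

instance : (haarP G).IsHaarMeasure := by unfold haarP; infer_instance

instance : IsProbabilityMeasure (haarP G) := ⟨by
  have := Measure.haarMeasure_self (K₀ := (⊤ : TopologicalSpace.PositiveCompacts G))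
  simpa [haarP] using this⟩

end Haar

section Jac

variable {J P : Type*} [Fintype J] [DecidableEq J] {N : ℕ}

/-- index set of the basis of the complexified Lie algebra -/
abbrev Ix (J : Type*) (N : ℕ) := J × Fin N × Fin N

/-- the basis directions in the variables of `J` -/
def dir (c : Ix J N) : J ⊕ P → Mat N :=
  Sum.elim (fun j => if j = c.1 then Matrix.single c.2.1 c.2.2 1 else 0) (fun _ => 0)

/-- the Jacobian matrix of the word map `w` at the point `t` -/
noncomputable def jacM (w : J → FreeGroup (J ⊕ P)) (t : J ⊕ P → UU N) :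
    Matrix (Ix J N) (Ix J N) ℂ :=
  Matrix.of fun c a => fx t (dir a) (w c.1) c.2.1 c.2.2

/-- the value of the word map -/
noncomputable def val (w : J → FreeGroup (J ⊕ P)) (t : J ⊕ P → UU N) : J → UU N :=
  fun i => FreeGroup.lift t (w i)

/-- the degree of the word map with parameters `ρ` -/
noncomputable def deg (w : J → FreeGroup (J ⊕ P)) (ρ : P → UU N) : ℂ :=
  ∫ t : J → UU N, (jacM w (Sum.elim t ρ)).det ∂(haarP (J → UU N))

end Jac

end Vale.Agent.P174
end

section

namespace Vale.Agent.P174

open Matrix Finset MvPolynomial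

section Sub

variable {J V : Type*} {N : ℕ}

/-- a list representing a free group element -/
noncomputable def rep (w : FreeGroup V) : List (V × Bool) := Quot.out w

lemma mk_rep (w : FreeGroup V) : FreeGroup.mk (rep w) = w := Quot.out_eq w

/-- substitution of words -/
noncomputable def sub (w : J → FreeGroup V) : PP J N →+* PP V N :=
  (aeval (R := ℂ) (fun x : J × Bool × Fin N × Fin N => if x.2.1 then
      (Wd (rep (w x.1)) : Matrix (Fin N) (Fin N) (PP V N)) x.2.2.1 x.2.2.2
      else (Wi (rep (w x.1)) : Matrix (Fin N) (Fin N) (PP V N)) x.2.2.1 x.2.2.2)).toRingHom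

lemma sub_X_true (w : J → FreeGroup V) (i : J) (p q : Fin N) :
    sub w (X (i, true, p, q)) = (Wd (rep (w i)) : Matrix (Fin N) (Fin N) (PP V N)) p q := by
  simp only [sub, AlgHom.toRingHom_eq_coe, RingHom.coe_coe, aeval_X]
  simp

lemma sub_X_false (w : J → FreeGroup V) (i : J) (p q : Fin N) :
    sub w (X (i, false, p, q)) = (Wi (rep (w i)) : Matrix (Fin N) (Fin N) (PP V N)) p q := by
  simp only [sub, AlgHom.toRingHom_eq_coe, RingHom.coe_coe, aeval_X]
  simp

lemma sub_C (w : J → FreeGroup V) (a : ℂ) : sub w (C a : PP J N) = C a := by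
  simp only [sub, aeval_eq_bind₁, AlgHom.toRingHom_eq_coe, RingHom.coe_coe, algHom_C, algebraMap_eq]

lemma ev_C (t : V → UU N) (a : ℂ) : ev t (C a : PP V N) = a := by
  simp only [ev, UnitaryGroup.inv_val, star_apply, RCLike.star_def, eval_C]

lemma ev_sub_X (w : J → FreeGroup V) (t : V → UU N) (x : J × Bool × Fin N × Fin N) :
    ev t (sub w (X x)) = ev (fun i => FreeGroup.lift t (w i)) (X x) := by
  obtain ⟨i, b, p, q⟩ := x
  cases b
  · rw [sub_X_false]
    have h1 := congrFun (congrFun (ev_Wi t (rep (w i))) p) q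
    rw [mk_rep] at h1
    have h2 := congrFun (congrFun (ev_XX_false (fun i => FreeGroup.lift t (w i)) i) p) q
    exact h1.trans h2.symm
  · rw [sub_X_true]
    have h1 := congrFun (congrFun (ev_Wd t (rep (w i))) p) q
    rw [mk_rep] at h1
    have h2 := congrFun (congrFun (ev_XX_true (fun i => FreeGroup.lift t (w i)) i) p) q
    exact h1.trans h2.symm

lemma ev_sub (w : J → FreeGroup V) (t : V → UU N) (F : PP J N) :
    ev t (sub w F) = ev (fun i => FreeGroup.lift t (w i)) F := by
  induction F using MvPolynomial.induction_on with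
  | C a => rw [sub_C, ev_C, ev_C]
  | add f g hf hg => simp only [map_add, hf, hg]
  | mul_X f x hf => rw [map_mul, map_mul, map_mul, hf, ev_sub_X]

lemma chain_X (w : J → FreeGroup V) (t : V → UU N) (Y : V → Mat N)
    (x : J × Bool × Fin N × Fin N) :
    ev t (TT Y (sub w (X x)))
      = ev (fun i => FreeGroup.lift t (w i)) (TT (fun i => fx t Y (w i)) (X x)) := by
  obtain ⟨i, b, p, q⟩ := x
  cases b
  · rw [sub_X_false]
    have h1 := congrFun (congrFun (fox_link_inv t Y (rep (w i))) p) q
    rw [mk_rep] at h1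
    have h2 := congrArg (fun M => M.map (ev (fun i => FreeGroup.lift t (w i))))
      (TT_X_false (fun i => fx t Y (w i)) i)
    simp only [map_ev_neg, map_ev_mul, ev_XX_false, ev_CC] at h2
    exact h1.trans (congrFun (congrFun h2 p) q).symm
  · rw [sub_X_true]
    have h1 := congrFun (congrFun (fox_link t Y (rep (w i))) p) q
    rw [mk_rep] at h1
    have h2 := congrArg (fun M => M.map (ev (fun i => FreeGroup.lift t (w i))))
      (TT_X_true (fun i => fx t Y (w i)) i)
    simp only [map_ev_mul, ev_XX_true, ev_CC] at h2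
    exact h1.trans (congrFun (congrFun h2 p) q).symm

lemma ev_leibniz {W : Type*} (t : W → UU N) (T : Derivation ℂ (PP W N) (PP W N)) (f g : PP W N) :
    ev t (T (f * g)) = ev t f * ev t (T g) + ev t g * ev t (T f) := by
  rw [Derivation.leibniz, smul_eq_mul, smul_eq_mul, map_add, map_mul, map_mul]

/-- chain rule -/
lemma chain (w : J → FreeGroup V) (t : V → UU N) (Y : V → Mat N) (F : PP J N) :
    ev t (TT Y (sub w F))
      = ev (fun i => FreeGroup.lift t (w i)) (TT (fun i => fx t Y (w i)) F) := by
  induction F using MvPolynomial.induction_on with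
  | C a => simp only [sub_C, derivation_C, map_zero]
  | add f g hf hg => simp only [map_add, hf, hg]
  | mul_X f x hf =>
    rw [map_mul, ev_leibniz, ev_leibniz, hf, chain_X, ev_sub, ev_sub]

end Sub

section Ad

variable {J : Type*} [Fintype J] [DecidableEq J] {N : ℕ}

/-- the adjoint representation in coordinates -/
noncomputable def adL : (Ix J N → ℂ) →ₗ[ℂ] Matrix (Ix J N) (Ix J N) ℂ where
  toFun x := Matrix.of fun c b =>
    (if c.1 = b.1 ∧ c.2.2 = b.2.2 then x (c.1, c.2.1, b.2.1) else 0)
      - (if c.1 = b.1 ∧ c.2.1 = b.2.1 then x (c.1, b.2.2, c.2.2) else 0)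
  map_add' x y := by
    ext c b
    simp only [Matrix.of_apply, Matrix.add_apply, Pi.add_apply]
    split_ifs <;> ring
  map_smul' a x := by
    ext c b
    simp only [Matrix.of_apply, Matrix.smul_apply, Pi.smul_apply, RingHom.id_apply, smul_eq_mul]
    split_ifs <;> ring

lemma adL_mulVec (x y : Ix J N → ℂ) (j : J) (p q : Fin N) :
    (adL x *ᵥ y) (j, p, q) = ∑ r, x (j, p, r) * y (j, r, q) - ∑ r, y (j, p, r) * x (j, r, q) := by
  simp only [adL, LinearMap.coe_mk, AddHom.coe_mk, Matrix.mulVec, dotProduct, Matrix.of_apply,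
    sub_mul, Finset.sum_sub_distrib, Fintype.sum_prod_type, ite_mul, zero_mul]
  congr 1
  · rw [Finset.sum_eq_single j]
    · refine Finset.sum_congr rfl fun r _ => ?_
      simp only [true_and, sum_ite_eq, mem_univ, ↓reduceIte]
    · intro b _ hb
      simp only [hb.symm, false_and, ↓reduceIte, sum_const_zero]
    · simp only [mem_univ, not_true_eq_false, true_and, sum_ite_eq, ↓reduceIte, IsEmpty.forall_iff]
  · rw [Finset.sum_eq_single j]
    · rw [Finset.sum_eq_single p]
      · simp only [and_self, ↓reduceIte, mul_comm]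
      · intro b _ hb
        simp [hb.symm]
      · simp only [mem_univ, not_true_eq_false, and_self, ↓reduceIte, IsEmpty.forall_iff]
    · intro b _ hb
      simp only [hb.symm, false_and, ↓reduceIte, sum_const_zero]
    · simp only [mem_univ, not_true_eq_false, true_and, sum_ite_irrel, sum_const_zero, sum_ite_eq, ↓reduceIte, IsEmpty.forall_iff]

lemma adL_trace (x : Ix J N → ℂ) : (adL x).trace = 0 := by
  simp only [adL, LinearMap.coe_mk, AddHom.coe_mk, Matrix.trace, Matrix.diag, Matrix.of_apply,
    and_self, if_true, Finset.sum_sub_distrib, Fintype.sum_prod_type]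
  rw [sub_eq_zero]
  exact Finset.sum_congr rfl fun j _ => Finset.sum_comm

lemma adL_anti (x y : Ix J N → ℂ) : adL x *ᵥ y = - (adL y *ᵥ x) := by
  ext ⟨j, p, q⟩
  rw [Pi.neg_apply, adL_mulVec, adL_mulVec]
  ring

end Ad

end Vale.Agent.P174
end

section

namespace Vale.Agent.P174

open Matrix Finset MvPolynomial

section Lin

variable {V : Type*} {N : ℕ}

/-- `TT` as a linear map -/
noncomputable def TTl : (V → Mat N) →ₗ[ℂ] Derivation ℂ (PP V N) (PP V N) where
  toFun := TT
  map_add' := TT_add
  map_smul' := TT_smul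

/-- `fx` as a linear map -/
noncomputable def fxl (t : V → UU N) (w : FreeGroup V) : (V → Mat N) →ₗ[ℂ] Mat N where
  toFun Y := fx t Y w
  map_add' Y Y' := fx_add t Y Y' w
  map_smul' c Y := fx_smul t c Y w

end Lin

section Apply

variable {J P : Type*} [Fintype J] [DecidableEq J] {N : ℕ}

/-- directions from coordinates -/
def dirv (g : Ix J N → ℂ) : J ⊕ P → Mat N :=
  Sum.elim (fun j => Matrix.of fun p q => g (j, p, q)) (fun _ => 0)

lemma dir_eq (a : Ix J N) : (dir a : J ⊕ P → Mat N) = dirv (Pi.single a 1) := by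
  funext v
  rcases v with j | p
  · obtain ⟨i, r, s⟩ := a
    simp only [dir, dirv, Sum.elim_inl]
    ext p q
    rcases eq_or_ne j i with rfl | h
    · rw [if_pos rfl]
      simp only [Matrix.of_apply, Matrix.single_apply, Pi.single_apply, Prod.mk.injEq, true_and]
      congr 1
      simp only [eq_comm]
    · rw [if_neg h]
      simp [Pi.single_apply, h]
  · rfl

lemma dirv_sum (g : Ix J N → ℂ) : (dirv g : J ⊕ P → Mat N) = ∑ a, g a • dir a := by
  funext v
  rcases v with j | p
  · rw [Finset.sum_apply]
    ext p q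
    rw [Matrix.sum_apply]
    simp only [dir_eq, Pi.smul_apply, dirv, Sum.elim_inl, Matrix.smul_apply, Matrix.of_apply,
      Pi.single_apply, smul_eq_mul, mul_ite, mul_one, mul_zero]
    simp only [sum_ite_eq, mem_univ, ↓reduceIte]
  · rw [Finset.sum_apply]
    simp only [dirv, Sum.elim_inr, dir, Pi.smul_apply, smul_zero, sum_const_zero]

lemma dirv_ad (x y : Ix J N → ℂ) :
    (dirv (adL x *ᵥ y) : J ⊕ P → Mat N) = dirv x * dirv y - dirv y * dirv x := by
  funext v
  rcases v with j | p
  · ext p q
    simp only [dirv, Sum.elim_inl, Matrix.of_apply, adL_mulVec, Pi.sub_apply, Pi.mul_apply,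
      Matrix.sub_apply, Matrix.mul_apply]
  · simp [dirv]

lemma fx_dirv (t : J ⊕ P → UU N) (g : Ix J N → ℂ) (u : FreeGroup (J ⊕ P)) (p q : Fin N) :
    fx t (dirv g) u p q = ∑ a, g a * fx t (dir a) u p q := by
  have : fx t (dirv g) u = ∑ a, g a • fx t (dir a) u := by
    rw [dirv_sum]
    change fxl t u (∑ a, g a • dir a) = _
    rw [map_sum]
    simp only [map_smul]
    rfl
  rw [this, Matrix.sum_apply]
  simp only [Matrix.smul_apply, smul_eq_mul]

/-- basis directions for the target -/
def dirT (c : Ix J N) : J → Mat N :=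
  fun j => if j = c.1 then Matrix.single c.2.1 c.2.2 1 else 0

lemma dirT_sum (Y : J → Mat N) : Y = ∑ c : Ix J N, (Y c.1 c.2.1 c.2.2) • dirT c := by
  funext j
  rw [Finset.sum_apply]
  ext p q
  rw [Matrix.sum_apply]
  rw [Finset.sum_eq_single (j, p, q)]
  · simp [dirT]
  · rintro ⟨i, r, s⟩ _ hne
    simp only [Pi.smul_apply, dirT, Matrix.smul_apply, smul_eq_mul]
    rcases eq_or_ne j i with rfl | h
    · rw [if_pos rfl, Matrix.single_apply]
      rw [if_neg, mul_zero]
      rintro ⟨rfl, rfl⟩
      exact hne rfl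
    · rw [if_neg h]; simp
  · simp only [mem_univ, not_true_eq_false, Pi.smul_apply, Matrix.smul_apply, smul_eq_mul, mul_eq_zero, IsEmpty.forall_iff]

lemma TT_expand (Y : J → Mat N) (u : J → UU N) (F : PP J N) :
    ev u (TT Y F) = ∑ c : Ix J N, ev u (TT (dirT c) F) * Y c.1 c.2.1 c.2.2 := by
  conv_lhs => rw [dirT_sum Y]
  change ev u ((TTl (∑ c : Ix J N, (Y c.1 c.2.1 c.2.2) • dirT c)) F) = _
  rw [map_sum]
  have : (∑ c : Ix J N, TTl ((Y c.1 c.2.1 c.2.2) • dirT c)) F
      = ∑ c : Ix J N, (TTl ((Y c.1 c.2.1 c.2.2) • dirT c)) F := by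
    rw [← Derivation.coeFnAddMonoidHom_apply, map_sum, Finset.sum_apply]
    rfl
  rw [this, map_sum]
  refine Finset.sum_congr rfl fun c _ => ?_
  rw [map_smul, Derivation.smul_apply, MvPolynomial.smul_eq_C_mul, map_mul, ev_C, mul_comm]
  rfl

/-- polynomial Jacobian matrix -/
noncomputable def Dpoly (w : J → FreeGroup (J ⊕ P)) : Matrix (Ix J N) (Ix J N) (PP (J ⊕ P) N) :=
  Matrix.of fun c a => Dp (dir a) (rep (w c.1)) c.2.1 c.2.2

/-- polynomial derivative vector -/
noncomputable def vpoly (w : J → FreeGroup (J ⊕ P)) (Y : J ⊕ P → Mat N) : Ix J N → PP (J ⊕ P) N :=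
  fun c => Dp Y (rep (w c.1)) c.2.1 c.2.2

lemma ev_Dp_rep {V : Type*} (t : V → UU N) (Y : V → Mat N) (u : FreeGroup V) (p q : Fin N) :
    ev t (Dp Y (rep u) p q) = fx t Y u p q := by
  have := congrFun (congrFun (ev_Dp t Y (rep u)) p) q
  rwa [mk_rep] at this

lemma ev_Dpoly (w : J → FreeGroup (J ⊕ P)) (t : J ⊕ P → UU N) (c a : Ix J N) :
    ev t (Dpoly w c a) = jacM w t c a := ev_Dp_rep t _ _ _ _

lemma ev_Dpoly_det (w : J → FreeGroup (J ⊕ P)) (t : J ⊕ P → UU N) :
    ev t (Dpoly w).det = (jacM w t).det := by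
  rw [RingHom.map_det]
  congr 1
  ext c a
  exact ev_Dpoly w t c a

lemma MC_rep {V : Type*} (t : V → UU N) (Y Y' : V → Mat N) (u : FreeGroup V) (p q : Fin N) :
    ev t (TT Y (Dp Y' (rep u) p q)) - ev t (TT Y' (Dp Y (rep u) p q))
      = (fx t Y u * fx t Y' u - fx t Y' u * fx t Y u) p q - fx t (Y * Y' - Y' * Y) u p q := by
  have := congrFun (congrFun (MC t Y Y' (rep u)) p) q
  rw [mk_rep] at this
  exact this

theorem piola_app (w : J → FreeGroup (J ⊕ P)) (t : J ⊕ P → UU N) (B : P → Mat N) (F : PP J N) :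
    ev t (TT (Sum.elim (fun _ => 0) B) (sub w F * (Dpoly w).det))
      = ∑ a, ev t (TT (dir a) (sub w F *
          ((Dpoly w).updateCol a (vpoly w (Sum.elim (fun _ => 0) B))).det)) := by
  set Yz : J ⊕ P → Mat N := Sum.elim (fun _ => 0) B with hYz
  refine piola (K := ℂ) (fun a => TT (dir a)) (TT Yz) (ev t) adL adL_trace adL_anti
    (Dpoly w) (vpoly w Yz) (sub w F)
    (fun c => ev (fun i => FreeGroup.lift t (w i)) (TT (dirT c) F)) ?_ ?_ ?_ ?_
  · intro a
    rw [chain, TT_expand]
    refine Finset.sum_congr rfl fun c _ => ?_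
    rw [ev_Dpoly]
    rfl
  · rw [chain, TT_expand]
    refine Finset.sum_congr rfl fun c _ => ?_
    rw [vpoly, ev_Dp_rep]
  · intro a b
    funext c
    obtain ⟨j, p, q⟩ := c
    have h1 : ev t (TT (dir a) (Dpoly w (j, p, q) b)) - ev t (TT (dir b) (Dpoly w (j, p, q) a))
        = _ := MC_rep t (dir a) (dir b) (w j) p q
    rw [Pi.sub_apply, Pi.sub_apply, h1, adL_mulVec]
    congr 1
    · rw [Matrix.sub_apply, Matrix.mul_apply, Matrix.mul_apply]
      simp only [ev_Dpoly]
      rfl
    · rw [dir_eq a, dir_eq b, ← dirv_ad, fx_dirv, Matrix.mulVec, dotProduct]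
      refine Finset.sum_congr rfl fun d _ => ?_
      rw [Matrix.map_apply, ev_Dpoly, mul_comm]
      rfl
  · intro b
    funext c
    obtain ⟨j, p, q⟩ := c
    have h1 : ev t (TT Yz (Dpoly w (j, p, q) b)) - ev t (TT (dir b) (vpoly w Yz (j, p, q)))
        = _ := MC_rep t Yz (dir b) (w j) p q
    have h2 : Yz * dir b - dir b * Yz = 0 := by
      funext v
      rcases v with i | i
      · simp [hYz]
      · simp [hYz, dir]
    rw [h2] at h1
    have h3 : fx t 0 (w j) = 0 := map_zero (fxl t (w j))
    rw [Pi.sub_apply, h1, adL_mulVec, h3, Matrix.zero_apply, sub_zero,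
      Matrix.sub_apply, Matrix.mul_apply, Matrix.mul_apply]
    simp only [ev_Dpoly, vpoly, ev_Dp_rep]
    rfl

end Apply

end Vale.Agent.P174
end

section

namespace Vale.Agent.P174

open Matrix Finset MvPolynomial MeasureTheory
open scoped Matrix.Norms.L2Operator

section Flow

variable {V : Type*} {N : ℕ}

/-- the flow -/
noncomputable def flow (A : V → selfAdjoint (Mat N)) (s : ℝ) (t : V → UU N) : V → UU N :=
  fun v => selfAdjoint.expUnitary (s • A v) * t v

/-- the direction of the flow -/
noncomputable def fdir (A : V → selfAdjoint (Mat N)) : V → Mat N := fun v => Complex.I • (A v : Mat N)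

lemma flow_zero (A : V → selfAdjoint (Mat N)) (t : V → UU N) : flow A 0 t = t := by
  ext1 v
  simp [flow]

lemma hasDerivAt_exp (a : selfAdjoint (Mat N)) (s : ℝ) :
    HasDerivAt (fun s : ℝ => ((selfAdjoint.expUnitary (s • a) : UU N) : Mat N))
      ((Complex.I • (a : Mat N)) * ((selfAdjoint.expUnitary (s • a) : UU N) : Mat N)) s := by
  have h := hasDerivAt_exp_smul_const' (𝕂 := ℝ) (Complex.I • (a : Mat N)) s
  have e : ∀ s : ℝ, ((selfAdjoint.expUnitary (s • a) : UU N) : Mat N)
      = NormedSpace.exp (s • (Complex.I • (a : Mat N))) := by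
    intro s
    rw [selfAdjoint.expUnitary_coe, selfAdjoint.val_smul, smul_comm]
  simpa only [e] using h

lemma hasDerivAt_flow (A : V → selfAdjoint (Mat N)) (t : V → UU N) (v : V) (s : ℝ) :
    HasDerivAt (fun s : ℝ => ((flow A s t v : UU N) : Mat N))
      (fdir A v * ((flow A s t v : UU N) : Mat N)) s := by
  have h := (hasDerivAt_exp (A v) s).mul_const ((t v : UU N) : Mat N)
  simpa only [flow, fdir, Submonoid.coe_mul, Matrix.mul_assoc] using h

lemma hasDerivAt_flow_inv (A : V → selfAdjoint (Mat N)) (t : V → UU N) (v : V) (s : ℝ) :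
    HasDerivAt (fun s : ℝ => (((flow A s t v)⁻¹ : UU N) : Mat N))
      (- ((((flow A s t v)⁻¹ : UU N) : Mat N) * fdir A v)) s := by
  have h := (hasDerivAt_flow A t v s).star
  have e : star (fdir A v * ((flow A s t v : UU N) : Mat N))
      = - ((((flow A s t v)⁻¹ : UU N) : Mat N) * fdir A v) := by
    rw [star_mul]
    have h1 : star (fdir A v) = - fdir A v := by
      rw [fdir, star_smul, (A v).2.star_eq]
      simp only [RCLike.star_def, Complex.conj_I, neg_smul]
    rw [h1, mul_neg]
    rfl
  rw [e] at h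
  exact h

lemma hasDerivAt_entry {f : ℝ → Mat N} {f' : Mat N} {s : ℝ} (h : HasDerivAt f f' s) (p q : Fin N) :
    HasDerivAt (fun s => f s p q) (f' p q) s := by
  have := (LinearMap.toContinuousLinearMap (Matrix.entryLinearMap ℝ ℂ p q)).hasFDerivAt.comp_hasDerivAt s h
  exact this

theorem hasDerivAt_ev (A : V → selfAdjoint (Mat N)) (t : V → UU N) (f : PP V N) (s : ℝ) :
    HasDerivAt (fun s : ℝ => ev (flow A s t) f) (ev (flow A s t) (TT (fdir A) f)) s := by
  induction f using MvPolynomial.induction_on with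
  | C a =>
    have : ∀ s, ev (flow A s t) (C a) = a := fun s => by simp only [ev, UnitaryGroup.inv_val, star_apply, RCLike.star_def, eval_C]
    simp only [this]
    simpa using hasDerivAt_const s a
  | add f g hf hg =>
    simp only [map_add]
    exact hf.fun_add hg
  | mul_X f x hf =>
    obtain ⟨v, b, p, q⟩ := x
    have hX : HasDerivAt (fun s : ℝ => ev (flow A s t) (X (v, b, p, q)))
        (ev (flow A s t) (TT (fdir A) (X (v, b, p, q)))) s := by
      cases b
      · have h := hasDerivAt_entry (hasDerivAt_flow_inv A t v s) p q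
        have e1 : ∀ s, ev (flow A s t) (X (v, false, p, q)) = (((flow A s t v)⁻¹ : UU N) : Mat N) p q :=
          fun s => congrFun (congrFun (ev_XX_false (flow A s t) v) p) q
        have e2 : ev (flow A s t) (TT (fdir A) (X (v, false, p, q)))
            = (- ((((flow A s t v)⁻¹ : UU N) : Mat N) * fdir A v)) p q := by
          have := congrArg (fun M => M.map (ev (flow A s t))) (TT_X_false (fdir A) v)
          simp only [map_ev_neg, map_ev_mul, ev_XX_false, ev_CC] at this
          exact congrFun (congrFun this p) q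
        simp only [e1, e2]
        exact h
      · have h := hasDerivAt_entry (hasDerivAt_flow A t v s) p q
        have e1 : ∀ s, ev (flow A s t) (X (v, true, p, q)) = ((flow A s t v : UU N) : Mat N) p q :=
          fun s => congrFun (congrFun (ev_XX_true (flow A s t) v) p) q
        have e2 : ev (flow A s t) (TT (fdir A) (X (v, true, p, q)))
            = (fdir A v * ((flow A s t v : UU N) : Mat N)) p q := by
          have := congrArg (fun M => M.map (ev (flow A s t))) (TT_X_true (fdir A) v)
          simp only [map_ev_mul, ev_XX_true, ev_CC] at this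
          exact congrFun (congrFun this p) q
        simp only [e1, e2]
        exact h
    have h := hf.fun_mul hX
    have e : ev (flow A s t) (TT (fdir A) (f * X (v, b, p, q)))
        = ev (flow A s t) (TT (fdir A) f) * ev (flow A s t) (X (v, b, p, q))
          + ev (flow A s t) f * ev (flow A s t) (TT (fdir A) (X (v, b, p, q))) := by
      rw [Derivation.leibniz, smul_eq_mul, smul_eq_mul, map_add, map_mul, map_mul]
      ring
    rw [e]
    simp only [map_mul]
    exact h

end Flow

end Vale.Agent.P174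
end

section

namespace Vale.Agent.P174

open Matrix Finset MvPolynomial MeasureTheory
open scoped Matrix.Norms.L2Operator

section Cont

variable {V : Type*} {N : ℕ}

lemma cont_ev (f : PP V N) : Continuous (fun t : V → UU N => ev t f) := by
  unfold ev
  refine (MvPolynomial.continuous_eval f).comp (continuous_pi fun x => ?_)
  obtain ⟨v, b, p, q⟩ := x
  cases b
  · simp only [Bool.false_eq_true, if_false]
    have h : Continuous (fun t : V → UU N => (((t v)⁻¹ : UU N) : Mat N)) :=
      continuous_subtype_val.comp (continuous_inv.comp (continuous_apply v))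
    exact h.matrix_elem p q
  · simp only [if_true]
    have h : Continuous (fun t : V → UU N => ((t v : UU N) : Mat N)) :=
      continuous_subtype_val.comp (continuous_apply v)
    exact h.matrix_elem p q

lemma exists_bound_ev (f : PP V N) : ∃ C, ∀ t : V → UU N, ‖ev t f‖ ≤ C := by
  obtain ⟨C, hC⟩ := (isCompact_univ (X := V → UU N)).exists_bound_of_continuousOn
    (cont_ev f).continuousOn
  exact ⟨C, fun t => hC t (Set.mem_univ t)⟩

lemma continuous_flow (A : V → selfAdjoint (Mat N)) (s : ℝ) :
    Continuous (fun t : V → UU N => flow A s t) := by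
  refine continuous_pi fun v => ?_
  exact continuous_const.mul (continuous_apply v)

end Cont

section Int

variable {J P : Type*} [Fintype J] [DecidableEq J] {N : ℕ}

lemma continuous_elim (ρ : P → UU N) : Continuous (fun t : J → UU N => (Sum.elim t ρ : J ⊕ P → UU N)) := by
  refine continuous_pi fun v => ?_
  rcases v with j | p
  · exact continuous_apply j
  · exact continuous_const

lemma integrable_of_cont {G : Type*} [Group G] [TopologicalSpace G] [IsTopologicalGroup G]
    [CompactSpace G] [T2Space G] [MeasurableSpace G] [BorelSpace G] {f : G → ℂ} (hf : Continuous f) :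
    Integrable f (haarP G) := by
  rw [← integrableOn_univ]
  exact hf.continuousOn.integrableOn_compact isCompact_univ

theorem hasDerivAt_int (A : J ⊕ P → selfAdjoint (Mat N)) (ρ : P → UU N) (f : PP (J ⊕ P) N) (s : ℝ) :
    HasDerivAt (fun s => ∫ t : J → UU N, ev (flow A s (Sum.elim t ρ)) f ∂(haarP (J → UU N)))
      (∫ t : J → UU N, ev (flow A s (Sum.elim t ρ)) (TT (fdir A) f) ∂(haarP (J → UU N))) s := by
  obtain ⟨C, hC⟩ := exists_bound_ev (TT (fdir A) f)
  have hcont : ∀ g : PP (J ⊕ P) N, ∀ s, Continuous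
      (fun t : J → UU N => ev (flow A s (Sum.elim t ρ)) g) := fun g s =>
    (cont_ev g).comp ((continuous_flow A s).comp (continuous_elim ρ))
  refine (hasDerivAt_integral_of_dominated_loc_of_deriv_le (s := Set.univ)
    (F := fun s (t : J → UU N) => ev (flow A s (Sum.elim t ρ)) f)
    (F' := fun s (t : J → UU N) => ev (flow A s (Sum.elim t ρ)) (TT (fdir A) f))
    (bound := fun _ => C) Filter.univ_mem ?_ ?_ ?_ ?_ ?_ ?_).2
  · exact Filter.Eventually.of_forall fun s => (hcont f s).aestronglyMeasurable
  · exact integrable_of_cont (hcont f s)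
  · exact (hcont _ s).aestronglyMeasurable
  · exact Filter.Eventually.of_forall fun t s _ => hC _
  · exact integrable_const _
  · exact Filter.Eventually.of_forall fun t s _ => hasDerivAt_ev A _ f s

lemma flow_elim_left (A : J → selfAdjoint (Mat N)) (s : ℝ) (t : J → UU N) (ρ : P → UU N) :
    flow (Sum.elim A (fun _ => 0)) s (Sum.elim t ρ)
      = Sum.elim ((fun j => selfAdjoint.expUnitary (s • A j)) * t) ρ := by
  funext v
  rcases v with j | p
  · rfl
  · simp [flow]

lemma flow_elim_right (B : P → selfAdjoint (Mat N)) (s : ℝ) (t : J → UU N) (ρ : P → UU N) :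
    flow (Sum.elim (fun _ => 0) B) s (Sum.elim t ρ) = Sum.elim t (flow B s ρ) := by
  funext v
  rcases v with j | p
  · simp [flow]
  · rfl

lemma fdir_elim_left (A : J → selfAdjoint (Mat N)) :
    fdir (Sum.elim A (fun _ => 0) : J ⊕ P → selfAdjoint (Mat N))
      = Sum.elim (fdir A) (fun _ => 0) := by
  funext v
  rcases v with j | p
  · rfl
  · simp only [fdir, Sum.elim_inr, ZeroMemClass.coe_zero, smul_zero]

lemma fdir_elim_right (B : P → selfAdjoint (Mat N)) :
    fdir (Sum.elim (fun _ => 0) B : J ⊕ P → selfAdjoint (Mat N))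
      = Sum.elim (fun _ => 0) (fdir B) := by
  funext v
  rcases v with j | p
  · simp only [fdir, Sum.elim_inl, ZeroMemClass.coe_zero, smul_zero]
  · rfl

lemma int_TT_zero_sa (A : J → selfAdjoint (Mat N)) (ρ : P → UU N) (f : PP (J ⊕ P) N) :
    ∫ t : J → UU N, ev (Sum.elim t ρ) (TT (Sum.elim (fdir A) (fun _ => 0)) f)
      ∂(haarP (J → UU N)) = 0 := by
  have h := hasDerivAt_int (Sum.elim A (fun _ => 0)) ρ f 0
  rw [fdir_elim_left] at h
  have hconst : (fun s : ℝ => ∫ t : J → UU N,
      ev (flow (Sum.elim A (fun _ => 0)) s (Sum.elim t ρ)) f ∂(haarP (J → UU N)))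
      = fun _ => ∫ t : J → UU N, ev (Sum.elim t ρ) f ∂(haarP (J → UU N)) := by
    funext s
    simp only [flow_elim_left]
    exact integral_mul_left_eq_self (μ := haarP (J → UU N))
      (fun t : J → UU N => ev (Sum.elim t ρ) f) _
  rw [hconst] at h
  have h0 := h.unique (hasDerivAt_const (0 : ℝ) _)
  simpa only [flow_zero] using h0

theorem int_TT_zero (Y : J → Mat N) (ρ : P → UU N) (f : PP (J ⊕ P) N) :
    ∫ t : J → UU N, ev (Sum.elim t ρ) (TT (Sum.elim Y (fun _ => 0)) f)
      ∂(haarP (J → UU N)) = 0 := by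
  have hdec : (Sum.elim Y (fun _ => 0) : J ⊕ P → Mat N)
      = Sum.elim (fdir (fun j => imaginaryPart (Y j))) (fun _ => 0)
        + (- Complex.I) • Sum.elim (fdir (fun j => realPart (Y j))) (fun _ => 0) := by
    funext v
    rcases v with j | p
    · simp only [Sum.elim_inl, Pi.add_apply, Pi.smul_apply, fdir, smul_smul]
      rw [neg_mul, Complex.I_mul_I, neg_neg, one_smul, add_comm]
      exact (realPart_add_I_smul_imaginaryPart (Y j)).symm
    · simp
  have hc : ∀ g : PP (J ⊕ P) N, Integrable (fun t : J → UU N => ev (Sum.elim t ρ) g)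
      (haarP (J → UU N)) := fun g =>
    integrable_of_cont ((cont_ev g).comp (continuous_elim ρ))
  have e : ∀ (Y1 Y2 : J ⊕ P → Mat N) (t : J → UU N),
      ev (Sum.elim t ρ) (TT (Y1 + (- Complex.I) • Y2) f)
      = ev (Sum.elim t ρ) (TT Y1 f) + (- Complex.I) * ev (Sum.elim t ρ) (TT Y2 f) := by
    intro Y1 Y2 t
    rw [TT_add, TT_smul, Derivation.add_apply, Derivation.smul_apply, map_add,
      MvPolynomial.smul_eq_C_mul, map_mul, ev_C]
  rw [hdec]
  simp only [e]
  rw [integral_add (hc _) ((hc _).const_mul _), integral_const_mul, int_TT_zero_sa,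
    int_TT_zero_sa]
  simp

end Int

end Vale.Agent.P174
end

section

namespace Vale.Agent.P174

open Matrix Finset MvPolynomial MeasureTheory
open scoped Matrix.Norms.L2Operator

section HI

variable {J P : Type*} [Fintype J] [DecidableEq J] {N : ℕ}

/-- the functional -/
noncomputable def Lam (w : J → FreeGroup (J ⊕ P)) (ρ : P → UU N) (F : PP J N) : ℂ :=
  ∫ t : J → UU N, ev (Sum.elim t ρ) (sub w F * (Dpoly w).det) ∂(haarP (J → UU N))

lemma Lam_flow (w : J → FreeGroup (J ⊕ P)) (ρ : P → UU N) (F : PP J N)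
    (B : P → selfAdjoint (Mat N)) : Lam w (flow B 1 ρ) F = Lam w ρ F := by
  set f := sub w F * (Dpoly w).det with hf
  set g : ℝ → ℂ := fun s => ∫ t : J → UU N, ev (flow (Sum.elim (fun _ => 0) B) s (Sum.elim t ρ)) f
    ∂(haarP (J → UU N)) with hg
  have hd : ∀ s, HasDerivAt g 0 s := by
    intro s
    have h := hasDerivAt_int (Sum.elim (fun _ => 0) B) ρ f s
    have hz : ∫ t : J → UU N, ev (flow (Sum.elim (fun _ => 0) B) s (Sum.elim t ρ))
        (TT (fdir (Sum.elim (fun _ => 0) B)) f) ∂(haarP (J → UU N)) = 0 := by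
      simp only [flow_elim_right, fdir_elim_right, hf, piola_app]
      rw [integral_finsetSum]
      · refine Finset.sum_eq_zero fun a _ => ?_
        exact int_TT_zero _ _ _
      · intro a _
        exact integrable_of_cont ((cont_ev _).comp (continuous_elim _))
    rw [hz] at h
    exact h
  have hconst := is_const_of_deriv_eq_zero (fun s => (hd s).differentiableAt)
    (fun s => (hd s).deriv) 1 0
  simp only [hg, flow_elim_right, flow_zero] at hconst
  exact hconst

lemma exists_two_exp (u : UU N) : ∃ a b : selfAdjoint (Mat N),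
    selfAdjoint.expUnitary a * selfAdjoint.expUnitary b = u := by
  have hfin : (spectrum ℂ (u : Mat N)).Finite := Matrix.finite_spectrum _
  have hinf : ((fun θ : ℝ => - Complex.exp (-(θ * Complex.I))) '' Set.Ioc (-Real.pi) Real.pi).Infinite := by
    refine Set.Infinite.image ?_ (Set.Ioc_infinite (by linarith only [Real.pi_pos]))
    intro x hx y hy hxy
    have h1 : Complex.exp (x * Complex.I) = Complex.exp (y * Complex.I) := by
      have h2 : Complex.exp (-(x * Complex.I)) = Complex.exp (-(y * Complex.I)) := neg_injective hxy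
      rw [Complex.exp_neg, Complex.exp_neg] at h2
      exact inv_injective h2
    have h3 := Complex.arg_exp_mul_I x
    have h4 := Complex.arg_exp_mul_I y
    rw [h1, h4, (toIocMod_eq_self Real.two_pi_pos).mpr ?_, (toIocMod_eq_self Real.two_pi_pos).mpr ?_] at h3
    · exact h3.symm
    · exact ⟨hx.1, by linarith only [hx.2]⟩
    · exact ⟨hy.1, by linarith [hy.2]⟩
  obtain ⟨z, ⟨θ, hθ, rfl⟩, hz⟩ := hinf.exists_notMem_finite hfin
  set c : ℂ := Complex.exp (θ * Complex.I) with hc
  have hc0 : c ≠ 0 := Complex.exp_ne_zero _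
  have hcexp : ∀ x : ℝ, ((selfAdjoint.expUnitary (x • (1 : selfAdjoint (Mat N))) : UU N) : Mat N)
      = Complex.exp (x * Complex.I) • (1 : Mat N) := by
    intro x
    rw [selfAdjoint.expUnitary_coe, selfAdjoint.val_smul, selfAdjoint.val_one]
    have : (Complex.I • x • (1 : Mat N)) = algebraMap ℂ (Mat N) (x * Complex.I) := by
      rw [Algebra.algebraMap_eq_smul_one, mul_comm, mul_smul]
      congr 1
    rw [this, ← NormedSpace.algebraMap_exp_comm, Algebra.algebraMap_eq_smul_one, Complex.exp_eq_exp_ℂ]
  set e := selfAdjoint.expUnitary (θ • (1 : selfAdjoint (Mat N))) with he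
  have hu' : ((e * u : UU N) : Mat N) = c • (u : Mat N) := by
    rw [Submonoid.coe_mul, he, hcexp, Matrix.smul_mul, Matrix.one_mul]
  have hns : (-1 : ℂ) ∉ spectrum ℂ ((e * u : UU N) : Mat N) := by
    rw [hu']
    intro hmem
    apply hz
    have h1 := (spectrum.smul_mem_smul_iff (a := (u : Mat N)) (s := - c⁻¹) (r := Units.mk0 c hc0)).mp
    have h2 : (Units.mk0 c hc0 • (- c⁻¹) : ℂ) = -1 := by
      rw [Units.smul_def, Units.val_mk0, smul_eq_mul, mul_neg, mul_inv_cancel₀ hc0]
    rw [h2] at h1
    have h3 := h1 hmem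
    rw [hc, ← Complex.exp_neg] at h3
    exact h3
  have hnorm := (Unitary.norm_sub_one_lt_two_iff (e * u).2).mpr hns
  refine ⟨(-θ) • 1, Unitary.argSelfAdjoint (e * u), ?_⟩
  have h1 : selfAdjoint.expUnitary (Unitary.argSelfAdjoint (e * u)) = e * u :=
    expUnitary_argSelfAdjoint hnorm
  rw [h1, ← mul_assoc]
  have h2 : selfAdjoint.expUnitary ((-θ) • (1 : selfAdjoint (Mat N))) * e = 1 := by
    apply Subtype.ext
    rw [Submonoid.coe_mul, hcexp, he, hcexp, Matrix.smul_mul, Matrix.one_mul, smul_smul,
      ← Complex.exp_add]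
    simp only [Complex.ofReal_neg, neg_mul, neg_add_cancel, Complex.exp_zero, one_smul, OneMemClass.coe_one]
  rw [h2, one_mul]

lemma Lam_indep (w : J → FreeGroup (J ⊕ P)) (ρ ρ' : P → UU N) (F : PP J N) :
    Lam w ρ' F = Lam w ρ F := by
  choose a b hab using fun p => exists_two_exp (ρ' p * (ρ p)⁻¹)
  have : ρ' = flow a 1 (flow b 1 ρ) := by
    funext p
    simp only [flow, one_smul]
    rw [← mul_assoc, hab]
    group
  rw [this, Lam_flow, Lam_flow]

end HI

end Vale.Agent.P174
end

section

namespace Vale.Agent.P174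

open Matrix Finset MvPolynomial MeasureTheory

section Map

variable {V V' : Type*} {N : ℕ}

lemma lift_map (e : V → V') (t : V' → UU N) (u : FreeGroup V) :
    FreeGroup.lift t (FreeGroup.map e u) = FreeGroup.lift (fun v => t (e v)) u := by
  have : (FreeGroup.lift t).comp (FreeGroup.map e) = FreeGroup.lift (fun v => t (e v)) := by
    ext1 v
    simp only [MonoidHom.coe_comp, Function.comp_apply, FreeGroup.map.of, FreeGroup.lift_apply_of]
  exact congrArg (fun g : FreeGroup V →* UU N => g u) this

lemma fx_map (e : V → V') (t : V' → UU N) (Y : V' → Mat N) (u : FreeGroup V) :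
    fx t Y (FreeGroup.map e u) = fx (fun v => t (e v)) (fun v => Y (e v)) u := by
  have : (fox t Y).comp (FreeGroup.map e) = fox (fun v => t (e v)) (fun v => Y (e v)) := by
    ext1 v
    simp only [fox, MonoidHom.coe_comp, Function.comp_apply, FreeGroup.map.of, FreeGroup.lift_apply_of]
  exact congrArg (fun g : FreeGroup V →* TG N => (g u).x) this

end Map

section Inv

variable {J P : Type*} [Fintype J] [DecidableEq J] {N : ℕ}

lemma Lam_eq (w : J → FreeGroup (J ⊕ P)) (ρ : P → UU N) (F : PP J N) :
    Lam w ρ F = ∫ t : J → UU N, ev (fun i => FreeGroup.lift (Sum.elim t ρ) (w i)) F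
      * (jacM w (Sum.elim t ρ)).det ∂(haarP (J → UU N)) := by
  simp only [Lam, map_mul, ev_sub, ev_Dpoly_det]

/-- embedding of the variables when adding parameters `Q` -/
def embP (Q : Type*) : J ⊕ P → J ⊕ (P ⊕ Q) := Sum.map id Sum.inl

lemma elim_embP {Q : Type*} (t : J → UU N) (ρ : P → UU N) (z : Q → UU N) :
    (fun v => (Sum.elim t (Sum.elim ρ z) : J ⊕ (P ⊕ Q) → UU N) (embP Q v)) = Sum.elim t ρ := by
  funext v
  rcases v with j | p <;> rfl

lemma dir_embP {Q : Type*} (a : Ix J N) :
    (fun v : J ⊕ P => (dir a : J ⊕ (P ⊕ Q) → Mat N) (embP Q v)) = dir a := by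
  funext v
  rcases v with j | p <;> rfl

lemma lift_embP {Q : Type*} (t : J → UU N) (ρ : P → UU N) (z : Q → UU N) (u : FreeGroup (J ⊕ P)) :
    FreeGroup.lift (Sum.elim t (Sum.elim ρ z)) (FreeGroup.map (embP Q) u)
      = FreeGroup.lift (Sum.elim t ρ) u := by
  rw [lift_map, elim_embP]

lemma fx_embP {Q : Type*} (t : J → UU N) (ρ : P → UU N) (z : Q → UU N) (a : Ix J N)
    (u : FreeGroup (J ⊕ P)) :
    fx (Sum.elim t (Sum.elim ρ z)) (dir a) (FreeGroup.map (embP Q) u)
      = fx (Sum.elim t ρ) (dir a) u := by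
  rw [fx_map, elim_embP, dir_embP]

lemma fx_param {Q : Type*} (t : J → UU N) (ρ : Q → UU N) (a : Ix J N) (q : Q) :
    fx (Sum.elim t ρ) (dir a) (FreeGroup.of (Sum.inr q)) = 0 := by
  rw [fx_of]; rfl

lemma cont_lift (w : FreeGroup (J ⊕ P)) (ρ : P → UU N) :
    Continuous (fun t : J → UU N => FreeGroup.lift (Sum.elim t ρ) w) := by
  induction w using FreeGroup.induction_on with
  | C1 => simp only [map_one]; exact continuous_const
  | of x =>
    simp only [FreeGroup.lift_apply_of]
    exact (continuous_apply x).comp (continuous_elim ρ)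
  | inv_of x _ =>
    simp only [map_inv, FreeGroup.lift_apply_of]
    exact ((continuous_apply x).comp (continuous_elim ρ)).inv
  | mul x y hx hy =>
    simp only [map_mul]
    exact hx.mul hy

lemma cont_det (w : J → FreeGroup (J ⊕ P)) (ρ : P → UU N) :
    Continuous (fun t : J → UU N => (jacM w (Sum.elim t ρ)).det) := by
  simp only [← ev_Dpoly_det]
  exact (cont_ev _).comp (continuous_elim ρ)

theorem invar (w : J → FreeGroup (J ⊕ P)) (ρ : P → UU N) (F : PP J N) :
    ∫ t : J → UU N, ev (fun i => FreeGroup.lift (Sum.elim t ρ) (w i)) F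
      * (jacM w (Sum.elim t ρ)).det ∂(haarP (J → UU N))
      = deg w ρ * ∫ t : J → UU N, ev t F ∂(haarP (J → UU N)) := by
  set μ := haarP (J → UU N) with hμ
  set w' : J → FreeGroup (J ⊕ (P ⊕ J)) := fun i =>
    FreeGroup.map (embP J) (w i) * FreeGroup.of (Sum.inr (Sum.inr i)) with hw'
  have hjac : ∀ (t : J → UU N) (z : J → UU N),
      jacM w' (Sum.elim t (Sum.elim ρ z)) = jacM w (Sum.elim t ρ) := by
    intro t z
    ext c a
    simp only [jacM, Matrix.of_apply, hw']
    rw [fx_mul, fx_param, Matrix.mul_zero, Matrix.zero_mul, add_zero, fx_embP]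
  have hval : ∀ (t : J → UU N) (z : J → UU N),
      (fun i => FreeGroup.lift (Sum.elim t (Sum.elim ρ z)) (w' i))
        = (fun i => FreeGroup.lift (Sum.elim t ρ) (w i)) * z := by
    intro t z
    funext i
    rw [hw', map_mul, lift_embP, FreeGroup.lift_apply_of]
    rfl
  have hz : ∀ z : J → UU N, ∫ t : J → UU N,
      ev ((fun i => FreeGroup.lift (Sum.elim t ρ) (w i)) * z) F
        * (jacM w (Sum.elim t ρ)).det ∂μ = Lam w ρ F := by
    intro z
    have h1 := Lam_indep w' (Sum.elim ρ 1) (Sum.elim ρ z) F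
    rw [Lam_eq, Lam_eq] at h1
    simp only [hjac, hval, mul_one] at h1
    rw [h1, Lam_eq]
  rw [← Lam_eq]
  have hint : Integrable (Function.uncurry (fun (z t : J → UU N) =>
      ev ((fun i => FreeGroup.lift (Sum.elim t ρ) (w i)) * z) F
        * (jacM w (Sum.elim t ρ)).det)) (μ.prod μ) := by
    have hc : Continuous (Function.uncurry (fun (z t : J → UU N) =>
      ev ((fun i => FreeGroup.lift (Sum.elim t ρ) (w i)) * z) F
        * (jacM w (Sum.elim t ρ)).det)) := by
      refine Continuous.mul ?_ ((cont_det w ρ).comp continuous_snd)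
      refine (cont_ev F).comp (Continuous.mul ?_ continuous_fst)
      exact continuous_pi fun i => (cont_lift (w i) ρ).comp continuous_snd
    rw [← integrableOn_univ]
    exact hc.continuousOn.integrableOn_compact isCompact_univ
  calc Lam w ρ F = ∫ z : J → UU N, Lam w ρ F ∂μ := by simp
    _ = ∫ z : J → UU N, ∫ t : J → UU N,
      ev ((fun i => FreeGroup.lift (Sum.elim t ρ) (w i)) * z) F
        * (jacM w (Sum.elim t ρ)).det ∂μ ∂μ := by simp only [hz]
    _ = ∫ t : J → UU N, ∫ z : J → UU N,
      ev ((fun i => FreeGroup.lift (Sum.elim t ρ) (w i)) * z) F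
        * (jacM w (Sum.elim t ρ)).det ∂μ ∂μ := integral_integral_swap hint
    _ = ∫ t : J → UU N, (∫ z : J → UU N, ev z F ∂μ) * (jacM w (Sum.elim t ρ)).det ∂μ := by
        congr 1
        funext t
        rw [integral_mul_const]
        congr 1
        exact integral_mul_left_eq_self (μ := μ) (fun z : J → UU N => ev z F) _
    _ = deg w ρ * ∫ z : J → UU N, ev z F ∂μ := by
        rw [integral_const_mul, mul_comm]
        rfl

theorem deg_indep (w : J → FreeGroup (J ⊕ P)) (ρ ρ' : P → UU N) : deg w ρ' = deg w ρ := by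
  have h := Lam_indep w ρ ρ' (1 : PP J N)
  rw [Lam_eq, Lam_eq] at h
  simp only [map_one, one_mul] at h
  exact h

end Inv

end Vale.Agent.P174
end

section

namespace Vale.Agent.P174

open Matrix Finset MvPolynomial MeasureTheory

section Swap

variable {J P : Type*} [Fintype J] [DecidableEq J] {N : ℕ}

/-- the Jacobian with free conjugators -/
noncomputable def Psi3 (w : J → FreeGroup (J ⊕ P)) (i0 : J) (α g h β : FreeGroup (J ⊕ P))
    (s : J ⊕ P → UU N) (p q r : UU N) : ℂ :=
  (Matrix.of fun (c a : Ix J N) => if c.1 = i0 then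
      (fx s (dir a) α + (p : Mat N) * fx s (dir a) g * ((p⁻¹ : UU N) : Mat N)
        + (q : Mat N) * fx s (dir a) h * ((q⁻¹ : UU N) : Mat N)
        + (r : Mat N) * fx s (dir a) β * ((r⁻¹ : UU N) : Mat N)) c.2.1 c.2.2
    else fx s (dir a) (w c.1) c.2.1 c.2.2).det

lemma Psi3_symm (w : J → FreeGroup (J ⊕ P)) (i0 : J) (α g h β : FreeGroup (J ⊕ P))
    (s : J ⊕ P → UU N) (p q r : UU N) :
    Psi3 w i0 α h g β s p q r = Psi3 w i0 α g h β s q p r := by
  unfold Psi3
  congr 1
  ext c a
  simp only [Matrix.of_apply]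
  split_ifs
  · rw [add_right_comm (fx s (dir a) α)]
  · rfl

lemma cont_fx (u : FreeGroup (J ⊕ P)) (ρ : P → UU N) (a : Ix J N) :
    Continuous (fun t : J → UU N => fx (Sum.elim t ρ) (dir a) u) := by
  refine continuous_matrix fun p q => ?_
  simp only [← ev_Dp_rep]
  exact (cont_ev _).comp (continuous_elim ρ)

lemma cont_coe : Continuous (fun u : UU N => (u : Mat N)) := continuous_subtype_val

lemma cont_coe_inv : Continuous (fun u : UU N => ((u⁻¹ : UU N) : Mat N)) :=
  continuous_subtype_val.comp continuous_inv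

lemma cont_Psi3 (w : J → FreeGroup (J ⊕ P)) (i0 : J) (α g h β : FreeGroup (J ⊕ P)) (ρ : P → UU N)
    {X : Type*} [TopologicalSpace X] {t : X → J → UU N} {p q r : X → UU N}
    (ht : Continuous t) (hp : Continuous p) (hq : Continuous q) (hr : Continuous r) :
    Continuous (fun x => Psi3 w i0 α g h β (Sum.elim (t x) ρ) (p x) (q x) (r x)) := by
  unfold Psi3
  refine Continuous.matrix_det (continuous_matrix fun c a => ?_)
  simp only [Matrix.of_apply]
  split_ifs
  · refine Continuous.matrix_elem ?_ _ _
    have h1 : ∀ u : FreeGroup (J ⊕ P), Continuous (fun x => fx (Sum.elim (t x) ρ) (dir a) u) :=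
      fun u => (cont_fx u ρ a).comp ht
    exact (((h1 α).add (((cont_coe.comp hp).mul (h1 g)).mul (cont_coe_inv.comp hp))).add
      (((cont_coe.comp hq).mul (h1 h)).mul (cont_coe_inv.comp hq))).add
      (((cont_coe.comp hr).mul (h1 β)).mul (cont_coe_inv.comp hr))
  · exact Continuous.matrix_elem ((cont_fx _ ρ a).comp ht) _ _

/-- the word with three inserted parameters -/
def w3 (w : J → FreeGroup (J ⊕ P)) (i0 : J) (α g h β : FreeGroup (J ⊕ P)) :
    J → FreeGroup (J ⊕ (P ⊕ Fin 3)) := fun i =>
  if i = i0 then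
    FreeGroup.map (embP (Fin 3)) α * FreeGroup.of (Sum.inr (Sum.inr 0)) *
      FreeGroup.map (embP (Fin 3)) g * FreeGroup.of (Sum.inr (Sum.inr 1)) *
      FreeGroup.map (embP (Fin 3)) h * FreeGroup.of (Sum.inr (Sum.inr 2)) *
      FreeGroup.map (embP (Fin 3)) β
  else FreeGroup.map (embP (Fin 3)) (w i)

lemma jac_w3 (w : J → FreeGroup (J ⊕ P)) (i0 : J) (α g h β : FreeGroup (J ⊕ P))
    (t : J → UU N) (ρ : P → UU N) (z : Fin 3 → UU N) :
    (jacM (w3 w i0 α g h β) (Sum.elim t (Sum.elim ρ z))).det
      = Psi3 w i0 α g h β (Sum.elim t ρ)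
        (FreeGroup.lift (Sum.elim t ρ) α * z 0)
        (FreeGroup.lift (Sum.elim t ρ) α * z 0 * FreeGroup.lift (Sum.elim t ρ) g * z 1)
        (FreeGroup.lift (Sum.elim t ρ) α * z 0 * FreeGroup.lift (Sum.elim t ρ) g * z 1
          * FreeGroup.lift (Sum.elim t ρ) h * z 2) := by
  unfold Psi3
  congr 1
  ext c a
  simp only [jacM, Matrix.of_apply, w3]
  split_ifs with hc
  · congr 2
    simp only [fx_mul, fx_param, fx_embP, map_mul, lift_embP, FreeGroup.lift_apply_of,
      Sum.elim_inr, Matrix.mul_zero, Matrix.zero_mul, add_zero]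
  · rw [fx_embP]

lemma jac_upd (w : J → FreeGroup (J ⊕ P)) (i0 : J) (α g h β : FreeGroup (J ⊕ P))
    (s : J ⊕ P → UU N) :
    (jacM (Function.update w i0 (α * g * h * β)) s).det
      = Psi3 w i0 α g h β s (FreeGroup.lift s α) (FreeGroup.lift s α * FreeGroup.lift s g)
        (FreeGroup.lift s α * FreeGroup.lift s g * FreeGroup.lift s h) := by
  unfold Psi3
  congr 1
  ext c a
  simp only [jacM, Matrix.of_apply]
  split_ifs with hc
  · rw [hc, Function.update_self]
    congr 2
    simp only [fx_mul, map_mul]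
  · rw [Function.update_of_ne hc]

lemma deg_upd (w : J → FreeGroup (J ⊕ P)) (i0 : J) (α g h β : FreeGroup (J ⊕ P))
    (ρ : P → UU N) (z : Fin 3 → UU N) :
    ∫ t : J → UU N, Psi3 w i0 α g h β (Sum.elim t ρ)
        (FreeGroup.lift (Sum.elim t ρ) α * z 0)
        (FreeGroup.lift (Sum.elim t ρ) α * z 0 * FreeGroup.lift (Sum.elim t ρ) g * z 1)
        (FreeGroup.lift (Sum.elim t ρ) α * z 0 * FreeGroup.lift (Sum.elim t ρ) g * z 1
          * FreeGroup.lift (Sum.elim t ρ) h * z 2) ∂(haarP (J → UU N))
      = deg (Function.update w i0 (α * g * h * β)) ρ := by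
  have h1 := deg_indep (w3 w i0 α g h β) (Sum.elim ρ 1) (Sum.elim ρ z)
  unfold deg at h1 ⊢
  simp only [jac_w3, Pi.one_apply, mul_one] at h1
  rw [h1]
  simp only [jac_upd]

lemma integrable_cpt {X : Type*} [TopologicalSpace X] [CompactSpace X] [T2Space X]
    [MeasurableSpace X] [OpensMeasurableSpace X] {μ : Measure X} [IsFiniteMeasure μ] {f : X → ℂ}
    (hf : Continuous f) : Integrable f μ := by
  rw [← integrableOn_univ]
  exact hf.continuousOn.integrableOn_compact isCompact_univ

lemma fub4 (F : (UU N × UU N × UU N) → (J → UU N) → ℂ) (hcF : Continuous (Function.uncurry F)) :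
    ∫ z, ∫ t, F z t ∂(haarP (J → UU N))
        ∂((haarP (UU N)).prod ((haarP (UU N)).prod (haarP (UU N))))
      = ∫ t, ∫ x, ∫ y, ∫ u, F (x, y, u) t ∂(haarP (UU N)) ∂(haarP (UU N)) ∂(haarP (UU N))
        ∂(haarP (J → UU N)) := by
  rw [integral_integral_swap (integrable_cpt hcF)]
  congr 1
  funext t
  have hid : Continuous (fun z : UU N × UU N × UU N => (z, t)) :=
    continuous_id.prodMk continuous_const
  have hct : Continuous (fun z => F z t) := hcF.comp hid
  rw [integral_prod (fun z => F z t) (integrable_cpt hct)]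
  congr 1
  funext x
  have hid2 : Continuous (fun y : UU N × UU N => (x, y)) :=
    continuous_const.prodMk continuous_id
  exact integral_prod (fun y => F (x, y) t) (integrable_cpt (hct.comp hid2))

theorem deg_Psi3 (w : J → FreeGroup (J ⊕ P)) (i0 : J) (α g h β : FreeGroup (J ⊕ P))
    (ρ : P → UU N) :
    deg (Function.update w i0 (α * g * h * β)) ρ
      = ∫ t : J → UU N, ∫ p, ∫ q, ∫ r, Psi3 w i0 α g h β (Sum.elim t ρ) p q r
        ∂(haarP (UU N)) ∂(haarP (UU N)) ∂(haarP (UU N)) ∂(haarP (J → UU N)) := by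
  have hcF : Continuous (Function.uncurry (fun (z : UU N × UU N × UU N) (t : J → UU N) =>
    Psi3 w i0 α g h β (Sum.elim t ρ)
        (FreeGroup.lift (Sum.elim t ρ) α * z.1)
        (FreeGroup.lift (Sum.elim t ρ) α * z.1 * FreeGroup.lift (Sum.elim t ρ) g * z.2.1)
        (FreeGroup.lift (Sum.elim t ρ) α * z.1 * FreeGroup.lift (Sum.elim t ρ) g * z.2.1
          * FreeGroup.lift (Sum.elim t ρ) h * z.2.2))) := by
    have hz1 : Continuous (fun x : (UU N × UU N × UU N) × (J → UU N) => x.1.1) := by fun_prop
    have hz2 : Continuous (fun x : (UU N × UU N × UU N) × (J → UU N) => x.1.2.1) := by fun_prop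
    have hz3 : Continuous (fun x : (UU N × UU N × UU N) × (J → UU N) => x.1.2.2) := by fun_prop
    have hl : ∀ u : FreeGroup (J ⊕ P), Continuous (fun x : (UU N × UU N × UU N) × (J → UU N) =>
      FreeGroup.lift (Sum.elim x.2 ρ) u) := fun u => (cont_lift u ρ).comp continuous_snd
    exact cont_Psi3 w i0 α g h β ρ continuous_snd ((hl α).mul hz1)
      ((((hl α).mul hz1).mul (hl g)).mul hz2)
      ((((((hl α).mul hz1).mul (hl g)).mul hz2).mul (hl h)).mul hz3)
  have h0 := fub4 _ hcF
  have hdeg : ∀ z : UU N × UU N × UU N, ∫ t : J → UU N, Psi3 w i0 α g h β (Sum.elim t ρ)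
        (FreeGroup.lift (Sum.elim t ρ) α * z.1)
        (FreeGroup.lift (Sum.elim t ρ) α * z.1 * FreeGroup.lift (Sum.elim t ρ) g * z.2.1)
        (FreeGroup.lift (Sum.elim t ρ) α * z.1 * FreeGroup.lift (Sum.elim t ρ) g * z.2.1
          * FreeGroup.lift (Sum.elim t ρ) h * z.2.2) ∂(haarP (J → UU N))
      = deg (Function.update w i0 (α * g * h * β)) ρ := fun z =>
    deg_upd w i0 α g h β ρ ![z.1, z.2.1, z.2.2]
  simp only [hdeg, integral_const, probReal_univ, one_smul] at h0
  rw [h0]
  refine congrArg (fun F : (J → UU N) → ℂ => ∫ t, F t ∂(haarP (J → UU N))) (funext fun t => ?_)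
  have e1 : ∀ x y : UU N, ∫ u, Psi3 w i0 α g h β (Sum.elim t ρ)
        (FreeGroup.lift (Sum.elim t ρ) α * x)
        (FreeGroup.lift (Sum.elim t ρ) α * x * FreeGroup.lift (Sum.elim t ρ) g * y)
        (FreeGroup.lift (Sum.elim t ρ) α * x * FreeGroup.lift (Sum.elim t ρ) g * y
          * FreeGroup.lift (Sum.elim t ρ) h * u) ∂(haarP (UU N))
      = ∫ u, Psi3 w i0 α g h β (Sum.elim t ρ)
        (FreeGroup.lift (Sum.elim t ρ) α * x)
        (FreeGroup.lift (Sum.elim t ρ) α * x * FreeGroup.lift (Sum.elim t ρ) g * y) u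
        ∂(haarP (UU N)) := by
    intro x y
    exact integral_mul_left_eq_self (μ := haarP (UU N)) (fun u => Psi3 w i0 α g h β (Sum.elim t ρ)
        (FreeGroup.lift (Sum.elim t ρ) α * x)
        (FreeGroup.lift (Sum.elim t ρ) α * x * FreeGroup.lift (Sum.elim t ρ) g * y) u) _
  simp only [e1]
  have e2 : ∀ x : UU N, ∫ y, ∫ u, Psi3 w i0 α g h β (Sum.elim t ρ)
        (FreeGroup.lift (Sum.elim t ρ) α * x)
        (FreeGroup.lift (Sum.elim t ρ) α * x * FreeGroup.lift (Sum.elim t ρ) g * y) u
        ∂(haarP (UU N)) ∂(haarP (UU N))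
      = ∫ y, ∫ u, Psi3 w i0 α g h β (Sum.elim t ρ)
        (FreeGroup.lift (Sum.elim t ρ) α * x) y u ∂(haarP (UU N)) ∂(haarP (UU N)) := by
    intro x
    exact integral_mul_left_eq_self (μ := haarP (UU N))
      (fun y => ∫ u, Psi3 w i0 α g h β (Sum.elim t ρ)
        (FreeGroup.lift (Sum.elim t ρ) α * x) y u ∂(haarP (UU N))) _
  simp only [e2]
  exact integral_mul_left_eq_self (μ := haarP (UU N))
    (fun x => ∫ y, ∫ u, Psi3 w i0 α g h β (Sum.elim t ρ)
        x y u ∂(haarP (UU N)) ∂(haarP (UU N))) _

theorem deg_swap (w : J → FreeGroup (J ⊕ P)) (i0 : J) (α g h β : FreeGroup (J ⊕ P))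
    (ρ : P → UU N) :
    deg (Function.update w i0 (α * g * h * β)) ρ = deg (Function.update w i0 (α * h * g * β)) ρ := by
  rw [deg_Psi3, deg_Psi3]
  refine congrArg (fun F : (J → UU N) → ℂ => ∫ t, F t ∂(haarP (J → UU N))) (funext fun t => ?_)
  have hc : Continuous (fun x : (UU N × UU N) × UU N =>
      Psi3 w i0 α h g β (Sum.elim t ρ) x.1.1 x.1.2 x.2) :=
    cont_Psi3 w i0 α h g β ρ continuous_const (by fun_prop) (by fun_prop) (by fun_prop)
  have hi : Integrable (Function.uncurry (fun p q => ∫ r, Psi3 w i0 α h g β (Sum.elim t ρ) p q r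
      ∂(haarP (UU N)))) ((haarP (UU N)).prod (haarP (UU N))) :=
    (integrable_cpt (μ := ((haarP (UU N)).prod (haarP (UU N))).prod (haarP (UU N))) hc).integral_prod_left
  rw [integral_integral_swap hi]
  simp only [Psi3_symm w i0 α h g β]

end Swap

end Vale.Agent.P174
end

section

namespace Vale.Agent.P174

open Matrix Finset MvPolynomial MeasureTheory

section DegEq

variable {J P : Type*} [Fintype J] [DecidableEq J] {N : ℕ}

/-- exponent sum of the variable `j` in a word -/
def sumJ (j : J) : FreeGroup (J ⊕ P) →* Multiplicative ℤ :=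
  FreeGroup.lift (Sum.elim (fun i => if i = j then Multiplicative.ofAdd 1 else 1) (fun _ => 1))

/-- the homomorphism which kills the parameters -/
def killP : FreeGroup (J ⊕ P) →* FreeGroup (J ⊕ P) :=
  FreeGroup.lift (Sum.elim (fun i => FreeGroup.of (Sum.inl i)) (fun _ => 1))

lemma fx_kill (t : J → UU N) (a : Ix J N) (u : FreeGroup (J ⊕ P)) :
    fx (Sum.elim t (1 : P → UU N)) (dir a) (killP u) = fx (Sum.elim t 1) (dir a) u := by
  have : (fox (Sum.elim t (1 : P → UU N)) (dir a)).comp killP = fox (Sum.elim t 1) (dir a) := by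
    ext1 v
    rcases v with j | p
    · simp only [killP, MonoidHom.coe_comp, Function.comp_apply, FreeGroup.lift_apply_of, Sum.elim_inl]
    · simp only [MonoidHom.comp_apply, killP, FreeGroup.lift_apply_of, Sum.elim_inr, map_one]
      simp only [fox, FreeGroup.lift_apply_of]
      rfl
  exact congrArg (fun g : FreeGroup (J ⊕ P) →* TG N => (g u).x) this

lemma deg_update_kill (w : J → FreeGroup (J ⊕ P)) (i0 : J) (u : FreeGroup (J ⊕ P)) :
    deg (Function.update w i0 (killP u)) (1 : P → UU N)
      = deg (Function.update w i0 u) (1 : P → UU N) := by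
  unfold deg
  congr 1
  funext t
  congr 1
  ext c a
  simp only [jacM, Matrix.of_apply]
  by_cases hc : c.1 = i0
  · rw [hc, Function.update_self, Function.update_self, fx_kill]
  · rw [Function.update_of_ne hc, Function.update_of_ne hc]

lemma deg_update_comm (w : J → FreeGroup (J ⊕ P)) (i0 : J) (ρ : P → UU N)
    {c : FreeGroup (J ⊕ P)} (hc : c ∈ commutator (FreeGroup (J ⊕ P))) :
    ∀ g, deg (Function.update w i0 (g * c)) ρ = deg (Function.update w i0 g) ρ := by
  rw [commutator_eq_closure] at hc
  induction hc using Subgroup.closure_induction with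
  | mem x hx =>
    obtain ⟨a, b, rfl⟩ := hx
    intro g
    have h1 := deg_swap w i0 g a b (a⁻¹ * b⁻¹) ρ
    have e1 : g * a * b * (a⁻¹ * b⁻¹) = g * (a * b * a⁻¹ * b⁻¹) := by group
    have e2 : g * b * a * (a⁻¹ * b⁻¹) = g := by group
    rw [e1, e2] at h1
    exact h1
  | one => intro g; rw [mul_one]
  | mul x y _ _ hx hy =>
    intro g
    rw [← mul_assoc, hy, hx]
  | inv x _ hx =>
    intro g
    have := hx (g * x⁻¹)
    rw [inv_mul_cancel_right] at this
    exact this.symm

lemma ab_kill : (Abelianization.of.comp (killP (J := J) (P := P)))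
    = ∏ j : J, (zpowersHom (Abelianization (FreeGroup (J ⊕ P)))
      (Abelianization.of (FreeGroup.of (Sum.inl j)))).comp (sumJ j) := by
  ext1 v
  rcases v with j | p
  · simp only [MonoidHom.comp_apply, killP, FreeGroup.lift_apply_of, Sum.elim_inl,
      MonoidHom.finsetProd_apply, sumJ]
    rw [Finset.prod_eq_single j]
    · simp only [↓reduceIte, zpowersHom_apply, toAdd_ofAdd, zpow_ofNat, pow_one]
    · intro b _ hb
      rw [if_neg (Ne.symm hb), map_one]
    · intro h; exact absurd (Finset.mem_univ _) h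
  · simp only [killP, MonoidHom.coe_comp, Function.comp_apply, FreeGroup.lift_apply_of, Sum.elim_inr, map_one, sumJ, MonoidHom.finsetProd_apply, zpowersHom_apply, toAdd_one, zpow_ofNat, pow_zero, prod_const_one]

lemma kill_comm {u u' : FreeGroup (J ⊕ P)} (h : ∀ j, sumJ j u = sumJ j u') :
    (killP u)⁻¹ * killP u' ∈ commutator (FreeGroup (J ⊕ P)) := by
  have h1 : Abelianization.of (killP u) = Abelianization.of (killP u') := by
    have e : ∀ x : FreeGroup (J ⊕ P), Abelianization.of (killP x)
        = (∏ j : J, (zpowersHom (Abelianization (FreeGroup (J ⊕ P)))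
      (Abelianization.of (FreeGroup.of (Sum.inl j)))).comp (sumJ j)) x := fun x =>
      DFunLike.congr_fun ab_kill x
    rw [e, e]
    simp only [MonoidHom.finsetProd_apply, MonoidHom.comp_apply, h]
  rw [← Abelianization.ker_of, MonoidHom.mem_ker, map_mul, map_inv, h1, inv_mul_cancel]

lemma deg_update_eq (w : J → FreeGroup (J ⊕ P)) (i0 : J) {u u' : FreeGroup (J ⊕ P)}
    (h : ∀ j, sumJ j u = sumJ j u') :
    deg (Function.update w i0 u') (1 : P → UU N)
      = deg (Function.update w i0 u) (1 : P → UU N) := by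
  have h1 := deg_update_comm w i0 (1 : P → UU N) (kill_comm h) (killP u)
  rw [mul_inv_cancel_left] at h1
  rw [← deg_update_kill w i0 u', ← deg_update_kill w i0 u, h1]

theorem deg_eq (w w' : J → FreeGroup (J ⊕ P)) (ρ ρ' : P → UU N)
    (h : ∀ i j, sumJ j (w i) = sumJ j (w' i)) : deg w ρ = deg w' ρ' := by
  rw [deg_indep w 1 ρ, deg_indep w' 1 ρ']
  have key : ∀ s : Finset J, deg (fun i => if i ∈ s then w' i else w i) (1 : P → UU N)
      = deg w (1 : P → UU N) := by
    intro s
    induction s using Finset.induction_on with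
    | empty => simp
    | insert i0 s hi0 ih =>
      rw [← ih]
      have e1 : (fun i => if i ∈ insert i0 s then w' i else w i)
          = Function.update (fun i => if i ∈ s then w' i else w i) i0 (w' i0) := by
        funext i
        by_cases hi : i = i0
        · subst hi; simp
        · simp [Function.update_of_ne hi, Finset.mem_insert, hi]
      have e2 : (fun i => if i ∈ s then w' i else w i)
          = Function.update (fun i => if i ∈ s then w' i else w i) i0 (w i0) := by
        funext i
        by_cases hi : i = i0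
        · subst hi; simp [hi0]
        · simp [Function.update_of_ne hi]
      rw [e1]
      conv_rhs => rw [e2]
      exact deg_update_eq _ i0 (h i0)
  have := key Finset.univ
  simp only [Finset.mem_univ, if_true] at this
  exact this.symm

end DegEq

end Vale.Agent.P174
end

section

/-!
Positivity of the Jacobian of the power map on the unitary group.
-/

namespace Vale.Agent.P174

open Matrix Finset MvPolynomial MeasureTheory
open scoped ComplexOrder

section Ad

variable {N : ℕ}

/-- the adjoint matrix `u ⊗ ū` -/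
noncomputable def KK (A : Mat N) : Matrix (Fin N × Fin N) (Fin N × Fin N) ℂ :=
  Matrix.kroneckerMap (· * ·) A (A.map (starRingEnd ℂ))

lemma KK_apply (A : Mat N) (x y : Fin N × Fin N) :
    KK A x y = A x.1 y.1 * (starRingEnd ℂ) (A x.2 y.2) := rfl

lemma KK_mul (A B : Mat N) : KK (A * B) = KK A * KK B := by
  unfold KK
  rw [Matrix.map_mul]
  exact Matrix.mul_kronecker_mul _ _ _ _

lemma KK_one : KK (1 : Mat N) = 1 := by
  unfold KK
  rw [Matrix.map_one _ (by simp) (by simp)]
  exact Matrix.one_kronecker_one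

lemma KK_pow (A : Mat N) (r : ℕ) : KK (A ^ r) = KK A ^ r := by
  induction r with
  | zero => simp [KK_one]
  | succ r ih => rw [pow_succ, pow_succ, KK_mul, ih]

lemma KK_conjTranspose (A : Mat N) : (KK A)ᴴ = KK Aᴴ := by
  ext x y
  simp [KK_apply, Matrix.conjTranspose_apply]

lemma KK_conj (A : Mat N) : (KK A).map (starRingEnd ℂ) = (KK A).submatrix Prod.swap Prod.swap := by
  ext x y
  simp only [map_apply, KK_apply, map_mul, RingHomCompTriple.comp_apply, RingHom.id_apply, mul_comm, submatrix_apply, Prod.fst_swap, Prod.snd_swap]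

lemma coe_pow_UU (u : UU N) (r : ℕ) : ((u ^ r : UU N) : Mat N) = (u : Mat N) ^ r := by
  simp

lemma KK_unitary (u : UU N) : (KK (u : Mat N))ᴴ * KK (u : Mat N) = 1 := by
  rw [KK_conjTranspose, ← KK_mul, ← KK_one]
  congr 1
  exact (Matrix.mem_unitaryGroup_iff'.1 u.2)

/-- the function `det (1 - s K)` -/
noncomputable def dd (u : UU N) (s : ℝ) : ℂ := (1 - (s : ℂ) • KK (u : Mat N)).det

lemma dd_ne_zero (u : UU N) (s : ℝ) (h0 : 0 ≤ s) (h1 : s < 1) : dd u s ≠ 0 := by
  intro h
  obtain ⟨v, hv, hv0⟩ := (Matrix.exists_mulVec_eq_zero_iff).2 h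
  rw [Matrix.sub_mulVec, Matrix.one_mulVec, sub_eq_zero, Matrix.smul_mulVec] at hv0
  have h2 : star (KK (u : Mat N) *ᵥ v) ⬝ᵥ (KK (u : Mat N) *ᵥ v) = star v ⬝ᵥ v := by
    rw [Matrix.star_mulVec, ← Matrix.dotProduct_mulVec, Matrix.mulVec_mulVec, KK_unitary,
      Matrix.one_mulVec]
  have h3 : star v ⬝ᵥ v = ((s : ℂ) * s) * (star v ⬝ᵥ v) := by
    conv_lhs => rw [hv0]
    rw [star_smul, smul_dotProduct, dotProduct_smul, h2, smul_eq_mul, smul_eq_mul, ← mul_assoc]
    simp only [RCLike.star_def, Complex.conj_ofReal]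
  have h4 : star v ⬝ᵥ v ≠ 0 := by
    intro h5
    exact hv (dotProduct_star_self_eq_zero.1 h5)
  have h5 : ((s : ℂ) * s) = 1 := by
    have h6 : (1 - (s : ℂ) * s) * (star v ⬝ᵥ v) = 0 := by
      rw [sub_mul, one_mul, ← h3, sub_self]
    have h7 := (mul_eq_zero.1 h6).resolve_right h4
    exact (sub_eq_zero.1 h7).symm
  have h6 : s * s = 1 := by exact_mod_cast h5
  nlinarith only [h1, h6, h0]

lemma dd_conj (u : UU N) (s : ℝ) : (starRingEnd ℂ) (dd u s) = dd u s := by
  unfold dd
  rw [RingHom.map_det]
  have : (starRingEnd ℂ).mapMatrix (1 - (s : ℂ) • KK (u : Mat N)) =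
      (1 - (s : ℂ) • KK (u : Mat N)).submatrix Prod.swap Prod.swap := by
    ext x y
    have h := congrFun (congrFun (KK_conj (u : Mat N)) x) y
    simp only [Matrix.map_apply, Matrix.submatrix_apply] at h
    simp only [RingHom.mapMatrix_apply, Matrix.map_apply, Matrix.sub_apply, Matrix.smul_apply,
      Matrix.submatrix_apply, map_sub, smul_eq_mul, map_mul, h, Complex.conj_ofReal]
    congr 1
    by_cases hxy : x = y
    · subst hxy; simp only [one_apply_eq, map_one]
    · have : x.swap ≠ y.swap := fun h => hxy (Prod.swap_injective h)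
      simp [hxy, this]
  rw [this]
  exact Matrix.det_submatrix_equiv_self (Equiv.prodComm _ _) _

lemma dd_eq_ofReal (u : UU N) (s : ℝ) : dd u s = ((dd u s).re : ℂ) :=
  ((Complex.conj_eq_iff_re).1 (dd_conj u s)).symm

lemma continuous_dd (u : UU N) : Continuous (dd u) := by
  unfold dd
  fun_prop

lemma dd_re_pos (u : UU N) (s : ℝ) (h0 : 0 ≤ s) (h1 : s < 1) : 0 < (dd u s).re := by
  by_contra hneg
  have hcont : ContinuousOn (fun s => (dd u s).re) (Set.Icc 0 s) :=
    (Complex.continuous_re.comp (continuous_dd u)).continuousOn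
  have h00 : (dd u 0).re = 1 := by simp [dd]
  have hmem : (0 : ℝ) ∈ Set.Icc ((dd u s).re) ((dd u 0).re) := by
    rw [h00]; exact ⟨not_lt.1 hneg, zero_le_one⟩
  obtain ⟨r, hr, hr0⟩ := intermediate_value_Icc' h0 hcont hmem
  apply dd_ne_zero u r hr.1 (lt_of_le_of_lt hr.2 h1)
  have hr1 : (dd u r).re = 0 := hr0
  rw [dd_eq_ofReal, hr1]; simp

/-- `det (Σ_{r<d} (s K)^r)` -/
noncomputable def ss (u : UU N) (d : ℕ) (s : ℝ) : ℂ :=
  (∑ r ∈ range d, ((s : ℂ) • KK (u : Mat N)) ^ r).det

lemma continuous_ss (u : UU N) (d : ℕ) : Continuous (ss u d) := by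
  unfold ss
  fun_prop

lemma dd_mul_ss (u : UU N) (d : ℕ) (s : ℝ) : ss u d s * dd u s = dd (u ^ d) (s ^ d) := by
  unfold ss dd
  rw [← Matrix.det_mul, geom_sum_mul_neg, coe_pow_UU, KK_pow, smul_pow]
  simp only [Complex.ofReal_pow]

lemma ss_nonneg (u : UU N) (d : ℕ) (hd : 0 < d) (s : ℝ) (h0 : 0 ≤ s) (h1 : s < 1) :
    ∃ r : ℝ, 0 ≤ r ∧ ss u d s = (r : ℂ) := by
  have h2 := dd_mul_ss u d s
  have h3 := dd_re_pos u s h0 h1
  have h4 := dd_re_pos (u ^ d) (s ^ d) (pow_nonneg h0 d) (pow_lt_one₀ h0 h1 hd.ne')
  refine ⟨(dd (u ^ d) (s ^ d)).re / (dd u s).re, (div_pos h4 h3).le, ?_⟩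
  have h5 : dd u s ≠ 0 := dd_ne_zero u s h0 h1
  rw [Complex.ofReal_div, ← dd_eq_ofReal, ← dd_eq_ofReal, ← h2]
  (clear * - h5; field_simp)

lemma ss_one_nonneg (u : UU N) (d : ℕ) (hd : 0 < d) : ∃ r : ℝ, 0 ≤ r ∧ ss u d 1 = (r : ℂ) := by
  have hre : 0 ≤ (ss u d 1).re := by
    have hcl : IsClosed {s : ℝ | 0 ≤ (ss u d s).re} :=
      isClosed_le continuous_const (Complex.continuous_re.comp (continuous_ss u d))
    have hsub : Set.Ico (0 : ℝ) 1 ⊆ {s : ℝ | 0 ≤ (ss u d s).re} := by
      intro s hs
      obtain ⟨r, hr, hr'⟩ := ss_nonneg u d hd s hs.1 hs.2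
      simp only [Set.mem_ofPred_eq, hr', Complex.ofReal_re, hr]
    have h1 : (1 : ℝ) ∈ closure (Set.Ico (0 : ℝ) 1) := by
      rw [closure_Ico (by norm_num)]; exact ⟨zero_le_one, le_refl _⟩
    exact (hcl.closure_subset_iff.2 hsub) h1
  have him : (ss u d 1).im = 0 := by
    have hcl : IsClosed {s : ℝ | (ss u d s).im = 0} :=
      isClosed_eq (Complex.continuous_im.comp (continuous_ss u d)) continuous_const
    have hsub : Set.Ico (0 : ℝ) 1 ⊆ {s : ℝ | (ss u d s).im = 0} := by
      intro s hs
      obtain ⟨r, hr, hr'⟩ := ss_nonneg u d hd s hs.1 hs.2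
      simp [hr']
    have h1 : (1 : ℝ) ∈ closure (Set.Ico (0 : ℝ) 1) := by
      rw [closure_Ico (by norm_num)]; exact ⟨zero_le_one, le_refl _⟩
    exact (hcl.closure_subset_iff.2 hsub) h1
  exact ⟨(ss u d 1).re, hre, Complex.ext (by simp) (by simp [him])⟩

/-- the Jacobian of the power map -/
noncomputable def SS (u : UU N) (d : ℕ) : Matrix (Fin N × Fin N) (Fin N × Fin N) ℂ :=
  ∑ r ∈ range d, KK (u : Mat N) ^ r

lemma det_SS (u : UU N) (d : ℕ) : (SS u d).det = ss u d 1 := by
  simp only [SS, ss, Complex.ofReal_one, one_smul]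

lemma coe_inv_UU_apply (u : UU N) (p q : Fin N) :
    ((u⁻¹ : UU N) : Mat N) p q = (starRingEnd ℂ) ((u : Mat N) q p) := rfl

lemma conj_single_apply (u : UU N) (a b p q : Fin N) :
    ((u : Mat N) * Matrix.single a b (1 : ℂ) * ((u⁻¹ : UU N) : Mat N)) p q =
      KK (u : Mat N) (p, q) (a, b) := by
  rw [KK_apply, Matrix.mul_apply]
  rw [Finset.sum_eq_single b]
  · rw [Matrix.mul_single_apply_same, mul_one, coe_inv_UU_apply]
  · intro c _ hc
    rw [Matrix.mul_single_apply_of_ne _ _ _ _ _ hc, zero_mul]
  · simp only [mem_univ, not_true_eq_false, mul_single_apply_same, mul_one, UnitaryGroup.inv_val, star_apply, RCLike.star_def, mul_eq_zero, map_eq_zero, IsEmpty.forall_iff]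

variable {J P : Type*} [Fintype J] [DecidableEq J]

lemma fx_pow {V : Type*} (t : V → UU N) (Y : V → Mat N) (v : V) (d : ℕ) :
    fx t Y ((FreeGroup.of v) ^ d) =
      ∑ r ∈ range d, (((t v) ^ r : UU N) : Mat N) * Y v * ((((t v) ^ r)⁻¹ : UU N) : Mat N) := by
  induction d with
  | zero => simp only [pow_zero, fx_one, range_zero, SubmonoidClass.coe_pow, UnitaryGroup.inv_val, star_pow, sum_empty]
  | succ d ih =>
    rw [pow_succ, fx_mul, ih, Finset.sum_range_succ, fx_of]
    congr 1
    rw [map_pow, FreeGroup.lift_apply_of]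

lemma jacM_pow (d : ℕ) (t : J ⊕ P → UU N) :
    jacM (fun j : J => (FreeGroup.of (Sum.inl j : J ⊕ P)) ^ d) t =
      (Matrix.blockDiagonal (fun j => SS (t (Sum.inl j)) d)).submatrix Prod.swap Prod.swap := by
  ext c a
  obtain ⟨j, p, q⟩ := c
  obtain ⟨j', p', q'⟩ := a
  simp only [jacM, Matrix.of_apply, Matrix.submatrix_apply, Prod.swap_prod_mk,
    Matrix.blockDiagonal_apply, fx_pow, dir, Sum.elim_inl]
  by_cases h : j = j'
  · subst h
    simp only [if_true, SS, Matrix.sum_apply]
    refine Finset.sum_congr rfl fun r _ => ?_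
    rw [conj_single_apply, coe_pow_UU, KK_pow]
  · simp only [SubmonoidClass.coe_pow, h, ↓reduceIte, mul_zero, UnitaryGroup.inv_val, star_pow, zero_mul, sum_const_zero, Matrix.zero_apply]

lemma det_jacM_pow (d : ℕ) (t : J ⊕ P → UU N) :
    (jacM (fun j : J => (FreeGroup.of (Sum.inl j : J ⊕ P)) ^ d) t).det =
      ∏ j, ss (t (Sum.inl j)) d 1 := by
  rw [jacM_pow]
  have : (Matrix.blockDiagonal (fun j => SS (t (Sum.inl j)) d)).submatrix
      (Prod.swap : J × (Fin N × Fin N) → (Fin N × Fin N) × J) Prod.swap =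
      (Matrix.blockDiagonal (fun j => SS (t (Sum.inl j)) d)).submatrix
      (Equiv.prodComm J (Fin N × Fin N)) (Equiv.prodComm J (Fin N × Fin N)) := rfl
  rw [this, Matrix.det_submatrix_equiv_self, Matrix.det_blockDiagonal]
  exact Finset.prod_congr rfl fun j _ => det_SS _ _

lemma continuous_ss_one (d : ℕ) : Continuous (fun u : UU N => ss u d 1) := by
  have h : (fun u : UU N => ss u d 1) = fun u : UU N => (SS u d).det := by
    funext u; rw [det_SS]
  rw [h]
  unfold SS
  have hK : Continuous (fun u : UU N => KK (u : Mat N)) := by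
    apply continuous_matrix
    intro x y
    simp only [KK_apply]
    have h1 : Continuous (fun u : UU N => (u : Mat N)) := continuous_subtype_val
    exact (h1.matrix_elem _ _).mul (Complex.continuous_conj.comp (h1.matrix_elem _ _))
  exact (continuous_finsetSum _ fun r _ => hK.pow r).matrix_det

theorem deg_pow_ne_zero (d : ℕ) (hd : 0 < d) (ρ : P → UU N) :
    deg (fun j : J => (FreeGroup.of (Sum.inl j : J ⊕ P)) ^ d) ρ ≠ 0 := by
  choose r hr0 hr using fun u : UU N => ss_one_nonneg u d hd
  have hrc : Continuous r := by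
    have : r = fun u => (ss u d 1).re := by
      funext u; rw [hr u]; simp
    rw [this]
    exact Complex.continuous_re.comp (continuous_ss_one d)
  have h1 : deg (fun j : J => (FreeGroup.of (Sum.inl j : J ⊕ P)) ^ d) ρ =
      ((∫ t : J → UU N, ∏ j, r (t j) ∂(haarP (J → UU N)) : ℝ) : ℂ) := by
    unfold deg
    rw [← integral_complex_ofReal]
    congr 1
    funext t
    rw [det_jacM_pow, Complex.ofReal_prod]
    refine Finset.prod_congr rfl fun j _ => ?_
    rw [hr]; rfl
  rw [h1]
  norm_cast
  apply ne_of_gt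
  have hcont : Continuous (fun t : J → UU N => ∏ j, r (t j)) :=
    continuous_finsetProd _ fun j _ => hrc.comp (continuous_apply j)
  apply hcont.integral_pos_of_hasCompactSupport_nonneg_nonzero
    (HasCompactSupport.of_compactSpace _) (x := fun _ => 1)
  · intro t
    exact Finset.prod_nonneg fun j _ => hr0 _
  · have h2 : (r (1 : UU N) : ℂ) ≠ 0 := by
      rw [← hr]
      unfold ss
      simp only [Complex.ofReal_one, OneMemClass.coe_one, KK_one, one_smul, one_pow]
      rw [Finset.sum_const, card_range, ← Nat.cast_smul_eq_nsmul ℂ, Matrix.det_smul,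
        Matrix.det_one, mul_one]
      exact pow_ne_zero _ (by exact_mod_cast hd.ne')
    rw [Finset.prod_ne_zero_iff]
    intro j _
    exact_mod_cast h2

end Ad

end Vale.Agent.P174
end

section

/-!
Nonzero degree implies existence of a solution.
-/

namespace Vale.Agent.P174

open Matrix Finset MvPolynomial MeasureTheory

section Cont

variable {V : Type*} {N : ℕ}

lemma continuous_entry (v : V) (b : Bool) (p q : Fin N) :
    Continuous (fun t : V → UU N => if b then (t v : Mat N) p q
      else (((t v)⁻¹ : UU N) : Mat N) p q) := by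
  have h1 : Continuous (fun t : V → UU N => (t v : Mat N)) :=
    continuous_subtype_val.comp (continuous_apply v)
  cases b
  · simp only [Bool.false_eq_true, if_false, coe_inv_UU_apply]
    exact Complex.continuous_conj.comp (h1.matrix_elem _ _)
  · simp only [if_true]
    exact h1.matrix_elem _ _

lemma continuous_ev (F : PP V N) : Continuous (fun t : V → UU N => ev t F) := by
  unfold ev
  apply (MvPolynomial.continuous_eval F).comp
  apply continuous_pi
  rintro ⟨v, b, p, q⟩
  exact continuous_entry v b p q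

variable {J P : Type*} [Fintype J] [DecidableEq J]

omit [Fintype J] [DecidableEq J] in
lemma continuous_sumElim (ρ : P → UU N) :
    Continuous (fun t : J → UU N => (Sum.elim t ρ : J ⊕ P → UU N)) := by
  apply continuous_pi
  rintro (j | p)
  · exact continuous_apply j
  · exact continuous_const

lemma continuous_det_jacM (w : J → FreeGroup (J ⊕ P)) (ρ : P → UU N) :
    Continuous (fun t : J → UU N => (jacM w (Sum.elim t ρ)).det) := by
  classical
  apply Continuous.matrix_det
  apply continuous_matrix
  intro c a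
  have h : (fun t : J → UU N => jacM w (Sum.elim t ρ) c a) =
      fun t : J → UU N => ev (Sum.elim t ρ) (Dp (dir a) (w c.1).toWord c.2.1 c.2.2) := by
    funext t
    have h1 := ev_Dp (Sum.elim t ρ) (dir a) (w c.1).toWord
    rw [FreeGroup.mk_toWord] at h1
    simp only [jacM, Matrix.of_apply]
    rw [← h1]; rfl
  rw [h]
  exact (continuous_ev _).comp (continuous_sumElim ρ)

omit [Fintype J] [DecidableEq J] in
lemma continuous_lift (w : FreeGroup (J ⊕ P)) (ρ : P → UU N) :
    Continuous (fun t : J → UU N => FreeGroup.lift (Sum.elim t ρ) w) := by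
  induction w using FreeGroup.induction_on with
  | C1 => simp only [map_one]; exact continuous_const
  | of x =>
    simp only [FreeGroup.lift_apply_of]
    exact (continuous_apply x).comp (continuous_sumElim ρ)
  | inv_of x _ =>
    simp only [map_inv, FreeGroup.lift_apply_of]
    exact ((continuous_apply x).comp (continuous_sumElim ρ)).inv
  | mul x y hx hy =>
    simp only [map_mul]
    exact hx.mul hy

end Cont

section Test

variable {J : Type*} [Fintype J] {N : ℕ}

/-- the real test function -/
noncomputable def psi (y : J → UU N) : ℝ :=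
  (1 + ∑ j, ∑ p, (1 + ((y j : Mat N) p p).re)) / (1 + 2 * (Fintype.card J * N))

/-- the test polynomial -/
noncomputable def Psi (J : Type*) [Fintype J] (N : ℕ) : PP J N :=
  C ((1 + 2 * (Fintype.card J * N) : ℂ)⁻¹) *
    (1 + ∑ j, ∑ p, (1 + C (2⁻¹ : ℂ) * (X (j, true, p, p) + X (j, false, p, p))))

lemma ev_Psi (y : J → UU N) : ev y (Psi J N) = (psi y : ℂ) := by
  unfold Psi psi ev
  simp only [map_mul, eval_C, map_add, map_one, map_sum, eval_X, if_true, Bool.false_eq_true,
    if_false, coe_inv_UU_apply]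
  push_cast
  rw [div_eq_inv_mul]
  have h : ∀ (j : J) (p : Fin N), (1 : ℂ) + 2⁻¹ * ((y j : Mat N) p p +
      (starRingEnd ℂ) ((y j : Mat N) p p)) = 1 + ((((y j : Mat N) p p).re : ℝ) : ℂ) := by
    intro j p
    rw [Complex.add_conj]
    push_cast
    ring
  simp only [h]

lemma denom_pos : (0 : ℝ) < 1 + 2 * ((Fintype.card J : ℝ) * (N : ℝ)) := by positivity

lemma re_le_one (u : UU N) (p : Fin N) : ((u : Mat N) p p).re ≤ 1 :=
  le_trans (Complex.re_le_norm _) (entry_norm_bound_of_unitary u.2 p p)

lemma neg_one_le_re (u : UU N) (p : Fin N) : -1 ≤ ((u : Mat N) p p).re := by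
  have h1 := entry_norm_bound_of_unitary u.2 p p
  have h2 := Complex.abs_re_le_norm ((u : Mat N) p p)
  have h3 := neg_le_of_abs_le (le_trans h2 h1)
  exact h3

lemma psi_nonneg (y : J → UU N) : 0 ≤ psi y := by
  unfold psi
  apply div_nonneg _ denom_pos.le
  have : 0 ≤ ∑ j, ∑ p, (1 + ((y j : Mat N) p p).re) :=
    Finset.sum_nonneg fun j _ => Finset.sum_nonneg fun p _ => by
      have := neg_one_le_re (y j) p
      linarith
  linarith

lemma sum_two : ∑ _j : J, ∑ _p : Fin N, (2 : ℝ) = 2 * ((Fintype.card J : ℝ) * (N : ℝ)) := by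
  simp only [Finset.sum_const, Finset.card_univ, Fintype.card_fin, nsmul_eq_mul]
  ring

lemma psi_le_one (y : J → UU N) : psi y ≤ 1 := by
  unfold psi
  rw [div_le_one denom_pos, ← sum_two (J := J) (N := N)]
  have : ∑ j, ∑ p, (1 + ((y j : Mat N) p p).re) ≤ ∑ _j : J, ∑ _p : Fin N, (2 : ℝ) :=
    Finset.sum_le_sum fun j _ => Finset.sum_le_sum fun p _ => by
      have := re_le_one (y j) p
      linarith
  linarith

lemma psi_one : psi (1 : J → UU N) = 1 := by
  unfold psi
  rw [div_eq_one_iff_eq denom_pos.ne', ← sum_two (J := J) (N := N)]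
  congr 1
  refine Finset.sum_congr rfl fun j _ => Finset.sum_congr rfl fun p _ => ?_
  simp only [Pi.one_apply, OneMemClass.coe_one, one_apply_eq, Complex.one_re]
  norm_num

lemma eq_one_of_diag (u : UU N) (h : ∀ p, ((u : Mat N) p p).re = 1) : u = 1 := by
  have hd : ∀ p, (u : Mat N) p p = 1 := by
    intro p
    have h1 := entry_norm_bound_of_unitary u.2 p p
    have h2 : Complex.normSq ((u : Mat N) p p) ≤ 1 := by
      rw [Complex.normSq_eq_norm_sq]
      nlinarith only [h1, norm_nonneg ((u : Mat N) p p)]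
    rw [Complex.normSq_apply, h p] at h2
    have h3 : ((u : Mat N) p p).im = 0 := by nlinarith only [h2]
    exact Complex.ext (by simp [h p]) (by simp [h3])
  apply Subtype.ext
  ext p q
  by_cases hpq : p = q
  · subst hpq; simp only [hd p, OneMemClass.coe_one, one_apply_eq]
  · have h1 := congrFun (congrFun (Matrix.mem_unitaryGroup_iff.1 u.2) p) p
    rw [Matrix.mul_apply] at h1
    simp only [Matrix.star_apply, Matrix.one_apply_eq] at h1
    have h2 : ∀ r, (u : Mat N) p r * star ((u : Mat N) p r) =
        ((Complex.normSq ((u : Mat N) p r) : ℝ) : ℂ) := fun r => Complex.mul_conj _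
    rw [Finset.sum_congr rfl fun r _ => h2 r] at h1
    have h3 : ∑ r, Complex.normSq ((u : Mat N) p r) = 1 := by exact_mod_cast h1
    rw [← Finset.add_sum_erase _ _ (Finset.mem_univ p), hd p, map_one] at h3
    have h4 : ∑ r ∈ Finset.univ.erase p, Complex.normSq ((u : Mat N) p r) = 0 := by linarith only [h3]
    have h5 := (Finset.sum_eq_zero_iff_of_nonneg (fun r _ => Complex.normSq_nonneg _)).1 h4 q
      (Finset.mem_erase.2 ⟨fun h => hpq h.symm, Finset.mem_univ _⟩)
    rw [Complex.normSq_eq_zero] at h5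
    simp only [h5, OneMemClass.coe_one, ne_eq, hpq, not_false_eq_true, one_apply_ne]

lemma psi_eq_one (y : J → UU N) (h : psi y = 1) : y = 1 := by
  unfold psi at h
  rw [div_eq_one_iff_eq denom_pos.ne', ← sum_two (J := J) (N := N)] at h
  have h1 : ∑ j, ∑ p, (1 - ((y j : Mat N) p p).re) = 0 := by
    have h2 : ∑ j, ∑ p, (1 - ((y j : Mat N) p p).re) =
        ∑ _j : J, ∑ _p : Fin N, (2 : ℝ) - ∑ j, ∑ p, (1 + ((y j : Mat N) p p).re) := by
      rw [← Finset.sum_sub_distrib]
      refine Finset.sum_congr rfl fun j _ => ?_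
      rw [← Finset.sum_sub_distrib]
      refine Finset.sum_congr rfl fun p _ => ?_
      ring
    rw [h2]; linarith only [h]
  funext j
  apply eq_one_of_diag
  intro p
  have h3 : ∀ j p, 0 ≤ 1 - ((y j : Mat N) p p).re := fun j p => by
    have := re_le_one (y j) p; linarith
  have h4 := (Finset.sum_eq_zero_iff_of_nonneg
    (fun j _ => Finset.sum_nonneg fun p _ => h3 j p)).1 h1 j (Finset.mem_univ _)
  have h5 := (Finset.sum_eq_zero_iff_of_nonneg (fun p _ => h3 j p)).1 h4 p (Finset.mem_univ _)
  linarith

lemma continuous_psi : Continuous (psi : (J → UU N) → ℝ) := by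
  have h : (psi : (J → UU N) → ℝ) = fun y => (ev y (Psi J N)).re := by
    funext y; rw [ev_Psi]; simp
  rw [h]
  exact Complex.continuous_re.comp (continuous_ev _)

end Test

section Exist

variable {J P : Type*} [Fintype J] [DecidableEq J] {N : ℕ}

theorem exists_sol (w : J → FreeGroup (J ⊕ P)) (ρ : P → UU N)
    (hI1 : ∀ F : PP J N, ∫ t : J → UU N, ev (fun i => FreeGroup.lift (Sum.elim t ρ) (w i)) F *
        (jacM w (Sum.elim t ρ)).det ∂(haarP (J → UU N)) =
      deg w ρ * ∫ t : J → UU N, ev t F ∂(haarP (J → UU N)))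
    (h : deg w ρ ≠ 0) : ∃ t : J → UU N, ∀ i, FreeGroup.lift (Sum.elim t ρ) (w i) = 1 := by
  by_contra hno
  push Not at hno
  set f : (J → UU N) → (J → UU N) := fun t i => FreeGroup.lift (Sum.elim t ρ) (w i) with hf
  have hfc : Continuous f := continuous_pi fun i => continuous_lift (w i) ρ
  set μ := haarP (J → UU N) with hμ
  obtain ⟨t0, -, ht0⟩ := isCompact_univ.exists_isMaxOn (Set.univ_nonempty (α := J → UU N))
    (continuous_psi.comp hfc).continuousOn
  set M := psi (f t0) with hM
  have hMmax : ∀ t, psi (f t) ≤ M := fun t => ht0 (Set.mem_univ t)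
  have hM0 : 0 ≤ M := psi_nonneg _
  have hM1 : M < 1 := by
    refine lt_of_le_of_ne (psi_le_one _) fun h1 => ?_
    obtain ⟨i, hi⟩ := hno t0
    exact hi (congrFun (psi_eq_one _ h1) i)
  set m := (1 + M) / 2 with hm
  have hMm : M < m := by rw [hm]; linarith only [hM1]
  have hm1 : m < 1 := by rw [hm]; linarith only [hM1]
  have hm0 : 0 < m := by rw [hm]; linarith only [hM0]
  set U : Set (J → UU N) := {t | m < psi t} with hU
  have hUo : IsOpen U := isOpen_lt continuous_const continuous_psi
  have hUpos : 0 < μ.real U := by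
    have h1 : 0 < μ U := hUo.measure_pos μ ⟨1, by simp only [hU, Set.mem_ofPred_eq, psi_one]; exact hm1⟩
    exact ENNReal.toReal_pos h1.ne' (measure_ne_top _ _)
  set D : (J → UU N) → ℂ := fun t => (jacM w (Sum.elim t ρ)).det with hD
  have hDc : Continuous D := continuous_det_jacM w ρ
  have hint : ∀ g : (J → UU N) → ℝ, Continuous g → Integrable g μ := fun g hg =>
    hg.integrable_of_hasCompactSupport (HasCompactSupport.of_compactSpace _)
  set Cst := ∫ t, ‖D t‖ ∂μ with hC
  have hkey : ∀ R : ℕ, ‖deg w ρ‖ * (m ^ R * μ.real U) ≤ M ^ R * Cst := by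
    intro R
    have h1 := hI1 (Psi J N ^ R)
    have h2 : ∫ t : J → UU N, ev t (Psi J N ^ R) ∂μ = ((∫ t, psi t ^ R ∂μ : ℝ) : ℂ) := by
      rw [← integral_complex_ofReal]
      refine congrArg (fun F : (J → UU N) → ℂ => ∫ t, F t ∂μ) (funext fun t => ?_)
      rw [map_pow, ev_Psi, Complex.ofReal_pow]
    have h3 : ∀ t, ‖ev (f t) (Psi J N ^ R) * D t‖ ≤ M ^ R * ‖D t‖ := by
      intro t
      rw [norm_mul, map_pow, ev_Psi, norm_pow, Complex.norm_real, Real.norm_of_nonneg (psi_nonneg _)]
      exact mul_le_mul_of_nonneg_right (pow_le_pow_left₀ (psi_nonneg _) (hMmax t) R) (norm_nonneg _)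
    have h4 : ‖∫ t, ev (f t) (Psi J N ^ R) * D t ∂μ‖ ≤ M ^ R * Cst := by
      refine le_trans (norm_integral_le_integral_norm _) ?_
      rw [hC, ← integral_const_mul]
      refine integral_mono_of_nonneg (Filter.Eventually.of_forall fun t => norm_nonneg _)
        (hint _ (continuous_const.mul hDc.norm)) (Filter.Eventually.of_forall h3)
    have h5 : m ^ R * μ.real U ≤ ∫ t, psi t ^ R ∂μ := by
      have h6 : ∫ t, U.indicator (fun _ => m ^ R) t ∂μ = m ^ R * μ.real U := by
        rw [integral_indicator hUo.measurableSet, setIntegral_const, smul_eq_mul, mul_comm]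
      rw [← h6]
      refine integral_mono ?_ (hint _ (continuous_psi.pow R)) fun t => ?_
      · exact (integrable_const _).indicator hUo.measurableSet
      · by_cases ht : t ∈ U
        · rw [Set.indicator_of_mem ht]
          exact pow_le_pow_left₀ hm0.le (le_of_lt ht) R
        · rw [Set.indicator_of_notMem ht]
          exact pow_nonneg (psi_nonneg _) R
    have h7 : ‖deg w ρ‖ * (∫ t, psi t ^ R ∂μ) = ‖∫ t, ev (f t) (Psi J N ^ R) * D t ∂μ‖ := by
      have h8 : ∫ t, ev (f t) (Psi J N ^ R) * D t ∂μ =
          deg w ρ * ((∫ t, psi t ^ R ∂μ : ℝ) : ℂ) := by rw [← h2]; exact h1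
      rw [h8, norm_mul, Complex.norm_real, Real.norm_of_nonneg]
      exact integral_nonneg fun t => pow_nonneg (psi_nonneg _) R
    calc ‖deg w ρ‖ * (m ^ R * μ.real U) ≤ ‖deg w ρ‖ * ∫ t, psi t ^ R ∂μ :=
          mul_le_mul_of_nonneg_left h5 (norm_nonneg _)
      _ = ‖∫ t, ev (f t) (Psi J N ^ R) * D t ∂μ‖ := h7
      _ ≤ M ^ R * Cst := h4
  have hlim : Filter.Tendsto (fun R : ℕ => (M / m) ^ R * Cst) Filter.atTop (nhds (0 * Cst)) :=
    (tendsto_pow_atTop_nhds_zero_of_lt_one (div_nonneg hM0 hm0.le)
      ((div_lt_one hm0).2 hMm)).mul_const _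
  have hle : ‖deg w ρ‖ * μ.real U ≤ 0 * Cst := by
    refine ge_of_tendsto' hlim fun R => ?_
    rw [div_pow, div_mul_eq_mul_div, le_div_iff₀ (pow_pos hm0 R)]
    calc ‖deg w ρ‖ * μ.real U * m ^ R = ‖deg w ρ‖ * (m ^ R * μ.real U) := by ring
      _ ≤ M ^ R * Cst := hkey R
  rw [zero_mul] at hle
  have : 0 < ‖deg w ρ‖ * μ.real U := mul_pos (norm_pos_iff.2 h) hUpos
  linarith only [hle, this]

end Exist

end Vale.Agent.P174
end

section

/-!
Certificates and the top stage of the tower.
-/

namespace Vale.Agent.P174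

open FreeGroup

universe u

section Cert

variable {V L I G : Type*} [Group G]

/-- value of a signed letter -/
def evs (c : L → G) (x : L × Bool) : G := if x.2 then c x.1 else (c x.1)⁻¹

/-- value of a signed word -/
def evw (c : L → G) (l : List (L × Bool)) : G := (l.map (evs c)).prod

@[simp] lemma evw_nil (c : L → G) : evw c [] = 1 := rfl

@[simp] lemma evw_cons (c : L → G) (x : L × Bool) (l : List (L × Bool)) :
    evw c (x :: l) = evs c x * evw c l := by simp [evw]

lemma evw_append (c : L → G) (l₁ l₂ : List (L × Bool)) :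
    evw c (l₁ ++ l₂) = evw c l₁ * evw c l₂ := by simp [evw]

lemma lift_mk_eq_evw (c : L → G) (l : List (L × Bool)) :
    FreeGroup.lift c (FreeGroup.mk l) = evw c l := by
  rw [FreeGroup.lift_mk]
  unfold evw
  congr 1
  apply List.map_congr_left
  intro x _
  rcases x with ⟨a, b⟩
  cases b <;> simp [evs]

lemma evw_invRev (c : L → G) (l : List (L × Bool)) : evw c (invRev l) = (evw c l)⁻¹ := by
  rw [← lift_mk_eq_evw, ← FreeGroup.inv_mk, MonoidHom.map_inv, lift_mk_eq_evw]

/-- all letters of the word are coefficient letters -/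
def Coef (val : L → Option G) (l : List (L × Bool)) : Prop := ∀ x ∈ l, (val x.1).isSome = true

/-- the word of an item `(u, r)`, that is `u r u⁻¹` -/
def itemWord (t : List (L × Bool) × List (L × Bool)) : List (L × Bool) :=
  t.1 ++ t.2 ++ invRev t.1

/-- the word of a certificate -/
def certWord (c : List (List (L × Bool) × List (L × Bool))) : List (L × Bool) :=
  c.flatMap itemWord

@[simp] lemma certWord_nil : certWord ([] : List (List (L × Bool) × List (L × Bool))) = [] := rfl

@[simp] lemma certWord_cons (t : List (L × Bool) × List (L × Bool))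
    (c : List (List (L × Bool) × List (L × Bool))) :
    certWord (t :: c) = itemWord t ++ certWord c := by simp [certWord]

lemma evw_itemWord (c : L → G) (t : List (L × Bool) × List (L × Bool)) :
    evw c (itemWord t) = evw c t.1 * evw c t.2 * (evw c t.1)⁻¹ := by
  simp only [itemWord, List.append_assoc, evw_append, evw_invRev, mul_assoc]

end Cert

section Exps

variable {L : Type u} {A : Type u} {k : Type} [Field k] {H : Type u} [Group H]

/-- the letter map used at the top stage -/
noncomputable def topMap {n : ℕ} (val : L → Option A) (coef : L → H) (ix : L → Option (Fin n))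
    (a : L) : Words H n :=
  match val a with
  | some _ => Monoid.Coprod.inl (coef a)
  | none =>
    match ix a with
    | some j => Monoid.Coprod.inr (FreeGroup.of j)
    | none => 1

lemma toAdd_expSum_topMap {n : ℕ} (val : L → Option A) (coef : L → H) (ix : L → Option (Fin n))
    (e : Fin n → L) (hix : ∀ a j, ix a = some j → e j = a)
    (x : L × Bool) (hx : val x.1 = none → ∃ j, ix x.1 = some j) :
    ∑ j, Finsupp.single (e j) (((Multiplicative.toAdd
      (expSum H n (evs (topMap val coef ix) x)) j : ℤ) : k)) = rx k val x := by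
  classical
  rcases x with ⟨a, b⟩
  cases hv : val a with
  | some g =>
    have h1 : topMap val coef ix a = Monoid.Coprod.inl (coef a) := by simp [topMap, hv]
    have h2 : expSum H n (Monoid.Coprod.inl (coef a)) = 1 := by simp only [expSum, Monoid.Coprod.lift_apply_inl, MonoidHom.one_apply]
    cases b <;> simp [evs, h1, h2, rx, hv]
  | none =>
    obtain ⟨j₀, hj₀⟩ := hx hv
    have he : e j₀ = a := hix _ _ hj₀
    simp only at hj₀
    have h1 : topMap val coef ix a = Monoid.Coprod.inr (FreeGroup.of j₀) := by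
      simp [topMap, hv, hj₀]
    have h2 : expSum H n (Monoid.Coprod.inr (FreeGroup.of j₀)) =
        Multiplicative.ofAdd (Pi.single j₀ 1) := by simp [expSum]
    cases b
    · simp only [evs, Bool.false_eq_true, if_false, h1, MonoidHom.map_inv, h2, rx, hv, toAdd_inv,
        toAdd_ofAdd, Pi.neg_apply, Int.cast_neg]
      rw [Finset.sum_eq_single j₀]
      · simp only [he, Pi.single_eq_same, Int.cast_one, Finsupp.single_neg]
      · intro j _ hj; simp [hj]
      · simp only [Finset.mem_univ, not_true_eq_false, Pi.single_eq_same, Int.cast_one, Finsupp.single_neg, neg_eq_zero, Finsupp.single_eq_zero, one_ne_zero, imp_self]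
    · simp only [evs, if_true, h1, h2, rx, hv, toAdd_ofAdd]
      rw [Finset.sum_eq_single j₀]
      · simp [he]
      · intro j _ hj; simp [hj]
      · simp only [Finset.mem_univ, not_true_eq_false, Pi.single_eq_same, Int.cast_one, Finsupp.single_eq_zero, one_ne_zero, imp_self]

lemma toAdd_expSum_evw {n : ℕ} (val : L → Option A) (coef : L → H) (ix : L → Option (Fin n))
    (e : Fin n → L) (hix : ∀ a j, ix a = some j → e j = a)
    (l : List (L × Bool)) (hl : ∀ x ∈ l, val x.1 = none → ∃ j, ix x.1 = some j) :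
    ∑ j, Finsupp.single (e j) (((Multiplicative.toAdd
      (expSum H n (evw (topMap val coef ix) l)) j : ℤ) : k)) = rowOf k val l := by
  induction l with
  | nil => simp only [evw_nil, _root_.map_one, toAdd_one, Pi.zero_apply, Int.cast_zero, Finsupp.single_zero, Finset.sum_const_zero, rowOf_nil]
  | cons x l ih =>
    rw [rowOf_cons, ← ih (fun y hy => hl y (List.mem_cons_of_mem _ hy)),
      ← toAdd_expSum_topMap val coef ix e hix x (hl x List.mem_cons_self),
      ← Finset.sum_add_distrib]
    refine Finset.sum_congr rfl fun j _ => ?_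
    rw [← Finsupp.single_add]
    congr 1
    rw [evw_cons, MonoidHom.map_mul, toAdd_mul, Pi.add_apply, Int.cast_add]

lemma evw_topMap_of_coef {n : ℕ} (val : L → Option A) (coef : L → H) (ix : L → Option (Fin n))
    (l : List (L × Bool)) (hl : Coef val l) :
    evw (topMap val coef ix) l = Monoid.Coprod.inl (evw coef l) := by
  induction l with
  | nil => simp only [evw_nil, _root_.map_one]
  | cons x l ih =>
    rw [evw_cons, evw_cons, MonoidHom.map_mul, ih (fun y hy => hl y (List.mem_cons_of_mem _ hy))]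
    congr 1
    have hx := hl x List.mem_cons_self
    rcases x with ⟨a, b⟩
    obtain ⟨g, hg⟩ := Option.isSome_iff_exists.1 hx
    simp only at hg
    have h1 : topMap val coef ix a = Monoid.Coprod.inl (coef a) := by simp [topMap, hg]
    cases b <;> simp only [evs, Bool.false_eq_true, ↓reduceIte, h1, _root_.map_inv]

lemma exists_finset_of_items {I : Type} (word : I → List (L × Bool))
    (P : List (L × Bool) → Prop)
    (c : List (List (L × Bool) × List (L × Bool)))
    (hc : ∀ t ∈ c, P t.2 ∨ ∃ i, t.2 = word i ∨ t.2 = invRev (word i)) :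
    ∃ I₀ : Finset I, ∀ t ∈ c, P t.2 ∨ ∃ i ∈ I₀, t.2 = word i ∨ t.2 = invRev (word i) := by
  classical
  induction c with
  | nil => exact ⟨∅, by simp only [List.not_mem_nil, Finset.notMem_empty, false_and, exists_false, or_false, IsEmpty.forall_iff, implies_true]⟩
  | cons t c ih =>
    obtain ⟨I₀, hI₀⟩ := ih (fun t' ht' => hc t' (List.mem_cons_of_mem _ ht'))
    rcases hc t List.mem_cons_self with h | ⟨i, hi⟩
    · refine ⟨I₀, fun t' ht' => ?_⟩
      rcases List.mem_cons.1 ht' with rfl | ht'
      · exact Or.inl h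
      · exact hI₀ t' ht'
    · refine ⟨insert i I₀, fun t' ht' => ?_⟩
      rcases List.mem_cons.1 ht' with rfl | ht'
      · exact Or.inr ⟨i, Finset.mem_insert_self _ _, hi⟩
      · rcases hI₀ t' ht' with h | ⟨j, hj, hj'⟩
        · exact Or.inl h
        · exact Or.inr ⟨j, Finset.mem_insert_of_mem hj, hj'⟩

/-- The top stage: a certificate all of whose coefficient relators are killed in `H` gives a
finite system of full rank over `H` killing the value of `γ`. -/
theorem killed_of_cert {I : Type} (val : L → Option A) (word : I → List (L × Bool))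
    (hli : LinearIndependent k (fun i => rowOf k val (word i))) (coef : L → H)
    (c : List (List (L × Bool) × List (L × Bool))) (γ : List (L × Bool))
    (hmk : FreeGroup.mk (certWord c) = FreeGroup.mk γ)
    (hc : ∀ t ∈ c, (Coef val t.2 ∧ evw coef t.2 = 1) ∨ ∃ i, t.2 = word i ∨ t.2 = invRev (word i))
    (hγ : Coef val γ) :
    ∃ (m n : ℕ) (w : Fin m → Words H n), FullRank k w ∧
      Monoid.Coprod.inl (evw coef γ) ∈ Subgroup.normalClosure (Set.range w) := by
  classical
  obtain ⟨I₀, hI₀⟩ := exists_finset_of_items word (fun r => Coef val r ∧ evw coef r = 1) c hc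
  let X₀ : Finset L := I₀.biUnion fun i => ((word i).map (fun x => x.1)).toFinset
  let e₁ := I₀.equivFin.symm
  let e₂ := X₀.equivFin
  let ix : L → Option (Fin X₀.card) := fun a => if h : a ∈ X₀ then some (e₂ ⟨a, h⟩) else none
  let e : Fin X₀.card → L := fun j => (e₂.symm j : L)
  have hix : ∀ a j, ix a = some j → e j = a := by
    intro a j haj
    by_cases h : a ∈ X₀
    · simp only [ix, h, dif_pos, Option.some.injEq] at haj
      simp only [e, ← haj, Equiv.symm_apply_apply]
    · simp [ix, h] at haj
  have hX : ∀ i ∈ I₀, ∀ x ∈ word i, ∃ j, ix x.1 = some j := by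
    intro i hi x hx
    have : x.1 ∈ X₀ := by
      simp only [X₀, Finset.mem_biUnion, List.mem_toFinset, List.mem_map]
      exact ⟨i, hi, x, hx, rfl⟩
    exact ⟨e₂ ⟨x.1, this⟩, by simp [ix, this]⟩
  let w : Fin I₀.card → Words H X₀.card := fun i => evw (topMap val coef ix) (word (e₁ i))
  refine ⟨I₀.card, X₀.card, w, ?_, ?_⟩
  · have hrow : LinearIndependent k ((expMatrix w).map (fun a : ℤ => (a : k))).row := by
      let T : (Fin X₀.card → k) →ₗ[k] (L →₀ k) :=
        { toFun := fun v => ∑ j, Finsupp.single (e j) (v j)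
          map_add' := by
            intro v v'
            rw [← Finset.sum_add_distrib]
            refine Finset.sum_congr rfl fun j _ => ?_
            rw [Pi.add_apply, Finsupp.single_add]
          map_smul' := by
            intro r v
            rw [Finset.smul_sum]
            refine Finset.sum_congr rfl fun j _ => ?_
            rw [Pi.smul_apply, Finsupp.smul_single, RingHom.id_apply] }
      apply LinearIndependent.of_comp T
      have : (T ∘ ((expMatrix w).map (fun a : ℤ => (a : k))).row) =
          (fun i => rowOf k val (word i)) ∘ (fun i => ((e₁ i : I₀) : I)) := by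
        funext i
        simp only [Function.comp]
        rw [← toAdd_expSum_evw (k := k) val coef ix e hix (word (e₁ i))
          (fun x hx _ => hX (e₁ i) (e₁ i).2 x hx)]
        rfl
      rw [this]
      exact hli.comp _ (fun i j hij => e₁.injective (Subtype.ext hij))
    have := hrow.rank_matrix
    simpa only [FullRank, Fintype.card_fin] using this
  · have h1 : evw (topMap val coef ix) (certWord c) =
        evw (topMap val coef ix) γ := by
      rw [← lift_mk_eq_evw, hmk, lift_mk_eq_evw]
    rw [← evw_topMap_of_coef val coef ix γ hγ, ← h1]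
    have hW : ∀ i ∈ I₀, evw (topMap val coef ix) (word i) ∈
        Subgroup.normalClosure (Set.range w) := by
      intro i hi
      apply Subgroup.subset_normalClosure
      refine ⟨e₁.symm ⟨i, hi⟩, ?_⟩
      simp [w]
    clear hmk h1 hc
    induction c with
    | nil => simp
    | cons t c ih =>
      rw [certWord_cons, evw_append, evw_itemWord]
      refine Subgroup.mul_mem _ ?_ (ih (fun t' ht' => hI₀ t' (List.mem_cons_of_mem _ ht')))
      apply Subgroup.normalClosure_normal.conj_mem
      rcases hI₀ t List.mem_cons_self with ⟨h2, h3⟩ | ⟨i, hi, h4 | h4⟩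
      · rw [evw_topMap_of_coef val coef ix _ h2, h3, MonoidHom.map_one]
        exact Subgroup.one_mem _
      · rw [h4]; exact hW i hi
      · rw [h4, evw_invRev]; exact Subgroup.inv_mem _ (hW i hi)

end Exps

end Vale.Agent.P174
end

section

/-!
The tower argument.
-/

namespace Vale.Agent.P174

open FreeGroup

universe u

section Basic

variable {V L I G : Type*} [Group G] {k : Type*} [Field k]

/-- coefficient value of a letter -/
def cval (val : L → Option G) (a : L) : G := (val a).getD 1

/-- admissible relators -/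
def RelOK (val : L → Option G) (word : I → List (L × Bool)) (r : List (L × Bool)) : Prop :=
  (Coef val r ∧ evw (cval val) r = 1) ∨ ∃ i, r = word i ∨ r = invRev (word i)

/-- admissible items of a certificate -/
def ItemOK (src tgt : L → V) (val : L → Option G) (word : I → List (L × Bool)) (v0 : V)
    (t : List (L × Bool) × List (L × Bool)) : Prop :=
  ∃ v, IsPath src tgt v0 t.1 v ∧ IsPath src tgt v t.2 v ∧ RelOK val word t.2

/-- all visited vertices -/
def vis (src tgt : L → V) (v0 : V) (c : List (List (L × Bool) × List (L × Bool)))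
    (γ : List (L × Bool)) : List V :=
  verts src tgt v0 γ ++ c.flatMap (fun t => verts src tgt v0 (t.1 ++ t.2))

/-- vertices reachable from the base vertex, with the value of a path -/
inductive Reach (src tgt : L → V) (val : L → Option G) (U : Set L) (v0 : V) : V → G → Prop
  | base : Reach src tgt val U v0 v0 1
  | fwd {a : L} {q : G} : a ∈ U → Reach src tgt val U v0 (src a) q →
      Reach src tgt val U v0 (tgt a) (q * cval val a)
  | bwd {a : L} {q : G} : a ∈ U → Reach src tgt val U v0 (tgt a) q →
      Reach src tgt val U v0 (src a) (q * (cval val a)⁻¹)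

lemma cval_lval (val : L → Option G) (a : L × k) :
    cval (lval (k := k) val) a = cval val a.1 := rfl

lemma evw_lval_lft (val : L → Option G) (f : L → k) (h : k) (l : List (L × Bool)) :
    evw (cval (lval (k := k) val)) (lft f h l) = evw (cval val) l := by
  induction l generalizing h with
  | nil => rfl
  | cons x l ih =>
    rw [lft_cons, evw_cons, evw_cons, ih]
    congr 1
    rcases x with ⟨a, b⟩
    cases b <;> simp [evs, lx, cval_lval]

lemma coef_lval_lft (val : L → Option G) (f : L → k) (h : k) (l : List (L × Bool))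
    (hl : Coef val l) : Coef (lval (k := k) val) (lft f h l) := by
  intro y hy
  exact hl (px y) (exists_of_mem_lft f hy)

/-- lifted certificate -/
def lcert (f : L → k) (c : List (List (L × Bool) × List (L × Bool))) :
    List (List ((L × k) × Bool) × List ((L × k) × Bool)) :=
  c.map (fun t => (lft f 0 t.1, lft f (ht f t.1) t.2))

lemma ht_itemWord (f : L → k) (t : List (L × Bool) × List (L × Bool)) :
    ht f (itemWord t) = ht f t.2 := by
  simp only [itemWord, List.append_assoc, ht_append, ht_invRev, add_neg_cancel_comm_assoc]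

lemma ht_certWord (f : L → k) (c : List (List (L × Bool) × List (L × Bool)))
    (hc : ∀ t ∈ c, ht f t.2 = 0) : ht f (certWord c) = 0 := by
  induction c with
  | nil => simp
  | cons t c ih =>
    rw [certWord_cons, ht_append, ht_itemWord, hc t List.mem_cons_self,
      ih (fun t' ht' => hc t' (List.mem_cons_of_mem _ ht')), add_zero]

lemma lft_itemWord (f : L → k) (t : List (L × Bool) × List (L × Bool)) (h2 : ht f t.2 = 0) :
    lft f 0 (itemWord t) = itemWord (lft f 0 t.1, lft f (ht f t.1) t.2) := by
  unfold itemWord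
  rw [lft_append, lft_append, ht_append, h2, add_zero, zero_add]
  congr 1
  have := lft_invRev f 0 t.1
  rwa [zero_add] at this

lemma lft_certWord (f : L → k) (c : List (List (L × Bool) × List (L × Bool)))
    (hc : ∀ t ∈ c, ht f t.2 = 0) : lft f 0 (certWord c) = certWord (lcert f c) := by
  induction c with
  | nil => rfl
  | cons t c ih =>
    have h2 := hc t List.mem_cons_self
    rw [certWord_cons, lft_append, ht_itemWord, h2, add_zero,
      ih (fun t' ht' => hc t' (List.mem_cons_of_mem _ ht')), lft_itemWord f t h2]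
    simp [lcert]

lemma map_fst_vis (src tgt : L → V) (f : L → k) (v0 : V)
    (c : List (List (L × Bool) × List (L × Bool))) (γ : List (L × Bool)) :
    (vis (lsrc src) (ltgt tgt f) (v0, (0 : k)) (lcert f c) (lft f 0 γ)).map Prod.fst =
      vis src tgt v0 c γ := by
  unfold vis
  rw [List.map_append, map_fst_verts_lft]
  congr 1
  induction c with
  | nil => rfl
  | cons t c ih =>
    simp only [lcert, List.map_cons, List.flatMap_cons, List.map_append] at ih ⊢
    rw [ih]
    congr 1
    have := map_fst_verts_lft src tgt f 0 (t.1 ++ t.2) v0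
    rwa [lft_append, zero_add] at this

lemma itemOK_lift (src tgt : L → V) (val : L → Option G) (word : I → List (L × Bool)) (v0 : V)
    (f : L → k) (hW : ∀ i, ht f (word i) = 0)
    (t : List (L × Bool) × List (L × Bool)) (ht2 : ht f t.2 = 0)
    (h : ItemOK src tgt val word v0 t) :
    ItemOK (lsrc src) (ltgt tgt f) (lval (k := k) val)
      (fun p : I × k => lft f p.2 (word p.1)) (v0, (0 : k))
      (lft f 0 t.1, lft f (ht f t.1) t.2) := by
  obtain ⟨v, h1, h2, h3⟩ := h
  refine ⟨(v, ht f t.1), ?_, ?_, ?_⟩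
  · have := isPath_lft src tgt f (h := 0) h1
    rwa [zero_add] at this
  · have := isPath_lft src tgt f (h := ht f t.1) h2
    rwa [ht2, add_zero] at this
  · rcases h3 with ⟨h4, h5⟩ | ⟨i, h4 | h4⟩
    · left
      refine ⟨coef_lval_lft val f _ _ h4, ?_⟩
      simp only [evw_lval_lft]
      exact h5
    · right
      refine ⟨(i, ht f t.1), Or.inl ?_⟩
      simp only [h4]
    · right
      refine ⟨(i, ht f t.1), Or.inr ?_⟩
      simp only [h4]
      have := lft_invRev f (ht f t.1) (word i)
      rwa [hW i, add_zero] at this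

end Basic

section Main

variable {G : Type u} [Group G] {k : Type} [Field k]

/-- letters used by a certificate -/
def Used {L : Type u} (c : List (List (L × Bool) × List (L × Bool))) (γ : List (L × Bool)) :
    Set L :=
  {a | ∃ x : L × Bool, x.1 = a ∧ (x ∈ γ ∨ ∃ t ∈ c, x ∈ t.1 ++ t.2)}

lemma finite_used {L : Type u} (c : List (List (L × Bool) × List (L × Bool)))
    (γ : List (L × Bool)) : (Used c γ).Finite := by
  classical
  have : Used c γ ⊆ ((γ ++ c.flatMap (fun t => t.1 ++ t.2)).map Prod.fst).toFinset := by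
    rintro a ⟨x, rfl, hx⟩
    simp only [List.coe_toFinset, Set.mem_ofPred_eq, List.mem_map]
    refine ⟨x, ?_, rfl⟩
    rw [List.mem_append, List.mem_flatMap]
    exact hx
  exact Set.Finite.subset (Finset.finite_toSet _) this

/-- The heart of the tower argument, for one stage: either the coefficient group at the base
vertex has no homomorphism to `k`, or there is a height function that strictly increases
the number of visited vertices. -/
theorem stage {V : Type} {L : Type u} {I : Type} (src tgt : L → V) (val : L → Option G)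
    (word : I → List (L × Bool)) (v0 : V)
    (c : List (List (L × Bool) × List (L × Bool))) (γ : List (L × Bool))
    (hli : LinearIndependent k (fun i => rowOf k val (word i)))
    (hmk : FreeGroup.mk (certWord c) = FreeGroup.mk γ)
    (hc : ∀ t ∈ c, ItemOK src tgt val word v0 t)
    (hγ : Coef val γ) (hγp : IsPath src tgt v0 γ v0) :
    (∃ (H : Subgroup G) (g : H), H.FG ∧ (∀ f : H →* Multiplicative k, f = 1) ∧
      (g : G) = evw (cval val) γ ∧
      ∃ (m n : ℕ) (w : Fin m → Words H n), FullRank k w ∧
        Monoid.Coprod.inl g ∈ Subgroup.normalClosure (Set.range w)) ∨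
    (∃ f : L → k, (∀ i, ht f (word i) = 0) ∧ (∀ t ∈ c, ht f t.2 = 0) ∧
      ¬ Set.InjOn Prod.fst
        {p | p ∈ vis (lsrc src) (ltgt tgt f) (v0, (0 : k)) (lcert f c) (lft f 0 γ)}) := by
  classical
  -- used coefficient letters
  set U : Set L := {a | a ∈ Used c γ ∧ (val a).isSome = true} with hU
  have hUfin : U.Finite := (finite_used c γ).subset (fun a ha => ha.1)
  set R := Reach src tgt val U v0 with hR
  -- gauge
  set p : V → G := fun v => if v = v0 then 1 else if h : ∃ q, R v q then h.choose else 1 with hp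
  have hp0 : p v0 = 1 := by simp only [hp, ↓reduceIte]
  have hpR : ∀ v, (∃ q, R v q) → R v (p v) := by
    intro v hv
    by_cases h0 : v = v0
    · subst h0; rw [hp0]; exact Reach.base
    · simp only [hp, h0, if_false, hv, dif_pos]
      exact hv.choose_spec
  set lam : L → G := fun a => if a ∈ U ∧ (∃ q, R (src a) q)
    then p (src a) * cval val a * (p (tgt a))⁻¹ else 1 with hlam
  set H : Subgroup G := Subgroup.closure (lam '' U) with hH
  have hHfg : H.FG := by
    rw [Subgroup.fg_iff]
    exact ⟨lam '' U, rfl, hUfin.image _⟩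
  have hlamH : ∀ a, lam a ∈ H := by
    intro a
    by_cases ha : a ∈ U
    · exact Subgroup.subset_closure ⟨a, ha, rfl⟩
    · have : lam a = 1 := by simp only [hlam, ha, false_and, ↓reduceIte]
      rw [this]; exact H.one_mem
  set coef : L → H := fun a => ⟨lam a, hlamH a⟩ with hcoef
  have hcoe : ∀ l : List (L × Bool), ((evw coef l : H) : G) = evw lam l := by
    intro l
    induction l with
    | nil => rfl
    | cons x l ih =>
      rw [evw_cons, evw_cons, Subgroup.coe_mul, ih]
      congr 1
      rcases x with ⟨a, b⟩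
      cases b <;> simp [evs, hcoef]
  have hreach_iff : ∀ a ∈ U, ((∃ q, R (src a) q) ↔ (∃ q, R (tgt a) q)) := by
    intro a ha
    constructor
    · rintro ⟨q, hq⟩; exact ⟨_, Reach.fwd ha hq⟩
    · rintro ⟨q, hq⟩; exact ⟨_, Reach.bwd ha hq⟩
  -- evaluation of lam along coefficient paths
  have hevin : ∀ (l : List (L × Bool)) (v v' : V), (∀ x ∈ l, x.1 ∈ U) → (∃ q, R v q) →
      IsPath src tgt v l v' → evw lam l = p v * evw (cval val) l * (p v')⁻¹ := by
    intro l
    induction l with
    | nil => intro v v' _ _ hl; simp only [isPath_nil] at hl; subst hl; simp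
    | cons x l ih =>
      intro v v' hxU hv hl
      obtain ⟨h1, h2⟩ := hl
      have hx : x.1 ∈ U := hxU x List.mem_cons_self
      rcases x with ⟨a, b⟩
      cases b
      · simp only [sS, sT, Bool.false_eq_true, if_false] at h1 h2
        simp only at hx
        have hva : ∃ q, R (src a) q := by
          rw [hreach_iff a hx, h1]; exact hv
        rw [evw_cons, evw_cons, ih (src a) v' (fun y hy => hxU y (List.mem_cons_of_mem _ hy)) hva h2]
        have hl' : lam a = p (src a) * cval val a * (p (tgt a))⁻¹ := by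
          simp only [hlam]; rw [if_pos ⟨hx, hva⟩]
        simp only [evs, Bool.false_eq_true, if_false, hl', h1]
        group
      · simp only [sS, sT, if_true] at h1 h2
        simp only at hx
        have hva : ∃ q, R (src a) q := by rw [h1]; exact hv
        have hvt : ∃ q, R (tgt a) q := (hreach_iff a hx).1 hva
        rw [evw_cons, evw_cons, ih (tgt a) v' (fun y hy => hxU y (List.mem_cons_of_mem _ hy)) hvt h2]
        have hl' : lam a = p (src a) * cval val a * (p (tgt a))⁻¹ := by
          simp only [hlam]; rw [if_pos ⟨hx, hva⟩]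
        simp only [evs, if_true, hl', h1]
        group
  have hevout : ∀ (l : List (L × Bool)) (v v' : V), (∀ x ∈ l, x.1 ∈ U) → (¬ ∃ q, R v q) →
      IsPath src tgt v l v' → evw lam l = 1 := by
    intro l
    induction l with
    | nil => intro v v' _ _ _; rfl
    | cons x l ih =>
      intro v v' hxU hv hl
      obtain ⟨h1, h2⟩ := hl
      have hx : x.1 ∈ U := hxU x List.mem_cons_self
      rcases x with ⟨a, b⟩
      cases b
      · simp only [sS, sT, Bool.false_eq_true, if_false] at h1 h2
        simp only at hx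
        have hva : ¬ ∃ q, R (src a) q := by
          rw [hreach_iff a hx, h1]; exact hv
        rw [evw_cons, ih (src a) v' (fun y hy => hxU y (List.mem_cons_of_mem _ hy)) hva h2]
        have hl' : lam a = 1 := by
          simp only [hlam]; rw [if_neg (fun h => hva h.2)]
        simp [evs, hl']
      · simp only [sS, sT, if_true] at h1 h2
        simp only at hx
        have hva : ¬ ∃ q, R (src a) q := by rw [h1]; exact hv
        have hvt : ¬ ∃ q, R (tgt a) q := fun h => hva ((hreach_iff a hx).2 h)
        rw [evw_cons, ih (tgt a) v' (fun y hy => hxU y (List.mem_cons_of_mem _ hy)) hvt h2]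
        have hl' : lam a = 1 := by
          simp only [hlam]; rw [if_neg (fun h => hva h.2)]
        simp [evs, hl']
  have hRel : ∀ t ∈ c, (Coef val t.2 ∧ evw coef t.2 = 1) ∨
      ∃ i, t.2 = word i ∨ t.2 = invRev (word i) := by
    intro t ht
    obtain ⟨v, _, h2, h3⟩ := hc t ht
    rcases h3 with ⟨h4, h5⟩ | h6
    · left
      refine ⟨h4, ?_⟩
      apply Subtype.ext
      rw [hcoe]
      have hUt : ∀ x ∈ t.2, x.1 ∈ U := by
        intro x hx
        exact ⟨⟨x, rfl, Or.inr ⟨t, ht, List.mem_append_right _ hx⟩⟩, h4 x hx⟩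
      by_cases hv : ∃ q, R v q
      · rw [hevin t.2 v v hUt hv h2, h5]; simp only [mul_one, mul_inv_cancel, OneMemClass.coe_one]
      · rw [hevout t.2 v v hUt hv h2]; rfl
    · exact Or.inr h6
  have hγU : ∀ x ∈ γ, x.1 ∈ U := fun x hx => ⟨⟨x, rfl, Or.inl hx⟩, hγ x hx⟩
  have hγval : ((evw coef γ : H) : G) = evw (cval val) γ := by
    rw [hcoe, hevin γ v0 v0 hγU ⟨1, Reach.base⟩ hγp, hp0]; simp
  by_cases htriv : ∀ f : H →* Multiplicative k, f = 1
  · left
    refine ⟨H, evw coef γ, hHfg, htriv, hγval, ?_⟩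
    exact killed_of_cert val word hli coef c γ hmk hRel hγ
  · right
    push Not at htriv
    obtain ⟨fC, hfC⟩ := htriv
    set fS : L → k := fun a => Multiplicative.toAdd (fC (coef a)) with hfS
    have hhtS : ∀ l : List (L × Bool), ht fS l = Multiplicative.toAdd (fC (evw coef l)) := by
      intro l
      induction l with
      | nil => simp
      | cons x l ih =>
        rw [ht_cons, evw_cons, MonoidHom.map_mul, toAdd_mul, ih]
        congr 1
        rcases x with ⟨a, b⟩
        cases b <;> simp only [sh, Bool.false_eq_true, ↓reduceIte, hfS, evs, _root_.map_inv, toAdd_inv]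
    obtain ⟨F, hF⟩ := exists_functional (k := k) (fun i => rowOf k val (word i)) hli
      (fun i => - ht fS (word i))
    set fX : L → k := fun a => match val a with
      | some _ => 0
      | none => F (Finsupp.single a 1) with hfX
    have hhtX : ∀ l : List (L × Bool), ht fX l = F (rowOf k val l) := by
      intro l
      induction l with
      | nil => simp only [ht_nil, rowOf_nil, map_zero]
      | cons x l ih =>
        rw [ht_cons, rowOf_cons, map_add, ih]
        congr 1
        rcases x with ⟨a, b⟩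
        cases hv : val a with
        | some g => cases b <;> simp [sh, rx, hfX, hv]
        | none =>
          cases b
          · simp only [sh, rx, hfX, hv, Bool.false_eq_true, if_false]
            rw [← map_neg, ← Finsupp.single_neg]
          · simp [sh, rx, hfX, hv]
    set f : L → k := fun a => fS a + fX a with hf
    have hht : ∀ l : List (L × Bool), ht f l = ht fS l + ht fX l := by
      intro l
      induction l with
      | nil => simp
      | cons x l ih =>
        rw [ht_cons, ht_cons, ht_cons, ih]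
        rcases x with ⟨a, b⟩
        cases b <;> simp [sh, hf] <;> ring
    have hfcoef : ∀ a, (val a).isSome = true → f a = fS a := by
      intro a ha
      obtain ⟨g, hg⟩ := Option.isSome_iff_exists.1 ha
      simp [hf, hfX, hg]
    have hfW : ∀ i, ht f (word i) = 0 := by
      intro i
      rw [hht, hhtX, hF]; ring
    have hrow0 : ∀ l : List (L × Bool), Coef val l → rowOf k val l = 0 := by
      intro l
      induction l with
      | nil => intro _; rfl
      | cons x l ih =>
        intro hl
        rw [rowOf_cons, ih (fun y hy => hl y (List.mem_cons_of_mem _ hy)), add_zero]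
        obtain ⟨g, hg⟩ := Option.isSome_iff_exists.1 (hl x List.mem_cons_self)
        simp [rx, hg]
    have hfR : ∀ t ∈ c, ht f t.2 = 0 := by
      intro t ht
      rcases hRel t ht with ⟨h4, h5⟩ | ⟨i, h6 | h6⟩
      · rw [hht, hhtX, hhtS, h5, hrow0 _ h4]; simp
      · rw [h6]; exact hfW i
      · rw [h6, ht_invRev, hfW i, neg_zero]
    refine ⟨f, hfW, hfR, ?_⟩
    intro hinj
    apply hfC
    -- heights of visited vertices
    set Z := {q | q ∈ vis (lsrc src) (ltgt tgt f) (v0, (0 : k)) (lcert f c) (lft f 0 γ)} with hZ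
    set η : V → k := fun v => if h : ∃ x, (v, x) ∈ Z then h.choose else 0 with hη
    have hηZ : ∀ v x, (v, x) ∈ Z → η v = x := by
      intro v x hvx
      have hex : ∃ x, (v, x) ∈ Z := ⟨x, hvx⟩
      have h1 : (v, η v) ∈ Z := by
        simp only [hη, hex, dif_pos]
        exact hex.choose_spec
      have := hinj h1 hvx rfl
      exact congrArg Prod.snd this
    have hη0 : η v0 = 0 := by
      apply hηZ
      simp only [hZ, Set.mem_ofPred_eq, vis, verts]
      simp only [List.map_append, List.cons_append, List.mem_cons, List.mem_append, List.mem_map, Prod.exists, Bool.exists_bool, List.mem_flatMap, true_or, and_true]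
    -- every used letter is a coboundary
    have hpathZ : ∀ (l : List (L × Bool)) (v' : V), IsPath src tgt v0 l v' →
        (∀ q ∈ verts (lsrc src) (ltgt tgt f) (v0, (0 : k)) (lft f 0 l), q ∈ Z) →
        ∀ x ∈ l, f x.1 = η (tgt x.1) - η (src x.1) := by
      intro l v' hl hsub x hx
      obtain ⟨y, hy, hyx⟩ := exists_lift_of_mem f 0 hx
      have h1 := hsub _ (sS_mem_verts (lsrc src) (ltgt tgt f) (isPath_lft src tgt f (h := 0) hl) hy)
      have h2 := hsub _ (sT_mem_verts (lsrc src) (ltgt tgt f) (v := (v0, (0 : k))) hy)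
      rcases y with ⟨⟨a, h⟩, b⟩
      subst hyx
      simp only [px]
      cases b
      · simp only [sS, sT, Bool.false_eq_true, if_false, lsrc, ltgt] at h1 h2
        rw [hηZ _ _ h1, hηZ _ _ h2]; ring
      · simp only [sS, sT, if_true, lsrc, ltgt] at h1 h2
        rw [hηZ _ _ h1, hηZ _ _ h2]; ring
    have hcob : ∀ a ∈ U, fS a = η (tgt a) - η (src a) := by
      intro a ha
      rw [← hfcoef a ha.2]
      obtain ⟨x, rfl, hx | ⟨t, htc, hx⟩⟩ := ha.1
      · refine hpathZ γ v0 hγp ?_ x hx
        intro q hq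
        simp only [hZ, Set.mem_ofPred_eq, vis, List.mem_append]
        exact Or.inl hq
      · obtain ⟨v, h1, h2, _⟩ := hc t htc
        refine hpathZ (t.1 ++ t.2) v ((isPath_append src tgt _ _ _ _).2 ⟨v, h1, h2⟩) ?_ x hx
        intro q hq
        simp only [hZ, Set.mem_ofPred_eq, vis, List.mem_append, List.mem_flatMap]
        right
        refine ⟨(lft f 0 t.1, lft f (ht f t.1) t.2), List.mem_map.2 ⟨t, htc, rfl⟩, ?_⟩
        rwa [lft_append, zero_add] at hq
    -- values of fC along reachable vertices
    have hreach : ∀ v q, R v q → ∃ hm : q * (p v)⁻¹ ∈ H,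
        fC ⟨q * (p v)⁻¹, hm⟩ = Multiplicative.ofAdd (η v) := by
      intro v q hvq
      induction hvq with
      | base =>
        have h1 : (1 : G) * (p v0)⁻¹ = 1 := by rw [hp0]; simp
        refine ⟨by rw [h1]; exact H.one_mem, ?_⟩
        have : (⟨(1 : G) * (p v0)⁻¹, by rw [h1]; exact H.one_mem⟩ : H) = 1 := Subtype.ext h1
        rw [this, MonoidHom.map_one, hη0]; rfl
      | @fwd a q ha hq ih =>
        obtain ⟨hm, ih⟩ := ih
        have hva : ∃ q, R (src a) q := ⟨q, hq⟩
        have hl' : lam a = p (src a) * cval val a * (p (tgt a))⁻¹ := by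
          simp only [hlam]; rw [if_pos ⟨ha, hva⟩]
        have h1 : q * cval val a * (p (tgt a))⁻¹ = q * (p (src a))⁻¹ * lam a := by
          rw [hl']; group
        have hm' : q * cval val a * (p (tgt a))⁻¹ ∈ H := by
          rw [h1]; exact H.mul_mem hm (hlamH a)
        refine ⟨hm', ?_⟩
        have h2 : (⟨q * cval val a * (p (tgt a))⁻¹, hm'⟩ : H) =
            ⟨q * (p (src a))⁻¹, hm⟩ * coef a := Subtype.ext h1
        rw [h2, MonoidHom.map_mul, ih]
        have h3 : fC (coef a) = Multiplicative.ofAdd (η (tgt a) - η (src a)) := by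
          rw [← hcob a ha]; rfl
        rw [h3, ← ofAdd_add]; congr 1; ring
      | @bwd a q ha hq ih =>
        obtain ⟨hm, ih⟩ := ih
        have hva : ∃ q, R (src a) q := (hreach_iff a ha).2 ⟨q, hq⟩
        have hl' : lam a = p (src a) * cval val a * (p (tgt a))⁻¹ := by
          simp only [hlam]; rw [if_pos ⟨ha, hva⟩]
        have h1 : q * (cval val a)⁻¹ * (p (src a))⁻¹ = q * (p (tgt a))⁻¹ * (lam a)⁻¹ := by
          rw [hl']; group
        have hm' : q * (cval val a)⁻¹ * (p (src a))⁻¹ ∈ H := by
          rw [h1]; exact H.mul_mem hm (H.inv_mem (hlamH a))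
        refine ⟨hm', ?_⟩
        have h2 : (⟨q * (cval val a)⁻¹ * (p (src a))⁻¹, hm'⟩ : H) =
            ⟨q * (p (tgt a))⁻¹, hm⟩ * (coef a)⁻¹ := Subtype.ext h1
        rw [h2, MonoidHom.map_mul, ih, MonoidHom.map_inv]
        have h3 : fC (coef a) = Multiplicative.ofAdd (η (tgt a) - η (src a)) := by
          rw [← hcob a ha]; rfl
        rw [h3, ← ofAdd_neg, ← ofAdd_add]; congr 1; ring
    have hη00 : ∀ v, (∃ q, R v q) → η v = 0 := by
      intro v hv
      obtain ⟨hm, h1⟩ := hreach v (p v) (hpR v hv)
      have h2 : (⟨p v * (p v)⁻¹, hm⟩ : H) = 1 := Subtype.ext (mul_inv_cancel _)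
      rw [h2, MonoidHom.map_one] at h1
      have := congrArg Multiplicative.toAdd h1
      simpa using this.symm
    have hgen : ∀ a ∈ U, fC (coef a) = 1 := by
      intro a ha
      by_cases hva : ∃ q, R (src a) q
      · have hvt : ∃ q, R (tgt a) q := (hreach_iff a ha).1 hva
        have h3 : fC (coef a) = Multiplicative.ofAdd (η (tgt a) - η (src a)) := by
          rw [← hcob a ha]; rfl
        rw [h3, hη00 _ hva, hη00 _ hvt, sub_zero]; rfl
      · have h1 : coef a = 1 := by
          apply Subtype.ext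
          simp only [hcoef, hlam]
          rw [if_neg (fun h => hva h.2)]; rfl
        rw [h1, MonoidHom.map_one]
    ext ⟨y, hy⟩
    have : fC ⟨y, hy⟩ = 1 := by
      induction hy using Subgroup.closure_induction with
      | mem x hx =>
        obtain ⟨a, ha, rfl⟩ := hx
        exact hgen a ha
      | one => exact fC.map_one
      | mul x z hx hz ihx ihz =>
        have : (⟨x * z, H.mul_mem hx hz⟩ : H) = ⟨x, hx⟩ * ⟨z, hz⟩ := rfl
        rw [this, MonoidHom.map_mul, ihx, ihz, mul_one]
      | inv x hx ihx =>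
        have : (⟨x⁻¹, H.inv_mem hx⟩ : H) = ⟨x, hx⟩⁻¹ := rfl
        rw [this, MonoidHom.map_inv, ihx, inv_one]
    rw [this]; rfl

lemma ncard_vis_le {V : Type} {L : Type u} (src tgt : L → V) (v0 : V)
    (c : List (List (L × Bool) × List (L × Bool))) (γ : List (L × Bool)) :
    ({v | v ∈ vis src tgt v0 c γ} : Set V).ncard ≤ (vis src tgt v0 c γ).length := by
  classical
  have : ({v | v ∈ vis src tgt v0 c γ} : Set V) = ((vis src tgt v0 c γ).toFinset : Set V) := by
    ext v; simp
  rw [this, Set.ncard_coe_finset]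
  exact List.toFinset_card_le _

lemma ncard_vis_lt {V : Type} {L : Type u} (src tgt : L → V) (v0 : V) (f : L → k)
    (c : List (List (L × Bool) × List (L × Bool))) (γ : List (L × Bool))
    (h : ¬ Set.InjOn Prod.fst
        {p | p ∈ vis (lsrc src) (ltgt tgt f) (v0, (0 : k)) (lcert f c) (lft f 0 γ)}) :
    ({v | v ∈ vis src tgt v0 c γ} : Set V).ncard <
      ({p | p ∈ vis (lsrc src) (ltgt tgt f) (v0, (0 : k)) (lcert f c) (lft f 0 γ)} :
        Set (V × k)).ncard := by
  have hfin : ({p | p ∈ vis (lsrc src) (ltgt tgt f) (v0, (0 : k)) (lcert f c) (lft f 0 γ)} :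
        Set (V × k)).Finite := List.finite_toSet _
  have himg : ({v | v ∈ vis src tgt v0 c γ} : Set V) = Prod.fst ''
      ({p | p ∈ vis (lsrc src) (ltgt tgt f) (v0, (0 : k)) (lcert f c) (lft f 0 γ)} :
        Set (V × k)) := by
    ext v
    simp only [Set.mem_ofPred_eq, Set.mem_image]
    rw [← map_fst_vis src tgt f v0 c γ, List.mem_map]
  rw [himg]
  refine lt_of_le_of_ne (Set.ncard_image_le hfin) ?_
  intro heq
  exact h (Set.injOn_of_ncard_image_eq heq hfin)

/-- The tower argument. -/
theorem tower (n : ℕ) : ∀ {V : Type} {L : Type u} {I : Type} (src tgt : L → V)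
    (val : L → Option G) (word : I → List (L × Bool)) (v0 : V)
    (c : List (List (L × Bool) × List (L × Bool))) (γ : List (L × Bool)),
    LinearIndependent k (fun i => rowOf k val (word i)) →
    FreeGroup.mk (certWord c) = FreeGroup.mk γ →
    (∀ t ∈ c, ItemOK src tgt val word v0 t) →
    Coef val γ → IsPath src tgt v0 γ v0 →
    (vis src tgt v0 c γ).length ≤ ({v | v ∈ vis src tgt v0 c γ} : Set V).ncard + n →
    ∃ (H : Subgroup G) (g : H), H.FG ∧ (∀ f : H →* Multiplicative k, f = 1) ∧
      (g : G) = evw (cval val) γ ∧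
      ∃ (m n : ℕ) (w : Fin m → Words H n), FullRank k w ∧
        Monoid.Coprod.inl g ∈ Subgroup.normalClosure (Set.range w) := by
  induction n with
  | zero =>
    intro V L I src tgt val word v0 c γ hli hmk hc hγ hγp hcard
    rcases stage src tgt val word v0 c γ hli hmk hc hγ hγp with h | ⟨f, hfW, hfR, hinj⟩
    · exact h
    · exfalso
      have h1 := ncard_vis_lt src tgt v0 f c γ hinj
      have h2 := ncard_vis_le (lsrc src) (ltgt tgt f) (v0, (0 : k)) (lcert f c) (lft f 0 γ)
      have h3 := congrArg List.length (map_fst_vis src tgt f v0 c γ)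
      rw [List.length_map] at h3
      omega
  | succ n ih =>
    intro V L I src tgt val word v0 c γ hli hmk hc hγ hγp hcard
    rcases stage src tgt val word v0 c γ hli hmk hc hγ hγp with h | ⟨f, hfW, hfR, hinj⟩
    · exact h
    · have h1 := ncard_vis_lt src tgt v0 f c γ hinj
      have h3 := congrArg List.length (map_fst_vis src tgt f v0 c γ)
      rw [List.length_map] at h3
      have hγ0 : ht f γ = 0 := by
        rw [← ht_eq_of_mk_eq f hmk]
        exact ht_certWord f c hfR
      obtain ⟨H, g, hfg, htr, hg, hw⟩ := ih (lsrc src) (ltgt tgt f) (lval (k := k) val)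
        (fun p : I × k => lft f p.2 (word p.1)) (v0, (0 : k)) (lcert f c) (lft f 0 γ)
        (linearIndependent_lift val f word hli)
        (by rw [← lft_certWord f c hfR]; exact mk_lft_eq f hmk 0)
        (by
          intro t ht
          obtain ⟨t', ht', rfl⟩ := List.mem_map.1 ht
          exact itemOK_lift src tgt val word v0 f hfW t' (hfR t' ht') (hc t' ht'))
        (coef_lval_lft val f 0 γ hγ)
        (by
          have := isPath_lft src tgt f (h := 0) hγp
          rwa [hγ0, add_zero] at this)
        (by omega)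
      refine ⟨H, g, hfg, htr, ?_, hw⟩
      rw [hg, evw_lval_lft]

end Main

end Vale.Agent.P174
end

section

/-!
The localization theorem for systems of equations over groups.
-/

namespace Vale.Agent.P174

open FreeGroup

universe u

section CertOfNormalClosure

variable {L I G : Type*} [Group G]

lemma relOK_invRev {val : L → Option G} {word : I → List (L × Bool)} {r : List (L × Bool)}
    (h : RelOK val word r) : RelOK val word (invRev r) := by
  rcases h with ⟨h1, h2⟩ | ⟨i, h | h⟩
  · left
    refine ⟨?_, ?_⟩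
    · intro x hx
      simp only [invRev, List.mem_reverse, List.mem_map] at hx
      obtain ⟨y, hy, rfl⟩ := hx
      exact h1 y hy
    · rw [evw_invRev, h2, inv_one]
  · exact Or.inr ⟨i, Or.inr (by rw [h])⟩
  · exact Or.inr ⟨i, Or.inl (by rw [h, invRev_invRev])⟩

lemma certWord_append (c₁ c₂ : List (List (L × Bool) × List (L × Bool))) :
    certWord (c₁ ++ c₂) = certWord c₁ ++ certWord c₂ := by
  simp [certWord]

lemma certWord_reverse (c : List (List (L × Bool) × List (L × Bool))) :
    certWord (c.reverse.map (fun t => (t.1, invRev t.2))) = invRev (certWord c) := by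
  induction c with
  | nil => rfl
  | cons t c ih =>
    rw [List.reverse_cons, List.map_append, certWord_append, ih, certWord_cons, invRev_append]
    congr 1
    simp [certWord, itemWord, invRev_append]

lemma exists_cert (val : L → Option G) (word : I → List (L × Bool)) (x : FreeGroup L)
    (hx : x ∈ Subgroup.normalClosure {y | ∃ r, RelOK val word r ∧ FreeGroup.mk r = y}) :
    ∃ c : List (List (L × Bool) × List (L × Bool)), (∀ t ∈ c, RelOK val word t.2) ∧
      FreeGroup.mk (certWord c) = x := by
  classical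
  unfold Subgroup.normalClosure at hx
  induction hx using Subgroup.closure_induction with
  | mem x hx =>
    obtain ⟨y, ⟨r, hr, rfl⟩, hconj⟩ := Group.mem_conjugatesOfSet_iff.1 hx
    obtain ⟨u, rfl⟩ := isConj_iff.1 hconj
    refine ⟨[(u.toWord, r)], ?_, ?_⟩
    · intro t ht
      rw [List.mem_singleton] at ht
      subst ht
      exact hr
    · have : certWord [(u.toWord, r)] = u.toWord ++ r ++ invRev u.toWord := by
        simp [certWord, itemWord]
      rw [this, ← FreeGroup.mul_mk, ← FreeGroup.mul_mk, ← FreeGroup.inv_mk, FreeGroup.mk_toWord]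
  | one => exact ⟨[], by simp, rfl⟩
  | mul x y _ _ ihx ihy =>
    obtain ⟨c₁, h1, rfl⟩ := ihx
    obtain ⟨c₂, h2, rfl⟩ := ihy
    refine ⟨c₁ ++ c₂, ?_, ?_⟩
    · intro t ht
      rcases List.mem_append.1 ht with h | h
      · exact h1 t h
      · exact h2 t h
    · rw [certWord_append, FreeGroup.mul_mk]
  | inv x _ ihx =>
    obtain ⟨c, h1, rfl⟩ := ihx
    refine ⟨c.reverse.map (fun t => (t.1, invRev t.2)), ?_, ?_⟩
    · intro t ht
      obtain ⟨t', ht', rfl⟩ := List.mem_map.1 ht
      exact relOK_invRev (h1 t' (List.mem_reverse.1 ht'))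
    · rw [certWord_reverse, FreeGroup.inv_mk]

lemma isPath_unit (l : List (L × Bool)) (v v' : Unit) :
    IsPath (fun _ : L => ()) (fun _ : L => ()) v l v' := by
  induction l generalizing v with
  | nil => exact Subsingleton.elim _ _
  | cons x l ih => exact ⟨Subsingleton.elim _ _, ih _⟩

end CertOfNormalClosure

section Initial

variable {G : Type u} [Group G] {n : ℕ}

/-- coefficient values at the initial stage -/
def val0 : G ⊕ Fin n → Option G := Sum.elim some (fun _ => none)

/-- coefficients at the initial stage -/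
def coef0 : G ⊕ Fin n → G := Sum.elim id (fun _ => 1)

/-- indices of unknowns at the initial stage -/
def ix0 : G ⊕ Fin n → Option (Fin n) := Sum.elim (fun _ => none) some

/-- the projection of the free group on `G ⊕ Fin n` onto `G * F_n` -/
noncomputable def proj0 : FreeGroup (G ⊕ Fin n) →* Words G n :=
  FreeGroup.lift (topMap val0 coef0 ix0)

lemma proj0_inl (g : G) : proj0 (n := n) (FreeGroup.of (Sum.inl g)) = Monoid.Coprod.inl g := by
  simp [proj0, topMap, val0, coef0]

lemma proj0_inr (j : Fin n) :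
    proj0 (G := G) (FreeGroup.of (Sum.inr j)) = Monoid.Coprod.inr (FreeGroup.of j) := by
  simp [proj0, topMap, val0, ix0]

lemma proj0_surjective : Function.Surjective (proj0 (G := G) (n := n)) := by
  intro x
  induction x using Monoid.Coprod.induction_on with
  | inl g => exact ⟨_, proj0_inl g⟩
  | inr y =>
    refine ⟨FreeGroup.map Sum.inr y, ?_⟩
    have : (proj0 (G := G) (n := n)).comp (FreeGroup.map Sum.inr) = Monoid.Coprod.inr := by
      ext j
      simp [proj0_inr]
    exact DFunLike.congr_fun this y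
  | mul x y ihx ihy =>
    obtain ⟨a, rfl⟩ := ihx
    obtain ⟨b, rfl⟩ := ihy
    exact ⟨a * b, MonoidHom.map_mul _ _ _⟩

end Initial

section Main

variable {G : Type u} [Group G] {k : Type} [Field k] {m n : ℕ}

theorem rows_independent (w : Fin m → Words G n) (hw : FullRank k w)
    (word : Fin m → List ((G ⊕ Fin n) × Bool))
    (hword : ∀ i, proj0 (FreeGroup.mk (word i)) = w i) :
    LinearIndependent k (fun i => rowOf k (val0 (G := G) (n := n)) (word i)) := by
  classical
  have hrow : LinearIndependent k ((expMatrix w).map (fun a : ℤ => (a : k))).row := by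
    rw [linearIndependent_iff_card_eq_finrank_span, Set.finrank, ← Matrix.rank_eq_finrank_span_row]
    rw [Fintype.card_fin]
    exact hw.symm
  let T : (Fin n → k) →ₗ[k] (G ⊕ Fin n →₀ k) :=
    { toFun := fun v => ∑ j, Finsupp.single (Sum.inr j) (v j)
      map_add' := by
        intro v v'
        rw [← Finset.sum_add_distrib]
        refine Finset.sum_congr rfl fun j _ => ?_
        rw [Pi.add_apply, Finsupp.single_add]
      map_smul' := by
        intro r v
        rw [Finset.smul_sum]
        refine Finset.sum_congr rfl fun j _ => ?_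
        rw [Pi.smul_apply, Finsupp.smul_single, RingHom.id_apply] }
  have hT : LinearMap.ker T = ⊥ := by
    rw [LinearMap.ker_eq_bot']
    intro v hv
    funext j
    have := DFunLike.congr_fun hv (Sum.inr j)
    simp only [T, LinearMap.coe_mk, AddHom.coe_mk, Finsupp.coe_finsetSum, Finset.sum_apply,
      Finsupp.coe_zero, Pi.zero_apply] at this
    rw [Finset.sum_eq_single j] at this
    · simpa using this
    · intro j' _ hj'
      rw [Finsupp.single_apply, if_neg]
      intro h; exact hj' (Sum.inr_injective h)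
    · simp only [Finset.mem_univ, not_true_eq_false, Finsupp.single_eq_same, IsEmpty.forall_iff]
  have h1 := hrow.map' T hT
  have h2 : (T ∘ ((expMatrix w).map (fun a : ℤ => (a : k))).row) =
      fun i => rowOf k (val0 (G := G) (n := n)) (word i) := by
    funext i
    have h3 := toAdd_expSum_evw (k := k) (n := n) (val0 (G := G) (n := n)) coef0 ix0 Sum.inr
      (by
        intro a j haj
        rcases a with a | a
        · simp [ix0] at haj
        · simp [ix0] at haj; rw [haj]) (word i)
      (by
        intro x _ hx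
        rcases x with ⟨a | a, b⟩
        · simp [val0] at hx
        · exact ⟨a, rfl⟩)
    have h4 : evw (topMap (val0 (G := G) (n := n)) coef0 ix0) (word i) = w i := by
      rw [← hword i]
      unfold proj0
      rw [lift_mk_eq_evw]
    rw [h4] at h3
    exact h3
  rw [h2] at h1
  exact h1

theorem of_mem_normalClosure (w : Fin m → Words G n)
    (word : Fin m → List ((G ⊕ Fin n) × Bool))
    (hword : ∀ i, proj0 (FreeGroup.mk (word i)) = w i) (g : G)
    (hg : Monoid.Coprod.inl g ∈ Subgroup.normalClosure (Set.range w)) :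
    FreeGroup.of (Sum.inl g) ∈ Subgroup.normalClosure
      {y | ∃ r, RelOK (val0 (G := G) (n := n)) word r ∧ FreeGroup.mk r = y} := by
  set N := Subgroup.normalClosure
      {y | ∃ r, RelOK (val0 (G := G) (n := n)) word r ∧ FreeGroup.mk r = y} with hN
  let q : FreeGroup (G ⊕ Fin n) →* FreeGroup (G ⊕ Fin n) ⧸ N := QuotientGroup.mk' N
  have hq : ∀ r, RelOK (val0 (G := G) (n := n)) word r → q (FreeGroup.mk r) = 1 := by
    intro r hr
    exact (QuotientGroup.eq_one_iff _).2 (Subgroup.subset_normalClosure ⟨r, hr, rfl⟩)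
  have hmul : ∀ a b : G, q (FreeGroup.of (Sum.inl (a * b))) =
      q (FreeGroup.of (Sum.inl a)) * q (FreeGroup.of (Sum.inl b)) := by
    intro a b
    have h1 := hq [(Sum.inl a, true), (Sum.inl b, true), (Sum.inl (a * b), false)] (by
      left
      refine ⟨?_, ?_⟩
      · intro x hx
        simp only [List.mem_cons, List.not_mem_nil, or_false] at hx
        rcases hx with rfl | rfl | rfl <;> rfl
      · simp only [val0, evw_cons, evs, ↓reduceIte, cval, Sum.elim_inl, Option.getD_some, Bool.false_eq_true, mul_inv_rev, evw_nil, mul_one, mul_inv_cancel_left, mul_inv_cancel])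
    have h2 : (FreeGroup.mk [(Sum.inl a, true), (Sum.inl b, true), (Sum.inl (a * b), false)] :
        FreeGroup (G ⊕ Fin n)) =
        FreeGroup.of (Sum.inl a) * FreeGroup.of (Sum.inl b) *
          (FreeGroup.of (Sum.inl (a * b)))⁻¹ := rfl
    rw [h2, MonoidHom.map_mul, MonoidHom.map_mul, MonoidHom.map_inv] at h1
    exact (mul_inv_eq_one.1 h1).symm
  let ψ : G →* FreeGroup (G ⊕ Fin n) ⧸ N := MonoidHom.mk' (fun a => q (FreeGroup.of (Sum.inl a))) hmul
  let Ψ : Words G n →* FreeGroup (G ⊕ Fin n) ⧸ N :=
    Monoid.Coprod.lift ψ (FreeGroup.lift fun j => q (FreeGroup.of (Sum.inr j)))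
  have hΨ : Ψ.comp proj0 = q := by
    ext a
    rcases a with a | j
    · simp only [MonoidHom.comp_apply, proj0_inl]
      simp [Ψ, ψ]
    · simp only [MonoidHom.comp_apply, proj0_inr]
      simp [Ψ]
  have hker : Subgroup.normalClosure (Set.range w) ≤ Ψ.ker := by
    apply Subgroup.normalClosure_le_normal
    rintro _ ⟨i, rfl⟩
    rw [SetLike.mem_coe, MonoidHom.mem_ker, ← hword i]
    have := DFunLike.congr_fun hΨ (FreeGroup.mk (word i))
    rw [MonoidHom.comp_apply] at this
    rw [this]
    exact hq _ (Or.inr ⟨i, Or.inl rfl⟩)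
  have h1 : Ψ (Monoid.Coprod.inl g) = 1 := hker hg
  have h2 : Ψ (Monoid.Coprod.inl g) = q (FreeGroup.of (Sum.inl g)) := by
    simp [Ψ, ψ]
  rw [h2] at h1
  exact (QuotientGroup.eq_one_iff _).1 h1

/-- Localization theorem: an element of `G` killed by a system of full rank over `k` lies in
a finitely generated subgroup `H` without nontrivial homomorphisms to `k`, and is killed there
by a system of full rank over `k` with coefficients in `H`. -/
theorem localization (w : Fin m → Words G n) (hw : FullRank k w) (g : G)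
    (hg : Monoid.Coprod.inl g ∈ Subgroup.normalClosure (Set.range w)) :
    ∃ (H : Subgroup G) (hgH : g ∈ H), H.FG ∧ (∀ f : H →* Multiplicative k, f = 1) ∧
      ∃ (m' n' : ℕ) (w' : Fin m' → Words H n'), FullRank k w' ∧
        Monoid.Coprod.inl (⟨g, hgH⟩ : H) ∈ Subgroup.normalClosure (Set.range w') := by
  classical
  have hsurj := proj0_surjective (G := G) (n := n)
  choose x hx using fun i => hsurj (w i)
  let word : Fin m → List ((G ⊕ Fin n) × Bool) := fun i => (x i).toWord
  have hword : ∀ i, proj0 (FreeGroup.mk (word i)) = w i := by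
    intro i
    simp only [word, FreeGroup.mk_toWord, hx]
  have hli := rows_independent w hw word hword
  have hmem := of_mem_normalClosure w word hword g hg
  obtain ⟨c, hc, hmk⟩ := exists_cert _ _ _ hmem
  obtain ⟨H, h, hfg, htr, hval, hw'⟩ := tower (k := k)
    ((vis (fun _ => ()) (fun _ => ()) () c [((Sum.inl g : G ⊕ Fin n), true)]).length)
    (fun _ : G ⊕ Fin n => ()) (fun _ => ()) val0 word () c [(Sum.inl g, true)] hli hmk
    (fun t ht => ⟨(), isPath_unit _ _ _, isPath_unit _ _ _, hc t ht⟩)
    (by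
      intro y hy
      rw [List.mem_singleton] at hy
      subst hy; rfl)
    (isPath_unit _ _ _) (Nat.le_add_left _ _)
  have hgval : evw (cval (val0 (G := G) (n := n))) [(Sum.inl g, true)] = g := by
    simp [evs, cval, val0]
  rw [hgval] at hval
  refine ⟨H, by rw [← hval]; exact h.2, hfg, htr, ?_⟩
  have : (⟨g, by rw [← hval]; exact h.2⟩ : H) = h := Subtype.ext hval.symm
  rw [this]
  exact hw'

end Main

end Vale.Agent.P174
end

section

/-!
Consequences of the localization theorem.
-/

namespace Vale.Agent.P174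

universe u

variable {G : Type u} [Group G] {m n : ℕ}

/-- The canonical criterion: a system is solvable over `G` iff its normal closure in `G * F_n`
meets `G` trivially. -/
theorem solvableOver_iff (w : Fin m → Words G n) :
    SolvableOver w ↔ ∀ g : G,
      Monoid.Coprod.inl g ∈ Subgroup.normalClosure (Set.range w) → g = 1 := by
  constructor
  · rintro ⟨H, _, ι, h, hι, hw⟩ g hg
    have hle : Subgroup.normalClosure (Set.range w) ≤
        (Monoid.Coprod.lift ι (FreeGroup.lift h)).ker := by
      apply Subgroup.normalClosure_le_normal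
      rintro _ ⟨i, rfl⟩
      exact hw i
    have h1 := hle hg
    rw [MonoidHom.mem_ker, Monoid.Coprod.lift_apply_inl] at h1
    exact hι (by rw [h1, MonoidHom.map_one])
  · intro h
    refine ⟨Words G n ⧸ Subgroup.normalClosure (Set.range w), inferInstance,
      (QuotientGroup.mk' _).comp Monoid.Coprod.inl,
      fun j => QuotientGroup.mk' _ (Monoid.Coprod.inr (FreeGroup.of j)), ?_, ?_⟩
    · rw [injective_iff_map_eq_one]
      intro g hg
      exact h g ((QuotientGroup.eq_one_iff _).1 hg)
    · intro i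
      have : Monoid.Coprod.lift ((QuotientGroup.mk' (Subgroup.normalClosure (Set.range w))).comp
          Monoid.Coprod.inl) (FreeGroup.lift fun j =>
          QuotientGroup.mk' (Subgroup.normalClosure (Set.range w))
            (Monoid.Coprod.inr (FreeGroup.of j))) =
          QuotientGroup.mk' (Subgroup.normalClosure (Set.range w)) := by
        apply Monoid.Coprod.hom_ext
        · rfl
        · ext j; simp only [QuotientGroup.mk'_apply, Monoid.Coprod.lift_comp_inr, FreeGroup.lift_apply_of, MonoidHom.coe_comp, QuotientGroup.coe_mk', Function.comp_apply]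
      rw [this]
      exact (QuotientGroup.eq_one_iff _).2 (Subgroup.subset_normalClosure ⟨i, rfl⟩)

/-- functoriality of `FullRank` -/
lemma fullRank_map {k : Type} [Field k] {H : Type u} [Group H] (φ : G →* H)
    (w : Fin m → Words G n) :
    FullRank k (fun i => Monoid.Coprod.map φ (MonoidHom.id _) (w i)) ↔ FullRank k w := by
  have h1 : (expSum H n).comp (Monoid.Coprod.map φ (MonoidHom.id _)) = expSum G n := by
    apply Monoid.Coprod.hom_ext
    · ext g; simp only [expSum, MonoidHom.coe_comp, Function.comp_apply, Monoid.Coprod.map_apply_inl, Monoid.Coprod.lift_apply_inl, MonoidHom.one_apply, toAdd_one, Pi.zero_apply, Monoid.Coprod.lift_comp_inl]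
    · ext j; simp only [expSum, MonoidHom.coe_comp, Function.comp_apply, Monoid.Coprod.map_apply_inr, MonoidHom.id_apply, Monoid.Coprod.lift_apply_inr, FreeGroup.lift_apply_of, toAdd_ofAdd, Monoid.Coprod.lift_comp_inr]
  have h2 : expMatrix (fun i => Monoid.Coprod.map φ (MonoidHom.id _) (w i)) = expMatrix w := by
    funext i j
    have := DFunLike.congr_fun h1 (w i)
    simp only [MonoidHom.comp_apply] at this
    simp only [expMatrix, this]
  simp only [FullRank, h2]

/-- `HowieOver` passes to groups that embed. -/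
theorem HowieOver.of_injective {k : Type} [Field k] {H : Type u} [Group H] (φ : G →* H)
    (hφ : Function.Injective φ) (hH : HowieOver k H) : HowieOver k G := by
  intro m n w hw
  obtain ⟨M, _, ι, h, hι, hsol⟩ := hH m n _ ((fullRank_map φ w).2 hw)
  refine ⟨M, inferInstance, ι.comp φ, h, hι.comp hφ, fun i => ?_⟩
  rw [← hsol i]
  have : (Monoid.Coprod.lift ι (FreeGroup.lift h)).comp
      (Monoid.Coprod.map φ (MonoidHom.id _)) =
      Monoid.Coprod.lift (ι.comp φ) (FreeGroup.lift h) := by
    apply Monoid.Coprod.hom_ext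
    · ext g; simp only [MonoidHom.coe_comp, Function.comp_apply, Monoid.Coprod.map_apply_inl, Monoid.Coprod.lift_apply_inl, Monoid.Coprod.lift_comp_inl]
    · ext j; simp only [MonoidHom.coe_comp, Function.comp_apply, Monoid.Coprod.map_apply_inr, MonoidHom.id_apply, Monoid.Coprod.lift_apply_inr, FreeGroup.lift_apply_of, Monoid.Coprod.lift_comp_inr]
  rw [← this]; rfl

/-- Local criterion. -/
theorem howieOver_iff_local (k : Type) [Field k] (G : Type u) [Group G] :
    HowieOver k G ↔ ∀ H : Subgroup G, H.FG → (∀ f : H →* Multiplicative k, f = 1) →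
      HowieOver k H := by
  constructor
  · intro h H _ _
    exact h.of_injective H.subtype H.subtype_injective
  · intro h m n w hw
    rw [solvableOver_iff]
    intro g hg
    obtain ⟨H, hgH, hfg, htr, m', n', w', hw', hg'⟩ := localization w hw g hg
    have h1 := h H hfg htr m' n' w' hw'
    rw [solvableOver_iff] at h1
    have h2 := h1 _ hg'
    exact congrArg Subtype.val h2

/-- homomorphisms onto `ℤ` give nontrivial homomorphisms to `ℚ` -/
lemma not_forall_eq_one_of_surjective {H : Type u} [Group H] (f : H →* Multiplicative ℤ)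
    (hf : Function.Surjective f) : ¬ ∀ f : H →* Multiplicative ℚ, f = 1 := by
  intro h
  have h1 := h ((AddMonoidHom.toMultiplicative (Int.castAddHom ℚ)).comp f)
  obtain ⟨x, hx⟩ := hf (Multiplicative.ofAdd 1)
  have h2 := DFunLike.congr_fun h1 x
  rw [MonoidHom.comp_apply, hx] at h2
  have h3 := congrArg Multiplicative.toAdd h2
  simp only [AddMonoidHom.toMultiplicative_apply_apply, toAdd_ofAdd, Int.coe_castAddHom, Int.cast_one, MonoidHom.one_apply, toAdd_one, one_ne_zero] at h3

/-- Local criterion for Howie's conjecture. -/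
theorem howie_iff_local (G : Type u) [Group G] :
    HowieOver ℚ G ↔ ∀ H : Subgroup G, H.FG →
      (¬ ∃ f : H →* Multiplicative ℤ, Function.Surjective f) → HowieOver ℚ H := by
  constructor
  · intro h H _ _
    exact h.of_injective H.subtype H.subtype_injective
  · intro h
    rw [howieOver_iff_local]
    intro H hfg htr
    exact h H hfg (fun ⟨f, hf⟩ => not_forall_eq_one_of_surjective f hf htr)

/-- Extensions by locally indicable quotients. -/
theorem howie_extension (G : Type u) [Group G] (N : Subgroup G) [N.Normal]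
    (hN : HowieOver ℚ N) (hQ : LocallyIndicable (G ⧸ N)) : HowieOver ℚ G := by
  rw [howie_iff_local]
  intro H hfg hno
  have hHN : H ≤ N := by
    by_contra hcon
    set K : Subgroup (G ⧸ N) := H.map (QuotientGroup.mk' N) with hK
    have hKfg : K.FG := by
      rw [Subgroup.fg_iff] at hfg ⊢
      obtain ⟨S, hS, hSfin⟩ := hfg
      refine ⟨QuotientGroup.mk' N '' S, ?_, hSfin.image _⟩
      rw [hK, ← hS, MonoidHom.map_closure]
    have hKne : K ≠ ⊥ := by
      intro hbot
      apply hcon
      intro x hx
      have : QuotientGroup.mk' N x ∈ K := ⟨x, hx, rfl⟩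
      rw [hbot, Subgroup.mem_bot] at this
      exact (QuotientGroup.eq_one_iff x).1 this
    obtain ⟨f, hf⟩ := hQ K hKfg hKne
    apply hno
    refine ⟨f.comp ((QuotientGroup.mk' N).subgroupMap H), hf.comp ?_⟩
    exact MonoidHom.subgroupMap_surjective _ _
  exact hN.of_injective (Subgroup.inclusion hHN) (Subgroup.inclusion_injective hHN)

end Vale.Agent.P174
end

section

/-!
The Fox derivatives of an element of `G * F_n` with respect to the unknowns.
-/

namespace Vale.Agent.P174

universe u v

/-- The semidirect product of the left module `k[Q]^n` with the group `Q`. -/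
structure FoxGroup (k : Type) [Field k] (Q : Type v) [Group Q] (n : ℕ) where
  /-- the module part -/
  der : Fin n → MonoidAlgebra k Q
  /-- the group part -/
  val : Q

namespace FoxGroup

variable {k : Type} [Field k] {Q : Type v} [Group Q] {n : ℕ}

theorem ext' {a b : FoxGroup k Q n} (h1 : a.der = b.der) (h2 : a.val = b.val) : a = b := by
  cases a; cases b
  simp only [mk.injEq]
  exact ⟨h1, h2⟩

noncomputable instance : Mul (FoxGroup k Q n) :=
  ⟨fun a b => ⟨a.der + MonoidAlgebra.of k Q a.val • b.der, a.val * b.val⟩⟩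

noncomputable instance : One (FoxGroup k Q n) := ⟨⟨0, 1⟩⟩

noncomputable instance : Inv (FoxGroup k Q n) :=
  ⟨fun a => ⟨-(MonoidAlgebra.of k Q a.val⁻¹ • a.der), a.val⁻¹⟩⟩

lemma mul_der (a b : FoxGroup k Q n) :
    (a * b).der = a.der + MonoidAlgebra.of k Q a.val • b.der := rfl
lemma mul_val (a b : FoxGroup k Q n) : (a * b).val = a.val * b.val := rfl
lemma one_der : (1 : FoxGroup k Q n).der = 0 := rfl
lemma one_val : (1 : FoxGroup k Q n).val = 1 := rfl
lemma inv_der (a : FoxGroup k Q n) : (a⁻¹).der = -(MonoidAlgebra.of k Q a.val⁻¹ • a.der) := rfl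
lemma inv_val (a : FoxGroup k Q n) : (a⁻¹).val = a.val⁻¹ := rfl

noncomputable instance : Group (FoxGroup k Q n) :=
  Group.ofLeftAxioms
    (by
      intro a b c
      apply ext'
      · simp only [mul_der, mul_val, map_mul, smul_add, mul_smul, add_assoc]
      · simp only [mul_val, mul_assoc])
    (by
      intro a
      apply ext'
      · simp only [mul_der, one_der, one_val, map_one, one_smul, zero_add]
      · simp only [mul_val, one_val, one_mul])
    (by
      intro a
      apply ext'
      · simp only [mul_der, inv_der, inv_val, one_der, neg_add_cancel]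
      · simp only [mul_val, inv_val, one_val, inv_mul_cancel])

end FoxGroup

/-- The homomorphism `G * F_n → k[Q]^n ⋊ Q` over `φ` which maps `g` to `(0, φ g)` and the
unknown `x_j` to `(e_j, φ x_j)`. -/
noncomputable def foxHom (k : Type) [Field k] {G : Type u} [Group G] {Q : Type v} [Group Q]
    {n : ℕ} (φ : Words G n →* Q) : Words G n →* FoxGroup k Q n :=
  Monoid.Coprod.lift
    { toFun := fun g => ⟨0, φ (Monoid.Coprod.inl g)⟩
      map_one' := FoxGroup.ext' rfl (by
        change φ (Monoid.Coprod.inl 1) = 1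
        rw [map_one, map_one])
      map_mul' := fun g h => FoxGroup.ext' (by
          rw [FoxGroup.mul_der, smul_zero, add_zero]) (by
        rw [FoxGroup.mul_val, map_mul, map_mul]) }
    (FreeGroup.lift fun j => ⟨Pi.single j 1, φ (Monoid.Coprod.inr (FreeGroup.of j))⟩)

/-- The row `(∂u/∂x_1, …, ∂u/∂x_n)` of Fox derivatives of `u ∈ G * F_n`, with values in the
group algebra `k[Q]` by means of `φ : G * F_n → Q`. -/
noncomputable def foxRow (k : Type) [Field k] {G : Type u} [Group G] {Q : Type v} [Group Q]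
    {n : ℕ} (φ : Words G n →* Q) (u : Words G n) : Fin n → MonoidAlgebra k Q :=
  (foxHom k φ u).der

end Vale.Agent.P174
end

section

/-!
Permutational wreath groups and cocycles.
-/

namespace Vale.Agent.P174

open Polynomial

universe u v

/-- The permutational wreath group: functions to `B` together with a permutation. -/
structure Wr (X : Type*) (B : Type*) where
  /-- the function part -/
  f : X → B
  /-- the permutation part -/
  s : Equiv.Perm X

namespace Wr

section Group

variable {X B : Type*} [Group B]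

@[ext] theorem ext {a b : Wr X B} (hf : ∀ t, a.f t = b.f t) (hs : a.s = b.s) : a = b := by
  cases a; cases b
  simp only [mk.injEq]
  exact ⟨funext hf, hs⟩

instance : Mul (Wr X B) := ⟨fun a b => ⟨fun t => a.f t * b.f (a.s⁻¹ t), a.s * b.s⟩⟩
instance : One (Wr X B) := ⟨⟨fun _ => 1, 1⟩⟩
instance : Inv (Wr X B) := ⟨fun a => ⟨fun t => (a.f (a.s t))⁻¹, a.s⁻¹⟩⟩

@[simp] lemma mul_f (a b : Wr X B) (t : X) : (a * b).f t = a.f t * b.f (a.s⁻¹ t) := rfl
@[simp] lemma mul_s (a b : Wr X B) : (a * b).s = a.s * b.s := rfl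
@[simp] lemma one_f (t : X) : (1 : Wr X B).f t = 1 := rfl
@[simp] lemma one_s : (1 : Wr X B).s = 1 := rfl
@[simp] lemma inv_f (a : Wr X B) (t : X) : (a⁻¹).f t = (a.f (a.s t))⁻¹ := rfl
@[simp] lemma inv_s (a : Wr X B) : (a⁻¹).s = a.s⁻¹ := rfl

instance : Group (Wr X B) :=
  Group.ofLeftAxioms
    (by
      intro a b c
      refine Wr.ext (fun t => ?_) ?_
      · simp only [mul_f, mul_s, _root_.mul_inv_rev, Equiv.Perm.mul_apply, mul_assoc]
      · simp only [mul_s, mul_assoc])
    (by
      intro a
      refine Wr.ext (fun t => ?_) ?_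
      · simp only [mul_f, one_f, one_s, inv_one, Equiv.Perm.one_apply, one_mul]
      · simp only [mul_s, one_s, one_mul])
    (by
      intro a
      refine Wr.ext (fun t => ?_) ?_
      · simp only [mul_f, inv_f, inv_s, inv_inv, inv_mul_cancel, one_f]
      · simp only [mul_s, inv_s, inv_mul_cancel, one_s])

/-- the permutation part as a homomorphism -/
def top : Wr X B →* Equiv.Perm X where
  toFun a := a.s
  map_one' := rfl
  map_mul' _ _ := rfl

/-- functoriality in `B` -/
def map {B' : Type*} [Group B'] (h : B →* B') : Wr X B →* Wr X B' where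
  toFun a := ⟨fun t => h (a.f t), a.s⟩
  map_one' := by
    ext t
    · exact map_one h
    · rfl
  map_mul' a b := by
    ext t
    · exact map_mul h _ _
    · rfl

end Group

section Act

variable {X : Type*} {k : Type*} [AddCommGroup k]

/-- the skew product action on `X × k` -/
def act : Wr X (Multiplicative k) →* Equiv.Perm (X × k) where
  toFun a :=
    { toFun := fun x => (a.s x.1, x.2 + Multiplicative.toAdd (a.f (a.s x.1)))
      invFun := fun x => (a.s⁻¹ x.1, x.2 - Multiplicative.toAdd (a.f x.1))
      left_inv := by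
        rintro ⟨t, x⟩
        simp
      right_inv := by
        rintro ⟨t, x⟩
        simp }
  map_one' := by
    ext ⟨t, x⟩ <;> simp
  map_mul' a b := by
    ext ⟨t, x⟩
    · simp
    · have h : a.s⁻¹ (a.s (b.s t)) = b.s t := a.s.symm_apply_apply _
      simp only [Equiv.Perm.mul_apply, Wr.mul_s, Wr.mul_f, Equiv.coe_fn_mk, toAdd_mul, h]
      abel

lemma act_apply (a : Wr X (Multiplicative k)) (t : X) (x : k) :
    act a (t, x) = (a.s t, x + Multiplicative.toAdd (a.f (a.s t))) := rfl

lemma act_inv_apply (a : Wr X (Multiplicative k)) (t : X) (x : k) :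
    (act a)⁻¹ (t, x) = (a.s⁻¹ t, x - Multiplicative.toAdd (a.f t)) := rfl

end Act

end Wr

section Cocycle

variable {G : Type u} [Group G] {n : ℕ} {X : Type*}

/-- cocycles: homomorphisms to the wreath group over a fixed permutation action -/
def Over {K : Type*} [Group K] {B : Type*} [Group B] (ρ : K →* Equiv.Perm X) (C : K →* Wr X B) :
    Prop := ∀ u, (C u).s = ρ u

lemma over_mul {K : Type*} [Group K] {B : Type*} [Group B] {ρ : K →* Equiv.Perm X}
    {C : K →* Wr X B} (h : Over ρ C) (u v : K) (t : X) :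
    (C (u * v)).f t = (C u).f t * (C v).f ((ρ u)⁻¹ t) := by
  rw [map_mul, Wr.mul_f, h u]

lemma over_inv {K : Type*} [Group K] {B : Type*} [Group B] {ρ : K →* Equiv.Perm X}
    {C : K →* Wr X B} (h : Over ρ C) (u : K) (t : X) :
    (C u⁻¹).f t = ((C u).f (ρ u t))⁻¹ := by
  rw [map_inv, Wr.inv_f, h u]

lemma over_one {K : Type*} [Group K] {B : Type*} [Group B]
    {C : K →* Wr X B} (t : X) : (C 1).f t = 1 := by
  rw [map_one, Wr.one_f]

/-- two cocycles over the free product which agree on the generators are equal -/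
lemma words_closure {S : Subgroup (Words G n)} (hG : ∀ g : G, Monoid.Coprod.inl g ∈ S)
    (hx : ∀ j : Fin n, Monoid.Coprod.inr (FreeGroup.of j) ∈ S) : ∀ u, u ∈ S := by
  intro u
  induction u using Monoid.Coprod.induction_on with
  | inl g => exact hG g
  | inr y =>
    have h1 : S.comap (Monoid.Coprod.inr : FreeGroup (Fin n) →* Words G n) = ⊤ := by
      rw [eq_top_iff, ← FreeGroup.closure_range_of, Subgroup.closure_le]
      rintro _ ⟨j, rfl⟩
      exact hx j
    have h2 : y ∈ S.comap (Monoid.Coprod.inr : FreeGroup (Fin n) →* Words G n) := by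
      rw [h1]; trivial
    exact h2
  | mul x y hx hy => exact S.mul_mem hx hy

/-- the cocycle with prescribed values -/
def mkC {B : Type*} [Group B] (ρ : Words G n →* Equiv.Perm X) (CG : G →* Wr X B)
    (y : Fin n → X → B) : Words G n →* Wr X B :=
  Monoid.Coprod.lift CG (FreeGroup.lift fun j => ⟨y j, ρ (Monoid.Coprod.inr (FreeGroup.of j))⟩)

lemma mkC_over {B : Type*} [Group B] (ρ : Words G n →* Equiv.Perm X) (CG : G →* Wr X B)
    (hCG : ∀ g, (CG g).s = ρ (Monoid.Coprod.inl g)) (y : Fin n → X → B) :
    Over ρ (mkC ρ CG y) := by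
  have h : Wr.top.comp (mkC ρ CG y) = ρ := by
    apply Monoid.Coprod.hom_ext
    · ext1 g
      simp only [MonoidHom.comp_apply, mkC, Monoid.Coprod.lift_apply_inl]
      exact hCG g
    · ext1 j
      simp only [MonoidHom.comp_apply, mkC, Monoid.Coprod.lift_apply_inr,
        FreeGroup.lift_apply_of]
      rfl
  intro u
  exact DFunLike.congr_fun h u

lemma mkC_inl {B : Type*} [Group B] (ρ : Words G n →* Equiv.Perm X) (CG : G →* Wr X B)
    (y : Fin n → X → B) (g : G) : mkC ρ CG y (Monoid.Coprod.inl g) = CG g := by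
  simp [mkC]

lemma mkC_inr {B : Type*} [Group B] (ρ : Words G n →* Equiv.Perm X) (CG : G →* Wr X B)
    (y : Fin n → X → B) (j : Fin n) :
    (mkC ρ CG y (Monoid.Coprod.inr (FreeGroup.of j))).f = y j := by
  simp [mkC]

/-- the trivial cocycle on a group -/
def trivC {K : Type*} [Group K] (B : Type*) [Group B] (ρ : K →* Equiv.Perm X) : K →* Wr X B where
  toFun u := ⟨fun _ => 1, ρ u⟩
  map_one' := Wr.ext (fun t => rfl) (map_one ρ)
  map_mul' u v := Wr.ext (fun t => by simp) (map_mul ρ u v)

/-- product of two commuting-valued cocycles -/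
def mulC {K : Type*} [Group K] {B : Type*} [CommGroup B] (ρ : K →* Equiv.Perm X)
    (C C' : K →* Wr X B) (hC : Over ρ C) (hC' : Over ρ C') : K →* Wr X B where
  toFun u := ⟨fun t => (C u).f t * (C' u).f t, ρ u⟩
  map_one' := Wr.ext (fun t => by simp) (map_one ρ)
  map_mul' u v := Wr.ext (fun t => by
      simp only [over_mul hC, over_mul hC', Wr.mul_f]
      exact mul_mul_mul_comm _ _ _ _) (map_mul ρ u v)

/-- The realization property for `k`-valued cocycles trivial on `G`. -/
def PB (k : Type*) [Field k] {m : ℕ} (w : Fin m → Words G n) {A : Type*}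
    (ρ : Words G n →* Equiv.Perm X) (i : A → Fin m) (t : A → X) : Prop :=
  ∀ b : A → k, (∀ a a', i a = i a' → t a = t a' → b a = b a') →
    ∃ C : Words G n →* Wr X (Multiplicative k), Over ρ C ∧
      (∀ g x, (C (Monoid.Coprod.inl g)).f x = 1) ∧
      ∀ a, (C (w (i a))).f (t a) = Multiplicative.ofAdd (b a)

lemma PB_pull {k : Type*} [Field k] {m : ℕ} {w : Fin m → Words G n} {A X' : Type*}
    {ρ : Words G n →* Equiv.Perm X} {ρ' : Words G n →* Equiv.Perm X'} {i : A → Fin m} {t : A → X}
    (e : X → X') (he : ∀ u x, e (ρ u x) = ρ' u (e x))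
    (hinj : ∀ a a', i a = i a' → e (t a) = e (t a') → t a = t a')
    (h : PB k w ρ' i (fun a => e (t a))) : PB k w ρ i t := by
  intro b hb
  obtain ⟨C, hC, hG, hw⟩ := h b (fun a a' h1 h2 => hb a a' h1 (hinj a a' h1 h2))
  have he' : ∀ u x, e ((ρ u)⁻¹ x) = (ρ' u)⁻¹ (e x) := by
    intro u x
    rw [← map_inv, ← map_inv, he]
  refine ⟨{ toFun := fun u => ⟨fun x => (C u).f (e x), ρ u⟩, map_one' := ?_, map_mul' := ?_ },
    fun u => rfl, fun g x => hG g (e x), fun a => hw a⟩
  · exact Wr.ext (fun x => over_one (C := C) _) (map_one ρ)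
  · intro u v
    exact Wr.ext (fun x => by simp only [over_mul hC, Wr.mul_f, he']) (map_mul ρ u v)

end Cocycle

end Vale.Agent.P174
end

section

/-!
The realization property passes to skew products with the additive group of the field.
-/

namespace Vale.Agent.P174

open Polynomial

universe u v

section Key

variable {G : Type u} [Group G] {n : ℕ} {X : Type*} {k : Type*} [Field k]

lemma taylor_coeff_top (c : k) (q : k[X]) (d : ℕ) (hq : q.natDegree ≤ d) :
    (taylor c q).coeff d = q.coeff d := by
  rcases Nat.lt_or_ge q.natDegree d with h | h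
  · rw [coeff_eq_zero_of_natDegree_lt h, coeff_eq_zero_of_natDegree_lt]
    rwa [natDegree_taylor]
  · have hd : d = q.natDegree := le_antisymm h hq
    subst hd
    rw [coeff_taylor_natDegree]
    rfl

lemma top_poly (ρ : Words G n →* Equiv.Perm X) (C0 z : Words G n →* Wr X (Multiplicative k))
    (h0 : Over ρ C0) (hz : Over ρ z)
    (hzG : ∀ g x, (z (Monoid.Coprod.inl g)).f x = 1) (d : ℕ)
    (C : Words G n →* Wr (X × k) (Multiplicative k)) (hC : Over (Wr.act.comp C0) C)
    (hCG : ∀ g x, (C (Monoid.Coprod.inl g)).f x = 1)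
    (hCx : ∀ j t x, (C (Monoid.Coprod.inr (FreeGroup.of j))).f (t, x)
      = Multiplicative.ofAdd (Multiplicative.toAdd
        ((z (Monoid.Coprod.inr (FreeGroup.of j))).f t) * x ^ d)) :
    ∀ u t, ∃ q : k[X], q.natDegree ≤ d ∧ q.coeff d = Multiplicative.toAdd ((z u).f t) ∧
      ∀ x, Multiplicative.toAdd ((C u).f (t, x)) = q.eval x := by
  have hact : ∀ u t x, (Wr.act.comp C0) u (t, x)
      = (ρ u t, x + Multiplicative.toAdd ((C0 u).f (ρ u t))) := by
    intro u t x
    rw [MonoidHom.comp_apply, Wr.act_apply, h0 u]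
  have hacti : ∀ u t x, ((Wr.act.comp C0) u)⁻¹ (t, x)
      = ((ρ u)⁻¹ t, x - Multiplicative.toAdd ((C0 u).f t)) := by
    intro u t x
    rw [MonoidHom.comp_apply, Wr.act_inv_apply, h0 u]
  let S : Subgroup (Words G n) :=
    { carrier := {u | ∀ t, ∃ q : k[X], q.natDegree ≤ d ∧
        q.coeff d = Multiplicative.toAdd ((z u).f t) ∧
        ∀ x, Multiplicative.toAdd ((C u).f (t, x)) = q.eval x}
      one_mem' := by
        intro t
        refine ⟨0, by simp, by simp, ?_⟩
        intro x
        simp
      mul_mem' := by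
        intro u v hu hv t
        obtain ⟨q, hq1, hq2, hq3⟩ := hu t
        obtain ⟨r, hr1, hr2, hr3⟩ := hv ((ρ u)⁻¹ t)
        refine ⟨q + taylor (-Multiplicative.toAdd ((C0 u).f t)) r, ?_, ?_, ?_⟩
        · refine (natDegree_add_le _ _).trans (max_le hq1 ?_)
          rwa [natDegree_taylor]
        · rw [coeff_add, taylor_coeff_top _ _ _ hr1, hq2, hr2, over_mul hz]
          rfl
        · intro x
          rw [over_mul hC, hacti, toAdd_mul, hq3, hr3, eval_add, taylor_eval, sub_eq_add_neg]
      inv_mem' := by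
        intro u hu t
        obtain ⟨q, hq1, hq2, hq3⟩ := hu (ρ u t)
        refine ⟨-taylor (Multiplicative.toAdd ((C0 u).f (ρ u t))) q, ?_, ?_, ?_⟩
        · rw [natDegree_neg, natDegree_taylor]
          exact hq1
        · rw [coeff_neg, taylor_coeff_top _ _ _ hq1, hq2, over_inv hz]
          rfl
        · intro x
          rw [over_inv hC, hact, toAdd_inv, hq3, eval_neg, taylor_eval] }
  have hS : ∀ u, u ∈ S := by
    apply words_closure
    · intro g t
      refine ⟨0, by simp, ?_, ?_⟩
      · rw [hzG]; simp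
      · intro x
        rw [hCG]; simp
    · intro j t
      refine ⟨Polynomial.C (Multiplicative.toAdd
        ((z (Monoid.Coprod.inr (FreeGroup.of j))).f t)) * Polynomial.X ^ d, ?_, ?_, ?_⟩
      · exact natDegree_C_mul_X_pow_le _ _
      · rw [coeff_C_mul_X_pow, if_pos rfl]
      · intro x
        rw [hCx]
        simp only [toAdd_ofAdd, eval_mul, eval_C, eval_pow, eval_X]
  exact hS

/-- polynomial families of values are realized -/
lemma poly_family {m : ℕ} {w : Fin m → Words G n} {A : Type*} {ρ : Words G n →* Equiv.Perm X}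
    {i : A → Fin m} {t : A → X} (h : PB k w ρ i t)
    (C0 : Words G n →* Wr X (Multiplicative k)) (h0 : Over ρ C0) (d : ℕ) :
    ∀ P : A → k[X], (∀ a, (P a).degree < d) → (∀ a a', i a = i a' → t a = t a' → P a = P a') →
      ∃ C : Words G n →* Wr (X × k) (Multiplicative k), Over (Wr.act.comp C0) C ∧
        (∀ g x, (C (Monoid.Coprod.inl g)).f x = 1) ∧
        ∀ a x, Multiplicative.toAdd ((C (w (i a))).f (t a, x)) = (P a).eval x := by
  induction d with
  | zero =>
    intro P hP _
    refine ⟨trivC _ _, fun u => rfl, fun g x => rfl, fun a x => ?_⟩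
    have h1 : P a = 0 := by
      have h2 := hP a
      rw [degree_lt_iff_coeff_zero] at h2
      ext N
      rw [h2 N (Nat.zero_le N), coeff_zero]
    rw [h1]; simp only [trivC, MonoidHom.coe_comp, Function.comp_apply, MonoidHom.coe_mk, OneHom.coe_mk, toAdd_one, eval_zero]
  | succ d ih =>
    intro P hP hc
    obtain ⟨z, hz, hzG, hzw⟩ := h (fun a => (P a).coeff d) (fun a a' h1 h2 => by rw [hc a a' h1 h2])
    set C1 := mkC (Wr.act.comp C0) (trivC (Multiplicative k) ((Wr.act.comp C0).comp
      Monoid.Coprod.inl)) (fun j x => Multiplicative.ofAdd (Multiplicative.toAdd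
        ((z (Monoid.Coprod.inr (FreeGroup.of j))).f x.1) * x.2 ^ d)) with hC1
    have hC1o : Over (Wr.act.comp C0) C1 := mkC_over _ _ (fun g => rfl) _
    have hC1G : ∀ g x, (C1 (Monoid.Coprod.inl g)).f x = 1 := by
      intro g x
      rw [hC1, mkC_inl]; rfl
    have hC1x : ∀ j t x, (C1 (Monoid.Coprod.inr (FreeGroup.of j))).f (t, x)
      = Multiplicative.ofAdd (Multiplicative.toAdd
        ((z (Monoid.Coprod.inr (FreeGroup.of j))).f t) * x ^ d) := by
      intro j t x
      rw [hC1, mkC_inr]
    choose q hq1 hq2 hq3 using top_poly ρ C0 z h0 hz hzG d C1 hC1o hC1G hC1x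
    obtain ⟨C2, hC2, hC2G, hC2w⟩ := ih (fun a => P a - q (w (i a)) (t a))
      (by
        intro a
        rw [degree_lt_iff_coeff_zero]
        intro N hN
        rcases Nat.eq_or_lt_of_le hN with h | h
        · subst h
          rw [coeff_sub, hq2, hzw]
          simp
        · rw [coeff_sub, coeff_eq_zero_of_natDegree_lt (lt_of_le_of_lt (hq1 _ _) h), sub_zero]
          have := hP a
          rw [degree_lt_iff_coeff_zero] at this
          exact this N h)
      (by
        intro a a' h1 h2
        simp only [h1, h2, hc a a' h1 h2])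
    refine ⟨mulC _ C1 C2 hC1o hC2, fun u => rfl, ?_, ?_⟩
    · intro g x
      change (C1 (Monoid.Coprod.inl g)).f x * (C2 (Monoid.Coprod.inl g)).f x = 1
      rw [hC1G, hC2G, one_mul]
    · intro a x
      change Multiplicative.toAdd ((C1 (w (i a))).f (t a, x) * (C2 (w (i a))).f (t a, x)) = _
      rw [toAdd_mul, hq3, hC2w, eval_sub]
      ring

theorem PB_cover {m : ℕ} {w : Fin m → Words G n} {A : Type*} [Finite A]
    {ρ : Words G n →* Equiv.Perm X} {i : A → Fin m} {t : A → X} (h : PB k w ρ i t)
    (C0 : Words G n →* Wr X (Multiplicative k)) (h0 : Over ρ C0) (x : A → k) :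
    PB k w (Wr.act.comp C0) i (fun a => (t a, x a)) := by
  classical
  intro b hb
  have : Fintype A := Fintype.ofFinite A
  have hP : ∀ i0 t0, ∃ p : k[X], ∀ a, i a = i0 → t a = t0 → p.eval (x a) = b a := by
    intro i0 t0
    let s : Finset k := Finset.univ.image x
    let g : k → k := fun ξ => if hh : ∃ a, i a = i0 ∧ t a = t0 ∧ x a = ξ then b hh.choose else 0
    refine ⟨Lagrange.interpolate s id g, ?_⟩
    intro a h1 h2
    have h3 : (Lagrange.interpolate s id g).eval (x a) = g (x a) :=
      Lagrange.eval_interpolate_at_node g (Set.injOn_id _)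
        (Finset.mem_image_of_mem x (Finset.mem_univ a))
    rw [h3]
    have hh : ∃ a', i a' = i0 ∧ t a' = t0 ∧ x a' = x a := ⟨a, h1, h2, rfl⟩
    simp only [g, dif_pos hh]
    obtain ⟨e1, e2, e3⟩ := hh.choose_spec
    exact hb _ _ (by rw [e1, h1]) (Prod.ext (by simp only [e2, h2]) (by simp only [e3]))
  choose p hp using hP
  obtain ⟨C, hC, hG, hw⟩ := poly_family h C0 h0
    ((Finset.univ.sup fun a => (p (i a) (t a)).natDegree) + 1)
    (fun a => p (i a) (t a))
    (by
      intro a
      refine lt_of_le_of_lt degree_le_natDegree ?_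
      norm_cast
      refine Nat.lt_succ_of_le ?_
      exact Finset.le_sup (f := fun a => (p (i a) (t a)).natDegree) (Finset.mem_univ a))
    (by
      intro a a' h1 h2
      simp only [h1, h2])
  refine ⟨C, hC, hG, fun a => ?_⟩
  have := hw a (x a)
  rw [hp _ _ a rfl rfl] at this
  rw [← this]
  rfl

end Key

end Vale.Agent.P174
end

section

/-!
Induced cocycles and the minimal subgroup argument.
-/

namespace Vale.Agent.P174

universe u v

section Induced

variable {K : Type*} [Group K] {X : Type*} {B : Type*} [Group B]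

/-- induced cocycles -/
theorem induced (ρ : K →* Equiv.Perm X) (t0 : X) (ψ : K → B)
    (hψ : ∀ x y, ρ x t0 = t0 → ρ y t0 = t0 → ψ (x * y) = ψ x * ψ y) :
    ∃ C : K →* Wr X B, Over ρ C ∧ ∀ h, ρ h t0 = t0 → (C h).f t0 = ψ h := by
  classical
  have hr : ∃ r : X → K, r t0 = 1 ∧ ∀ t, (∃ u, ρ u t0 = t) → ρ (r t) t0 = t := by
    refine ⟨fun t => if t = t0 then 1 else if h : ∃ u, ρ u t0 = t then h.choose else 1, ?_, ?_⟩
    · simp
    · intro t ht
      by_cases h : t = t0
      · simp only [h, ↓reduceIte, map_one, Equiv.Perm.coe_one, id_eq]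
      · simp only [if_neg h, dif_pos ht]
        exact ht.choose_spec
  obtain ⟨r, hr0, hr1⟩ := hr
  have horb : ∀ u t, (∃ v, ρ v t0 = (ρ u)⁻¹ t) ↔ ∃ v, ρ v t0 = t := by
    intro u t
    constructor
    · rintro ⟨v, hv⟩
      refine ⟨u * v, ?_⟩
      rw [map_mul, Equiv.Perm.mul_apply, hv]
      exact (ρ u).apply_symm_apply t
    · rintro ⟨v, hv⟩
      refine ⟨u⁻¹ * v, ?_⟩
      rw [map_mul, Equiv.Perm.mul_apply, hv, map_inv]
  have hψ1 : ψ 1 = 1 := by
    have := hψ 1 1 (by simp) (by simp)
    rw [mul_one] at this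
    exact (mul_eq_left.1 this.symm)
  have hst : ∀ u t, (∃ v, ρ v t0 = t) → ρ ((r t)⁻¹ * u * r ((ρ u)⁻¹ t)) t0 = t0 := by
    intro u t ht
    rw [map_mul, map_mul, Equiv.Perm.mul_apply, Equiv.Perm.mul_apply, hr1 _ ((horb u t).2 ht)]
    have h1 : ρ u ((ρ u)⁻¹ t) = t := (ρ u).apply_symm_apply t
    rw [h1, map_inv]
    exact (Equiv.symm_apply_eq (ρ (r t))).2 (hr1 t ht).symm
  refine ⟨{ toFun := fun u => ⟨fun t => if ∃ v, ρ v t0 = t then
      ψ ((r t)⁻¹ * u * r ((ρ u)⁻¹ t)) else 1, ρ u⟩, map_one' := ?_, map_mul' := ?_ },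
      fun u => rfl, ?_⟩
  · refine Wr.ext (fun t => ?_) (map_one ρ)
    have h1 : (ρ 1)⁻¹ t = t := by rw [map_one, inv_one]; rfl
    simp only [h1, mul_one, inv_mul_cancel, hψ1, ite_self, Wr.one_f]
  · intro u v
    refine Wr.ext (fun t => ?_) (map_mul ρ u v)
    simp only [Wr.mul_f, horb]
    by_cases ht : ∃ v, ρ v t0 = t
    · simp only [if_pos ht]
      rw [← hψ _ _ (hst u t ht) (hst v _ ((horb u t).2 ht))]
      congr 1
      have h2 : (ρ (u * v))⁻¹ t = (ρ v)⁻¹ ((ρ u)⁻¹ t) := by
        rw [map_mul, _root_.mul_inv_rev, Equiv.Perm.mul_apply]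
      rw [h2]
      group
    · simp only [if_neg ht, mul_one]
  · intro h hh
    have h1 : (ρ h)⁻¹ t0 = t0 := (Equiv.symm_apply_eq (ρ h)).2 hh.symm
    have hex : ∃ v, ρ v t0 = t0 := ⟨1, by rw [map_one, Equiv.Perm.one_apply]⟩
    change (if ∃ v, ρ v t0 = t0 then ψ ((r t0)⁻¹ * h * r ((ρ h)⁻¹ t0)) else 1) = ψ h
    rw [if_pos hex, h1, hr0, inv_one, one_mul, mul_one]

end Induced

section Minimal

variable {G : Type u} [Group G] {n m : ℕ} {k : Type*} [Field k]

/-- the coset action -/
abbrev cosetAct {K : Type*} [Group K] (H : Subgroup K) : K →* Equiv.Perm (K ⧸ H) :=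
  MulAction.toPermHom K (K ⧸ H)

lemma cosetAct_apply {K : Type*} [Group K] (H : Subgroup K) (u v : K) :
    cosetAct H u (v : K ⧸ H) = ((u * v : K) : K ⧸ H) := rfl

lemma cosetAct_fix {K : Type*} [Group K] (H : Subgroup K) (u : K) :
    cosetAct H u ((1 : K) : K ⧸ H) = ((1 : K) : K ⧸ H) ↔ u ∈ H := by
  rw [cosetAct_apply, mul_one, eq_comm, QuotientGroup.eq, inv_one, one_mul]

/-- The minimal subgroup. -/
theorem minimal {A : Type*} [Finite A] (w : Fin m → Words G n) (i : A → Fin m)
    (p : A → Words G n) (T : Finset (Words G n)) (hT1 : ∀ a, (p a)⁻¹ * w (i a) * p a ∈ T)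
    (hT2 : ∀ a a', (p a)⁻¹ * p a' ∈ T) (N : ℕ) :
    ∀ H : Subgroup (Words G n), Nat.card {x : T // (x : Words G n) ∈ H} ≤ N →
      (∀ a, (p a)⁻¹ * w (i a) * p a ∈ H) →
      PB k w (cosetAct H) i (fun a => (p a : Words G n ⧸ H)) →
      ∃ H' : Subgroup (Words G n), H' ≤ H ∧ H'.FG ∧ (∀ a, (p a)⁻¹ * w (i a) * p a ∈ H') ∧
        PB k w (cosetAct H') i (fun a => (p a : Words G n ⧸ H')) ∧
        ∀ φ : H' →* Multiplicative k,
          (∀ (a : A) (h : (p a)⁻¹ * w (i a) * p a ∈ H'), φ ⟨_, h⟩ = 1) → φ = 1 := by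
  classical
  induction N with
  | zero =>
    intro H hN hf hPB
    have hemp : IsEmpty A := by
      constructor
      intro a
      have h1 : Nonempty {x : T // (x : Words G n) ∈ H} := ⟨⟨⟨_, hT1 a⟩, hf a⟩⟩
      have h2 : 0 < Nat.card {x : T // (x : Words G n) ∈ H} := Nat.card_pos
      omega
    refine ⟨⊥, bot_le, ⟨∅, by simp only [Finset.coe_empty, Subgroup.closure_empty]⟩, fun a => hemp.elim a, ?_, ?_⟩
    · intro b _
      exact ⟨trivC _ _, fun u => rfl, fun g x => rfl, fun a => hemp.elim a⟩
    · intro φ _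
      refine MonoidHom.ext fun x => ?_
      have : x = 1 := Subsingleton.elim _ _
      rw [this, map_one, map_one]
  | succ N ih =>
    intro H hN hf hPB
    set H₂ : Subgroup (Words G n) := Subgroup.closure {x | x ∈ T ∧ x ∈ H} with hH₂
    have hH₂H : H₂ ≤ H := by
      rw [hH₂, Subgroup.closure_le]
      rintro x ⟨_, hx⟩
      exact hx
    have hH₂fg : H₂.FG := by
      rw [Subgroup.fg_iff]
      refine ⟨_, hH₂.symm, ?_⟩
      exact T.finite_toSet.subset (fun x hx => hx.1)
    have hmem2 : ∀ x, x ∈ T → x ∈ H → x ∈ H₂ := fun x h1 h2 => Subgroup.subset_closure ⟨h1, h2⟩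
    have hf2 : ∀ a, (p a)⁻¹ * w (i a) * p a ∈ H₂ := fun a => hmem2 _ (hT1 a) (hf a)
    have hPB2 : PB k w (cosetAct H₂) i (fun a => (p a : Words G n ⧸ H₂)) := by
      refine PB_pull (ρ' := cosetAct H)
        (fun x : Words G n ⧸ H₂ => Quotient.map' (s₂ := QuotientGroup.leftRel H) id
          (fun x y hxy => ?_) x) ?_ ?_ ?_
      · rw [QuotientGroup.leftRel_apply] at hxy ⊢
        exact hH₂H hxy
      · intro u x
        induction x using QuotientGroup.induction_on with
        | H x => rfl
      · intro a a' _ h2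
        have h3 : (p a : Words G n ⧸ H) = p a' := h2
        rw [QuotientGroup.eq] at h3
        change (p a : Words G n ⧸ H₂) = p a'
        rw [QuotientGroup.eq]
        exact hmem2 _ (hT2 a a') h3
      · exact hPB
    by_cases hφ : ∀ φ : H₂ →* Multiplicative k,
          (∀ (a : A) (h : (p a)⁻¹ * w (i a) * p a ∈ H₂), φ ⟨_, h⟩ = 1) → φ = 1
    · exact ⟨H₂, hH₂H, hH₂fg, hf2, hPB2, hφ⟩
    · push Not at hφ
      obtain ⟨φ, hφf, hφ1⟩ := hφ
      set H₃ : Subgroup (Words G n) := φ.ker.map H₂.subtype with hH₃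
      have hH₃H₂ : H₃ ≤ H₂ := by
        rintro _ ⟨x, _, rfl⟩
        exact x.2
      have hmem3 : ∀ x (hx : x ∈ H₂), φ ⟨x, hx⟩ = 1 → x ∈ H₃ := fun x hx h1 => ⟨⟨x, hx⟩, h1, rfl⟩
      have hmem3' : ∀ x (hx : x ∈ H₂), x ∈ H₃ → φ ⟨x, hx⟩ = 1 := by
        rintro x hx ⟨y, hy, rfl⟩
        exact hy
      have hf3 : ∀ a, (p a)⁻¹ * w (i a) * p a ∈ H₃ := fun a => hmem3 _ (hf2 a) (hφf a _)
      obtain ⟨C0, hC0, hC0f⟩ := induced (cosetAct H₂) ((1 : Words G n) : Words G n ⧸ H₂)
        (fun x => if h : x ∈ H₂ then φ ⟨x, h⟩ else 1) (by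
          intro x y hx hy
          rw [cosetAct_fix] at hx hy
          rw [dif_pos hx, dif_pos hy, dif_pos (H₂.mul_mem hx hy), ← map_mul]
          rfl)
      set t0 : (Words G n ⧸ H₂) × k := (((1 : Words G n) : Words G n ⧸ H₂), 0) with ht0
      have hfix : ∀ x, (Wr.act.comp C0) x t0 = t0 ↔ x ∈ H₃ := by
        intro x
        rw [ht0, MonoidHom.comp_apply, Wr.act_apply, hC0 x, Prod.mk.injEq, cosetAct_fix]
        constructor
        · rintro ⟨h1, h2⟩
          have h3 := (cosetAct_fix H₂ x).2 h1
          rw [h3, hC0f x h3, dif_pos h1, zero_add] at h2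
          exact hmem3 x h1 h2
        · intro h
          have h1 := hH₃H₂ h
          refine ⟨h1, ?_⟩
          have h3 := (cosetAct_fix H₂ x).2 h1
          rw [h3, hC0f x h3, dif_pos h1, zero_add, hmem3' x h1 h]
          rfl
      have hcov := PB_cover hPB2 C0 hC0 (fun a => Multiplicative.toAdd ((C0 (p a)).f
        (p a : Words G n ⧸ H₂)))
      have hPB3 : PB k w (cosetAct H₃) i (fun a => (p a : Words G n ⧸ H₃)) := by
        refine PB_pull (ρ' := Wr.act.comp C0)
          (fun x : Words G n ⧸ H₃ => Quotient.liftOn' x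
            (fun u => (Wr.act.comp C0) u t0) (fun x y hxy => ?_)) ?_ ?_ ?_
        · rw [QuotientGroup.leftRel_apply] at hxy
          have h1 := (hfix _).2 hxy
          rw [map_mul, Equiv.Perm.mul_apply, map_inv] at h1
          have h2 := congrArg ((Wr.act.comp C0) x) h1
          have h3 : ((Wr.act.comp C0) x) (((Wr.act.comp C0) x)⁻¹ ((Wr.act.comp C0) y t0))
            = (Wr.act.comp C0) y t0 := ((Wr.act.comp C0) x).apply_symm_apply _
          rw [h3] at h2
          exact h2.symm
        · intro u x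
          induction x using QuotientGroup.induction_on with
          | H x =>
            change (Wr.act.comp C0) (u * x) t0 = (Wr.act.comp C0) u ((Wr.act.comp C0) x t0)
            rw [map_mul, Equiv.Perm.mul_apply]
        · intro a a' _ h2
          change (Wr.act.comp C0) (p a) t0 = (Wr.act.comp C0) (p a') t0 at h2
          change (p a : Words G n ⧸ H₃) = p a'
          rw [QuotientGroup.eq, ← hfix, map_mul, Equiv.Perm.mul_apply, ← h2, map_inv]
          exact ((Wr.act.comp C0) (p a)).symm_apply_apply _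
        · have he : (fun a => ((p a : Words G n ⧸ H₂), Multiplicative.toAdd ((C0 (p a)).f
              (p a : Words G n ⧸ H₂)))) = fun a => (Wr.act.comp C0) (p a) t0 := by
            funext a
            rw [ht0, MonoidHom.comp_apply, Wr.act_apply, hC0 (p a), cosetAct_apply, mul_one,
              zero_add]
          rw [he] at hcov
          exact hcov
      have hlt : Nat.card {x : T // (x : Words G n) ∈ H₃}
          < Nat.card {x : T // (x : Words G n) ∈ H} := by
        have hsub : {x : T | (x : Words G n) ∈ H₃} ⊂ {x : T | (x : Words G n) ∈ H} := by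
          refine ⟨fun x hx => hH₂H (hH₃H₂ hx), fun hcon => hφ1 ?_⟩
          have h23 : H₂ ≤ H₃ := by
            rw [hH₂, Subgroup.closure_le]
            rintro x ⟨hx1, hx2⟩
            exact hcon (a := ⟨x, hx1⟩) hx2
          exact MonoidHom.ext fun x => hmem3' x.1 x.2 (h23 x.2)
        exact Set.ncard_lt_ncard hsub (Set.toFinite _)
      obtain ⟨H', h1, h2, h3, h4, h5⟩ := ih H₃ (by omega) hf3 hPB3
      exact ⟨H', h1.trans (hH₃H₂.trans hH₂H), h2, h3, h4, h5⟩

end Minimal

end Vale.Agent.P174
end

section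

/-!
The relative localization theorem.
-/

namespace Vale.Agent.P174

universe u v

section Cert

variable {G : Type u} [Group G] {n m : ℕ}

lemma exists_finite_cert (w : Fin m → Words G n) (x : Words G n)
    (hx : x ∈ Subgroup.normalClosure (Set.range w)) :
    ∃ A : Finset (Fin m × Words G n),
      x ∈ Subgroup.closure (Set.range fun a : A => (a.1.2)⁻¹ * w a.1.1 * a.1.2) := by
  classical
  have hmono : ∀ A B : Finset (Fin m × Words G n), A ⊆ B →
      Subgroup.closure (Set.range fun a : A => (a.1.2)⁻¹ * w a.1.1 * a.1.2) ≤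
      Subgroup.closure (Set.range fun a : B => (a.1.2)⁻¹ * w a.1.1 * a.1.2) := by
    intro A B hAB
    apply Subgroup.closure_mono
    rintro _ ⟨a, rfl⟩
    exact ⟨⟨a.1, hAB a.2⟩, rfl⟩
  unfold Subgroup.normalClosure at hx
  induction hx using Subgroup.closure_induction with
  | mem x hx =>
    obtain ⟨y, ⟨i, rfl⟩, hconj⟩ := Group.mem_conjugatesOfSet_iff.1 hx
    obtain ⟨c, rfl⟩ := isConj_iff.1 hconj
    refine ⟨{(i, c⁻¹)}, Subgroup.subset_closure ⟨⟨(i, c⁻¹), Finset.mem_singleton_self _⟩, ?_⟩⟩
    simp only [inv_inv]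
  | one => exact ⟨∅, Subgroup.one_mem _⟩
  | mul x y _ _ ihx ihy =>
    obtain ⟨A, hA⟩ := ihx
    obtain ⟨B, hB⟩ := ihy
    exact ⟨A ∪ B, Subgroup.mul_mem _ (hmono _ _ Finset.subset_union_left hA)
      (hmono _ _ Finset.subset_union_right hB)⟩
  | inv x _ ihx =>
    obtain ⟨A, hA⟩ := ihx
    exact ⟨A, Subgroup.inv_mem _ hA⟩

end Cert

section Support

variable {G : Type u} [Group G] {n : ℕ} {X : Type*} {B : Type*} [Group B]

lemma support_cocycle (ρ : Words G n →* Equiv.Perm X) : ∀ (u : Words G n) (t : X),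
    ∃ Y : Finset (Fin n × X), ∀ C C' : Words G n →* Wr X B, Over ρ C → Over ρ C' →
      (∀ g x, (C (Monoid.Coprod.inl g)).f x = (C' (Monoid.Coprod.inl g)).f x) →
      (∀ j x, (j, x) ∈ Y → (C (Monoid.Coprod.inr (FreeGroup.of j))).f x =
        (C' (Monoid.Coprod.inr (FreeGroup.of j))).f x) → (C u).f t = (C' u).f t := by
  classical
  let S : Subgroup (Words G n) :=
    { carrier := {u | ∀ t : X, ∃ Y : Finset (Fin n × X), ∀ C C' : Words G n →* Wr X B,
        Over ρ C → Over ρ C' →
        (∀ g x, (C (Monoid.Coprod.inl g)).f x = (C' (Monoid.Coprod.inl g)).f x) →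
        (∀ j x, (j, x) ∈ Y → (C (Monoid.Coprod.inr (FreeGroup.of j))).f x =
          (C' (Monoid.Coprod.inr (FreeGroup.of j))).f x) → (C u).f t = (C' u).f t}
      one_mem' := by
        intro t
        refine ⟨∅, fun C C' _ _ _ _ => ?_⟩
        rw [over_one, over_one]
      mul_mem' := by
        intro u v hu hv t
        obtain ⟨Y1, h1⟩ := hu t
        obtain ⟨Y2, h2⟩ := hv ((ρ u)⁻¹ t)
        refine ⟨Y1 ∪ Y2, fun C C' hC hC' hG hY => ?_⟩
        rw [over_mul hC, over_mul hC',
          h1 C C' hC hC' hG (fun j x hx => hY j x (Finset.mem_union_left _ hx)),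
          h2 C C' hC hC' hG (fun j x hx => hY j x (Finset.mem_union_right _ hx))]
      inv_mem' := by
        intro u hu t
        obtain ⟨Y1, h1⟩ := hu (ρ u t)
        refine ⟨Y1, fun C C' hC hC' hG hY => ?_⟩
        rw [over_inv hC, over_inv hC', h1 C C' hC hC' hG hY] }
  have hS : ∀ u, u ∈ S := by
    apply words_closure
    · intro g t
      exact ⟨∅, fun C C' _ _ hG _ => hG g t⟩
    · intro j t
      exact ⟨{(j, t)}, fun C C' _ _ _ hY => hY j t (Finset.mem_singleton_self _)⟩
  exact hS

lemma conj_val {K : Type*} [Group K] {ρ : K →* Equiv.Perm X} {C : K →* Wr X B} (hC : Over ρ C)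
    (p u : K) (t0 : X) (h : ρ (p⁻¹ * u * p) t0 = t0) :
    (C (p⁻¹ * u * p)).f t0 = ((C p).f (ρ p t0))⁻¹ * (C u).f (ρ p t0) * (C p).f (ρ p t0) := by
  have h1 : (ρ (p⁻¹ * u))⁻¹ t0 = ρ p t0 := by
    rw [map_mul, Equiv.Perm.mul_apply] at h
    exact (Equiv.symm_apply_eq (ρ (p⁻¹ * u))).2 h.symm
  rw [over_mul hC (p⁻¹ * u) p, over_mul hC p⁻¹ u, h1, over_inv hC, map_inv, inv_inv]

end Support

section Final

variable {G : Type u} [Group G] {n m : ℕ} {k : Type} [Field k]

lemma comap_triv {A : Type*} (w : Fin m → Words G n) (i : A → Fin m)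
    (p : A → Words G n) (H : Subgroup (Words G n))
    (hPB : PB k w (cosetAct H) i (fun a => (p a : Words G n ⧸ H)))
    (hφ : ∀ φ : H →* Multiplicative k,
          (∀ (a : A) (h : (p a)⁻¹ * w (i a) * p a ∈ H), φ ⟨_, h⟩ = 1) → φ = 1)
    (P : Subgroup G) (hP : ∀ x, x ∈ P ↔ Monoid.Coprod.inl x ∈ H)
    (ψ : P →* Multiplicative k) : ψ = 1 := by
  classical
  set ρ := cosetAct H with hρ
  have hfixP : ∀ x : G, (ρ.comp Monoid.Coprod.inl) x ((1 : Words G n) : Words G n ⧸ H)
      = ((1 : Words G n) : Words G n ⧸ H) ↔ x ∈ P := fun x =>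
    (cosetAct_fix H _).trans (hP x).symm
  obtain ⟨CG, hCG, hCGf⟩ := induced (ρ.comp Monoid.Coprod.inl)
    ((1 : Words G n) : Words G n ⧸ H) (fun x => if h : x ∈ P then ψ ⟨x, h⟩ else 1) (by
      intro x y hx hy
      rw [hfixP] at hx hy
      rw [dif_pos hx, dif_pos hy, dif_pos (P.mul_mem hx hy), ← map_mul]
      rfl)
  set C1 := mkC ρ CG (fun _ _ => 1) with hC1
  have hC1o : Over ρ C1 := mkC_over ρ CG (fun g => hCG g) _
  obtain ⟨C2, hC2, hC2G, hC2w⟩ := hPB
    (fun a => -Multiplicative.toAdd ((C1 (w (i a))).f (p a : Words G n ⧸ H)))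
    (fun a a' h1 h2 => by simp only [h1, h2])
  set C := mulC ρ C1 C2 hC1o hC2 with hCdef
  have hC : Over ρ C := fun u => rfl
  have hCf : ∀ u t, (C u).f t = (C1 u).f t * (C2 u).f t := fun u t => rfl
  let φ : H →* Multiplicative k :=
    { toFun := fun h => (C h.1).f ((1 : Words G n) : Words G n ⧸ H)
      map_one' := by
        rw [Subgroup.coe_one, over_one]
      map_mul' := by
        intro x y
        have hx : (ρ x.1)⁻¹ ((1 : Words G n) : Words G n ⧸ H) = ((1 : Words G n) : Words G n ⧸ H) :=
          (Equiv.symm_apply_eq (ρ x.1)).2 ((cosetAct_fix H x.1).2 x.2).symm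
        rw [Subgroup.coe_mul, over_mul hC, hx] }
  have hφ1 : φ = 1 := by
    apply hφ
    intro a ha
    change (C ((p a)⁻¹ * w (i a) * p a)).f ((1 : Words G n) : Words G n ⧸ H) = 1
    have hval : (C (w (i a))).f (p a : Words G n ⧸ H) = 1 := by
      have h2 : (C2 (w (i a))).f (p a : Words G n ⧸ H) = _ := hC2w a
      rw [hCf, h2]
      simp only [ofAdd_neg, ofAdd_toAdd, mul_inv_cancel]
    rw [conj_val hC _ _ _ ((cosetAct_fix H _).2 ha), cosetAct_apply, mul_one, hval, mul_one,
      inv_mul_cancel]
  refine MonoidHom.ext fun x => ?_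
  have hx : Monoid.Coprod.inl x.1 ∈ H := (hP x.1).1 x.2
  have h1 : φ ⟨_, hx⟩ = 1 := by rw [hφ1]; rfl
  change (C (Monoid.Coprod.inl x.1)).f ((1 : Words G n) : Words G n ⧸ H) = 1 at h1
  rw [hCf, hC2G, mul_one, hC1, mkC_inl, hCGf x.1 ((hfixP x.1).2 x.2), dif_pos x.2] at h1
  exact h1

lemma comap_fg (H : Subgroup (Words G n)) (hH : H.FG) (P : Subgroup G)
    (hP : ∀ x, x ∈ P ↔ Monoid.Coprod.inl x ∈ H) : P.FG := by
  classical
  set ρ := cosetAct H with hρ
  have hfixP : ∀ x : G, (ρ.comp Monoid.Coprod.inl) x ((1 : Words G n) : Words G n ⧸ H)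
      = ((1 : Words G n) : Words G n ⧸ H) ↔ x ∈ P := fun x =>
    (cosetAct_fix H _).trans (hP x).symm
  obtain ⟨CG, hCG, hCGf⟩ := induced (ρ.comp Monoid.Coprod.inl)
    ((1 : Words G n) : Words G n ⧸ H) (fun x => if h : x ∈ P then (⟨x, h⟩ : P) else 1) (by
      intro x y hx hy
      rw [hfixP] at hx hy
      rw [dif_pos hx, dif_pos hy, dif_pos (P.mul_mem hx hy)]
      rfl)
  set C1 := mkC ρ CG (fun _ _ => 1) with hC1
  have hC1o : Over ρ C1 := mkC_over ρ CG (fun g => hCG g) _
  let φ : H →* P :=
    { toFun := fun h => (C1 h.1).f ((1 : Words G n) : Words G n ⧸ H)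
      map_one' := by
        rw [Subgroup.coe_one, over_one]
      map_mul' := by
        intro x y
        have hx : (ρ x.1)⁻¹ ((1 : Words G n) : Words G n ⧸ H) = ((1 : Words G n) : Words G n ⧸ H) :=
          (Equiv.symm_apply_eq (ρ x.1)).2 ((cosetAct_fix H x.1).2 x.2).symm
        rw [Subgroup.coe_mul, over_mul hC1o, hx] }
  have hsurj : Function.Surjective φ := by
    intro x
    have hx : Monoid.Coprod.inl x.1 ∈ H := (hP x.1).1 x.2
    refine ⟨⟨_, hx⟩, ?_⟩
    change (C1 (Monoid.Coprod.inl x.1)).f ((1 : Words G n) : Words G n ⧸ H) = x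
    rw [hC1, mkC_inl, hCGf x.1 ((hfixP x.1).2 x.2), dif_pos x.2]
  rw [← Group.fg_iff_subgroup_fg] at hH ⊢
  exact Group.fg_of_surjective hsurj

/-- evaluation into the additive group of `k` factors through exponent sums -/
lemma ev_expSum {P : Type u} [Group P] {n' : ℕ} (z : Fin n' → k) (u : Words P n') :
    Multiplicative.toAdd ((Monoid.Coprod.lift 1 (FreeGroup.lift fun j => Multiplicative.ofAdd (z j)) :
      Words P n' →* Multiplicative k) u)
      = ∑ j, ((Multiplicative.toAdd (expSum P n' u) j : ℤ) : k) * z j := by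
  let L : (Fin n' → ℤ) →+ k :=
    { toFun := fun v => ∑ j, ((v j : ℤ) : k) * z j
      map_zero' := by simp only [Pi.zero_apply, Int.cast_zero, zero_mul, Finset.sum_const_zero]
      map_add' := by
        intro v v'
        simp only [Pi.add_apply, Int.cast_add, add_mul, Finset.sum_add_distrib] }
  have h : (Monoid.Coprod.lift 1 (FreeGroup.lift fun j => Multiplicative.ofAdd (z j)) :
      Words P n' →* Multiplicative k) = (AddMonoidHom.toMultiplicative L).comp (expSum P n') := by
    apply Monoid.Coprod.hom_ext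
    · ext1 g
      simp [expSum]
    · ext1 j
      simp only [MonoidHom.comp_apply, Monoid.Coprod.lift_apply_inr, FreeGroup.lift_apply_of,
        expSum]
      change Multiplicative.ofAdd (z j) = Multiplicative.ofAdd (L (Pi.single j 1))
      congr 1
      simp only [L, AddMonoidHom.coe_mk, ZeroHom.coe_mk]
      rw [Finset.sum_eq_single j]
      · simp
      · intro b _ hb
        simp [Pi.single_eq_of_ne hb]
      · intro hj
        exact absurd (Finset.mem_univ _) hj
  rw [h]
  rfl

/-- the system over the coefficient group of the cover -/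
theorem full_rank_of_PB {X : Type*} {A : Type*} [Finite A] (w : Fin m → Words G n)
    (i : A → Fin m) (t : A → X) (ρ : Words G n →* Equiv.Perm X) (hPB : PB k w ρ i t)
    (P : Type u) [Group P] (CG : G →* Wr X P) (hCG : ∀ g, (CG g).s = ρ (Monoid.Coprod.inl g)) :
    ∃ (m' n' : ℕ) (w' : Fin m' → Words P n') (Cu : Words G n →* Wr X (Words P n')),
      Over ρ Cu ∧ (∀ g x, (Cu (Monoid.Coprod.inl g)).f x = Monoid.Coprod.inl ((CG g).f x)) ∧
      FullRank k w' ∧ ∀ a, ∃ e, (Cu (w (i a))).f (t a) = w' e := by
  classical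
  have : Fintype A := Fintype.ofFinite A
  set E : Finset (Fin m × X) := Finset.univ.image (fun a => (i a, t a)) with hE
  choose Ys hYs using fun (u : Words G n) (t : X) =>
    support_cocycle (B := Multiplicative k) ρ u t
  set Y : Finset (Fin n × X) := E.biUnion (fun e => Ys (w e.1) e.2) with hY
  let ε : Y ≃ Fin Y.card := Y.equivFin
  let δ : E ≃ Fin E.card := E.equivFin
  let yv : Fin n → X → Words P Y.card := fun j t =>
    if h : (j, t) ∈ Y then Monoid.Coprod.inr (FreeGroup.of (ε ⟨(j, t), h⟩)) else 1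
  obtain ⟨Cu, hCu, hCuG, hCux⟩ : ∃ Cu : Words G n →* Wr X (Words P Y.card), Over ρ Cu ∧
      (∀ g x, (Cu (Monoid.Coprod.inl g)).f x = Monoid.Coprod.inl ((CG g).f x)) ∧
      ∀ j, (Cu (Monoid.Coprod.inr (FreeGroup.of j))).f = yv j := by
    refine ⟨mkC ρ ((Wr.map Monoid.Coprod.inl).comp CG) yv, ?_, ?_, ?_⟩
    · apply mkC_over
      intro g
      exact hCG g
    · intro g x
      rw [mkC_inl]; rfl
    · intro j
      rw [mkC_inr]
  let w' : Fin E.card → Words P Y.card := fun e =>
    (Cu (w (δ.symm e).1.1)).f (δ.symm e).1.2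
  have hCe : ∀ e0 : E, ∃ C : Words G n →* Wr X (Multiplicative k), Over ρ C ∧
      (∀ g x, (C (Monoid.Coprod.inl g)).f x = 1) ∧
      ∀ a, (C (w (i a))).f (t a)
        = Multiplicative.ofAdd (if (i a, t a) = e0.1 then (1 : k) else 0) := by
    intro e0
    exact hPB (fun a => if (i a, t a) = e0.1 then (1 : k) else 0)
      (fun a a' h1 h2 => by simp only [h1, h2])
  choose Ce hCeo hCeG hCew using hCe
  let Z : Matrix (Fin Y.card) (Fin E.card) k := fun j e =>
    Multiplicative.toAdd ((Ce (δ.symm e) (Monoid.Coprod.inr (FreeGroup.of (ε.symm j).1.1))).f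
      (ε.symm j).1.2)
  have hMZ : ((expMatrix w').map (fun a : ℤ => (a : k))) * Z = 1 := by
    ext e e0
    have h1 := ev_expSum (fun j => Z j e0) (w' e)
    rw [Matrix.mul_apply]
    simp only [Matrix.map_apply, expMatrix]
    rw [← h1]
    set ev : Words P Y.card →* Multiplicative k :=
      Monoid.Coprod.lift 1 (FreeGroup.lift fun j => Multiplicative.ofAdd (Z j e0)) with hev
    have hmap : Over ρ ((Wr.map ev).comp Cu) := fun u => hCu u
    have h2 := hYs (w (δ.symm e).1.1) (δ.symm e).1.2 (Ce (δ.symm e0)) ((Wr.map ev).comp Cu)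
      (hCeo _) hmap (by
        intro g x
        rw [hCeG]
        change 1 = ev ((Cu (Monoid.Coprod.inl g)).f x)
        rw [hCuG, hev, Monoid.Coprod.lift_apply_inl]
        rfl) (by
        intro j x hx
        have hxY : (j, x) ∈ Y := by
          rw [hY, Finset.mem_biUnion]
          exact ⟨(δ.symm e).1, (δ.symm e).2, hx⟩
        change _ = ev ((Cu (Monoid.Coprod.inr (FreeGroup.of j))).f x)
        rw [hCux]
        simp only [yv, dif_pos hxY]
        rw [hev, Monoid.Coprod.lift_apply_inr, FreeGroup.lift_apply_of]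
        simp only [Z, Equiv.symm_apply_apply]
        rfl)
    change _ = ev (w' e) at h2
    rw [← h2]
    obtain ⟨a, _, ha⟩ := Finset.mem_image.1 (δ.symm e).2
    have h3 := hCew (δ.symm e0) a
    rw [← ha]
    simp only
    rw [h3, toAdd_ofAdd, Matrix.one_apply]
    by_cases hee : e = e0
    · subst hee
      rw [if_pos ha, if_pos rfl]
    · rw [if_neg hee, if_neg]
      intro hcon
      apply hee
      rw [ha] at hcon
      exact δ.symm.injective (Subtype.ext hcon)
  have hrank : FullRank k w' := by
    unfold FullRank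
    apply le_antisymm
    · exact (Matrix.rank_le_card_height _).trans (by simp only [Fintype.card_fin, Std.le_refl])
    · have h1 := Matrix.rank_mul_le_left ((expMatrix w').map (fun a : ℤ => (a : k))) Z
      rw [hMZ, Matrix.rank_one, Fintype.card_fin] at h1
      exact h1
  refine ⟨E.card, Y.card, w', Cu, hCu, hCuG, hrank, ?_⟩
  intro a
  have hmemE : (i a, t a) ∈ E :=
    Finset.mem_image_of_mem (fun a => (i a, t a)) (Finset.mem_univ a)
  refine ⟨δ ⟨_, hmemE⟩, ?_⟩
  simp only [w', Equiv.symm_apply_apply]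

theorem final_step {A : Type*} [Finite A] (w : Fin m → Words G n) (i : A → Fin m)
    (p : A → Words G n) (H : Subgroup (Words G n))
    (hf : ∀ a, (p a)⁻¹ * w (i a) * p a ∈ H)
    (hPB : PB k w (cosetAct H) i (fun a => (p a : Words G n ⧸ H)))
    (P : Subgroup G) (hP : ∀ x, x ∈ P ↔ Monoid.Coprod.inl x ∈ H) :
    ∃ (m' n' : ℕ) (w' : Fin m' → Words P n'), FullRank k w' ∧
      ∀ g : G, Monoid.Coprod.inl g ∈ Subgroup.closure
        (Set.range fun a => (p a)⁻¹ * w (i a) * p a) →
        ∃ hg : g ∈ P, Monoid.Coprod.inl (⟨g, hg⟩ : P) ∈ Subgroup.normalClosure (Set.range w') := by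
  classical
  have hfixP : ∀ x : G, ((cosetAct H).comp Monoid.Coprod.inl) x
      ((1 : Words G n) : Words G n ⧸ H) = ((1 : Words G n) : Words G n ⧸ H) ↔ x ∈ P := fun x =>
    (cosetAct_fix H _).trans (hP x).symm
  obtain ⟨CG, hCG, hCGf⟩ := induced ((cosetAct H).comp Monoid.Coprod.inl)
    ((1 : Words G n) : Words G n ⧸ H)
    (fun x => if h : x ∈ P then (⟨x, h⟩ : P) else 1) (by
      intro x y hx hy
      rw [hfixP] at hx hy
      rw [dif_pos hx, dif_pos hy, dif_pos (P.mul_mem hx hy)]
      rfl)
  obtain ⟨m', n', w', Cu, hCu, hCuG, hrank, hw'⟩ :=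
    full_rank_of_PB w i (fun a => (p a : Words G n ⧸ H)) (cosetAct H) hPB P CG
      (fun g => hCG g)
  refine ⟨m', n', w', hrank, ?_⟩
  set N := Subgroup.normalClosure (Set.range w') with hN
  have hCf : Over (cosetAct H) ((Wr.map (QuotientGroup.mk' N)).comp Cu) := fun u => hCu u
  have hfixinv : ∀ x, cosetAct H x ((1 : Words G n) : Words G n ⧸ H)
      = ((1 : Words G n) : Words G n ⧸ H) → (cosetAct H x)⁻¹ ((1 : Words G n) : Words G n ⧸ H)
      = ((1 : Words G n) : Words G n ⧸ H) := fun x hx =>
    (Equiv.symm_apply_eq (cosetAct H x)).2 hx.symm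
  let S : Subgroup (Words G n) :=
    { carrier := {x | cosetAct H x ((1 : Words G n) : Words G n ⧸ H)
        = ((1 : Words G n) : Words G n ⧸ H) ∧
        (((Wr.map (QuotientGroup.mk' N)).comp Cu) x).f ((1 : Words G n) : Words G n ⧸ H) = 1}
      one_mem' := ⟨by rw [map_one]; rfl, over_one _⟩
      mul_mem' := by
        rintro x y ⟨hx1, hx2⟩ ⟨hy1, hy2⟩
        refine ⟨by rw [map_mul, Equiv.Perm.mul_apply, hy1, hx1], ?_⟩
        rw [over_mul hCf, hfixinv x hx1, hx2, hy2, one_mul]
      inv_mem' := by
        rintro x ⟨hx1, hx2⟩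
        refine ⟨by rw [map_inv, hfixinv x hx1], ?_⟩
        rw [over_inv hCf, hx1, hx2, inv_one] }
  have hS : Subgroup.closure (Set.range fun a => (p a)⁻¹ * w (i a) * p a) ≤ S := by
    rw [Subgroup.closure_le]
    rintro _ ⟨a, rfl⟩
    have h1 : cosetAct H ((p a)⁻¹ * w (i a) * p a) ((1 : Words G n) : Words G n ⧸ H)
      = ((1 : Words G n) : Words G n ⧸ H) := (cosetAct_fix H _).2 (hf a)
    refine ⟨h1, ?_⟩
    rw [conj_val hCf _ _ _ h1]
    have h3 : (((Wr.map (QuotientGroup.mk' N)).comp Cu) (w (i a))).f (p a : Words G n ⧸ H)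
        = 1 := by
      obtain ⟨e, he⟩ := hw' a
      change QuotientGroup.mk' N ((Cu (w (i a))).f (p a : Words G n ⧸ H)) = 1
      rw [he]
      exact (QuotientGroup.eq_one_iff _).2 (Subgroup.subset_normalClosure ⟨e, rfl⟩)
    rw [cosetAct_apply, mul_one, h3, mul_one, inv_mul_cancel]
  intro g hg
  obtain ⟨h1, h2⟩ := hS hg
  have hgP : g ∈ P := (hfixP g).1 h1
  refine ⟨hgP, ?_⟩
  change QuotientGroup.mk' N ((Cu (Monoid.Coprod.inl g)).f ((1 : Words G n) : Words G n ⧸ H))
    = 1 at h2
  rw [hCuG, hCGf g ((hfixP g).2 hgP), dif_pos hgP] at h2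
  exact (QuotientGroup.eq_one_iff _).1 h2

end Final

end Vale.Agent.P174
end

section

/-!
The relative localization theorem in terms of Fox derivatives.
-/

namespace Vale.Agent.P174

universe u v

section Fox

variable {G : Type u} [Group G] {Q : Type v} [Group Q] {n m : ℕ} {k : Type} [Field k]

lemma foxHom_val (φ : Words G n →* Q) (u : Words G n) : (foxHom k φ u).val = φ u := by
  let π : FoxGroup k Q n →* Q :=
    { toFun := fun a => a.val
      map_one' := rfl
      map_mul' := fun _ _ => rfl }
  have h : π.comp (foxHom k φ) = φ := by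
    apply Monoid.Coprod.hom_ext
    · ext1 g
      simp only [foxHom, MonoidHom.comp_apply, Monoid.Coprod.lift_apply_inl]
      rfl
    · ext1 j
      simp only [MonoidHom.comp_apply, foxHom, Monoid.Coprod.lift_apply_inr,
        FreeGroup.lift_apply_of]
      rfl
  exact DFunLike.congr_fun h u

lemma foxRow_mul (φ : Words G n →* Q) (u v : Words G n) :
    foxRow k φ (u * v) = foxRow k φ u + MonoidAlgebra.of k Q (φ u) • foxRow k φ v := by
  unfold foxRow
  rw [map_mul, FoxGroup.mul_der, foxHom_val]

lemma foxRow_one (φ : Words G n →* Q) : foxRow k φ 1 = 0 := by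
  unfold foxRow
  rw [map_one]; rfl

lemma foxRow_inl (φ : Words G n →* Q) (g : G) : foxRow k φ (Monoid.Coprod.inl g) = 0 := by
  unfold foxRow foxHom
  rw [Monoid.Coprod.lift_apply_inl]
  rfl

lemma foxRow_of (φ : Words G n →* Q) (j : Fin n) :
    foxRow k φ (Monoid.Coprod.inr (FreeGroup.of j)) = Pi.single j 1 := by
  unfold foxRow foxHom
  rw [Monoid.Coprod.lift_apply_inr, FreeGroup.lift_apply_of]

/-- prescribing values of a functional on a linearly independent family -/
lemma exists_functional_indep {V : Type*} [AddCommGroup V] [Module k V] {ι : Type*} {v : ι → V}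
    (hv : LinearIndependent k v) (B : ι → k) : ∃ f : V →ₗ[k] k, ∀ i, f (v i) = B i := by
  obtain ⟨f, hf⟩ := LinearMap.exists_extend ((Finsupp.linearCombination k B).comp hv.repr)
  refine ⟨f, fun i => ?_⟩
  have h1 := LinearMap.congr_fun hf ⟨v i, Submodule.subset_span ⟨i, rfl⟩⟩
  rw [LinearMap.comp_apply, LinearMap.comp_apply] at h1
  have h2 : hv.repr ⟨v i, Submodule.subset_span ⟨i, rfl⟩⟩ = Finsupp.single i 1 :=
    hv.repr_eq_single i _ rfl
  rw [h2, Finsupp.linearCombination_single, one_smul] at h1
  exact h1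

/-- the left translation action through `φ` -/
def leftAct (φ : Words G n →* Q) : Words G n →* Equiv.Perm Q := (MulAction.toPermHom Q Q).comp φ

lemma leftAct_inv_apply (φ : Words G n →* Q) (u : Words G n) (q : Q) :
    (leftAct φ u)⁻¹ q = (φ u)⁻¹ * q := rfl

theorem PB_fox (w : Fin m → Words G n) (φ : Words G n →* Q)
    (hind : LinearIndependent (MonoidAlgebra k Q) (fun i => foxRow k φ (w i)))
    {A : Type*} (i : A → Fin m) (t : A → Q) : PB k w (leftAct φ) i t := by
  classical
  intro b hb
  have hbasis : LinearIndependent k (fun q : Q => MonoidAlgebra.of k Q q⁻¹) :=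
    (MonoidAlgebra.basis Q k).linearIndependent.comp (fun q : Q => q⁻¹) inv_injective
  have hv := linearIndependent_smul hbasis hind
  obtain ⟨L, hL⟩ := exists_functional_indep hv
    (fun x => if h : ∃ a, i a = x.2 ∧ t a = x.1 then b h.choose else 0)
  let C : Words G n →* Wr Q (Multiplicative k) :=
    { toFun := fun u => ⟨fun q => Multiplicative.ofAdd
        (L (MonoidAlgebra.of k Q q⁻¹ • foxRow k φ u)), leftAct φ u⟩
      map_one' := by
        refine Wr.ext (fun q => ?_) (map_one _)
        simp only [foxRow_one, smul_zero, map_zero, ofAdd_zero, Wr.one_f]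
      map_mul' := by
        intro u v
        refine Wr.ext (fun q => ?_) (map_mul _ _ _)
        simp only [foxRow_mul, smul_add, map_add, ofAdd_add, Wr.mul_f, leftAct_inv_apply]
        congr 3
        rw [← mul_smul, ← map_mul]
        congr 2
        group }
  refine ⟨C, fun u => rfl, ?_, ?_⟩
  · intro g q
    change Multiplicative.ofAdd (L (MonoidAlgebra.of k Q q⁻¹ • foxRow k φ
      (Monoid.Coprod.inl g))) = 1
    rw [foxRow_inl, smul_zero, map_zero, ofAdd_zero]
  · intro a
    change Multiplicative.ofAdd (L (MonoidAlgebra.of k Q (t a)⁻¹ • foxRow k φ (w (i a)))) = _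
    have h1 := hL (t a, i a)
    simp only at h1
    rw [h1]
    have hh : ∃ a', i a' = i a ∧ t a' = t a := ⟨a, rfl, rfl⟩
    rw [dif_pos hh]
    congr 1
    exact hb _ _ hh.choose_spec.1 hh.choose_spec.2

/-- Relative localization theorem. -/
theorem relative_localization (w : Fin m → Words G n) (φ : Words G n →* Q)
    (hφ : ∀ i, φ (w i) = 1)
    (hind : LinearIndependent (MonoidAlgebra k Q) (fun i => foxRow k φ (w i)))
    (g : G) (hg : Monoid.Coprod.inl g ∈ Subgroup.normalClosure (Set.range w)) :
    ∃ (P : Subgroup G) (hgP : g ∈ P), P.FG ∧ (∀ x ∈ P, φ (Monoid.Coprod.inl x) = 1) ∧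
      (∀ f : P →* Multiplicative k, f = 1) ∧
      ∃ (m' n' : ℕ) (w' : Fin m' → Words P n'), FullRank k w' ∧
        Monoid.Coprod.inl (⟨g, hgP⟩ : P) ∈ Subgroup.normalClosure (Set.range w') := by
  classical
  obtain ⟨A, hA⟩ := exists_finite_cert w _ hg
  let i : A → Fin m := fun a => a.1.1
  let p : A → Words G n := fun a => a.1.2
  let T : Finset (Words G n) := (Finset.univ.image fun a : A => (p a)⁻¹ * w (i a) * p a) ∪
    (Finset.univ.image fun a : A × A => (p a.1)⁻¹ * p a.2)
  have hPB0 : PB k w (cosetAct φ.ker) i (fun a => (p a : Words G n ⧸ φ.ker)) := by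
    refine PB_pull (ρ' := leftAct φ)
      (fun x : Words G n ⧸ φ.ker => Quotient.liftOn' x (fun u => φ u) (fun x y hxy => ?_)) ?_ ?_ ?_
    · rw [QuotientGroup.leftRel_apply, MonoidHom.mem_ker, map_mul, map_inv] at hxy
      exact inv_mul_eq_one.1 hxy
    · intro u x
      induction x using QuotientGroup.induction_on with
      | H x => exact map_mul φ u x
    · intro a a' _ h2
      change φ (p a) = φ (p a') at h2
      change (p a : Words G n ⧸ φ.ker) = p a'
      rw [QuotientGroup.eq, MonoidHom.mem_ker, map_mul, map_inv, h2, inv_mul_cancel]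
    · exact PB_fox w φ hind i (fun a => φ (p a))
  obtain ⟨H, hHle, hHfg, hHf, hHPB, hHφ⟩ := minimal w i p T
    (fun a => Finset.mem_union_left _ (Finset.mem_image_of_mem _ (Finset.mem_univ a)))
    (fun a a' => Finset.mem_union_right _ (Finset.mem_image_of_mem
      (fun a : A × A => (p a.1)⁻¹ * p a.2) (Finset.mem_univ (a, a')))) _ φ.ker le_rfl
    (fun a => by
      rw [MonoidHom.mem_ker, map_mul, map_mul, hφ, mul_one, map_inv, inv_mul_cancel]) hPB0
  set P : Subgroup G := H.comap Monoid.Coprod.inl with hP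
  obtain ⟨m', n', w', hrank, hrec⟩ := final_step (k := k) w i p H hHf hHPB P (fun x => Iff.rfl)
  obtain ⟨hgP, hg'⟩ := hrec g hA
  refine ⟨P, hgP, comap_fg H hHfg P (fun x => Iff.rfl), fun x hx => ?_,
    comap_triv w i p H hHPB hHφ P (fun x => Iff.rfl), m', n', w', hrank, hg'⟩
  have h1 : (Monoid.Coprod.inl x : Words G n) ∈ φ.ker := hHle hx
  exact h1

/-- Relative solvability theorem. -/
theorem relative_solvable (w : Fin m → Words G n) (φ : Words G n →* Q)
    (hφ : ∀ i, φ (w i) = 1)
    (hind : LinearIndependent (MonoidAlgebra k Q) (fun i => foxRow k φ (w i)))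
    (hP : ∀ P : Subgroup G, P.FG → (∀ x ∈ P, φ (Monoid.Coprod.inl x) = 1) →
      (∀ f : P →* Multiplicative k, f = 1) → HowieOver k P) : SolvableOver w := by
  rw [solvableOver_iff]
  intro g hg
  obtain ⟨P, hgP, hfg, hker, htr, m', n', w', hrank, hg'⟩ :=
    relative_localization w φ hφ hind g hg
  have h1 := hP P hfg hker htr m' n' w' hrank
  rw [solvableOver_iff] at h1
  exact congrArg Subtype.val (h1 _ hg')

end Fox

end Vale.Agent.P174
end

section

/-!
From square systems with exponent-sum matrix `d • 1` over unitary groups to all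
nonsingular systems over groups embedding into quotients of products of unitary groups.
-/

namespace Vale.Agent.P174

universe u v

/-- an integer matrix of full row rank over `ℚ` has a right inverse up to a positive integer -/
lemma exists_right_inverse_int {m n : ℕ} (A : Matrix (Fin m) (Fin n) ℤ)
    (h : (A.map (fun a : ℤ => (a : ℚ))).rank = m) :
    ∃ (B : Matrix (Fin n) (Fin m) ℤ) (d : ℕ), 0 < d ∧
      A * B = (d : ℤ) • (1 : Matrix (Fin m) (Fin m) ℤ) := by
  classical
  set A' : Matrix (Fin m) (Fin n) ℚ := A.map (fun a : ℤ => (a : ℚ)) with hA'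
  have hsurj : Function.Surjective A'.mulVecLin := by
    rw [← LinearMap.range_eq_top]
    apply Submodule.eq_top_of_finrank_eq
    rw [Module.finrank_fin_fun]
    exact h
  choose b hb using fun i : Fin m => hsurj (Pi.single i 1)
  let B' : Matrix (Fin n) (Fin m) ℚ := fun j i => b i j
  have hB' : A' * B' = 1 := by
    ext i j
    have := congrFun (hb j) i
    rw [Matrix.mulVecLin_apply] at this
    rw [Matrix.mul_apply, Matrix.one_apply]
    simp only [Matrix.mulVec, dotProduct] at this
    rw [this, Pi.single_apply]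
  let d : ℕ := ∏ j, ∏ i, (B' j i).den
  have hd : 0 < d := Finset.prod_pos fun j _ => Finset.prod_pos fun i _ => (B' j i).den_pos
  have hint : ∀ j i, ∃ z : ℤ, (z : ℚ) = (d : ℚ) * B' j i := by
    intro j i
    have hdvd : (B' j i).den ∣ d :=
      dvd_trans (Finset.dvd_prod_of_mem (fun i => (B' j i).den) (Finset.mem_univ i))
        (Finset.dvd_prod_of_mem (fun j => ∏ i, (B' j i).den) (Finset.mem_univ j))
    obtain ⟨e, he⟩ := hdvd
    refine ⟨e * (B' j i).num, ?_⟩
    rw [he]
    push_cast
    have h1 : (B' j i) * ((B' j i).den : ℚ) = (B' j i).num := Rat.mul_den_eq_num _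
    rw [← h1]; ring
  choose B hB using hint
  refine ⟨B, d, hd, ?_⟩
  have hmap : (A * Matrix.of B).map (fun a : ℤ => (a : ℚ)) =
      ((d : ℤ) • (1 : Matrix (Fin m) (Fin m) ℤ)).map (fun a : ℤ => (a : ℚ)) := by
    ext i j
    simp only [Matrix.map_apply, Matrix.mul_apply, Matrix.of_apply, Matrix.smul_apply, smul_eq_mul]
    push_cast
    have h2 : ∀ l, (A i l : ℚ) * (B l j : ℚ) = (d : ℚ) * (A' i l * B' l j) := by
      intro l; rw [hB]; simp only [hA', Matrix.map_apply]; ring
    rw [Finset.sum_congr rfl fun l _ => h2 l, ← Finset.mul_sum]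
    have h3 := congrFun (congrFun hB' i) j
    rw [Matrix.mul_apply] at h3
    rw [h3]
    by_cases hij : i = j
    · subst hij; simp
    · simp [hij]
  ext i j
  have := congrFun (congrFun hmap i) j
  simp only [Matrix.map_apply] at this
  exact_mod_cast this

section Subst

variable {G : Type u} [Group G] {m n : ℕ}

/-- the word `∏ y_i ^ (B j i)` -/
def powWord {H : Type*} [Group H] {m : ℕ} (b : Fin m → ℤ) (y : Fin m → H) : H :=
  (List.ofFn fun i => y i ^ b i).prod

lemma map_powWord {H K : Type*} [Group H] [Group K] (φ : H →* K) (b : Fin m → ℤ)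
    (y : Fin m → H) : φ (powWord b y) = powWord b (fun i => φ (y i)) := by
  unfold powWord
  rw [map_list_prod, List.map_ofFn]
  congr 1
  congr 1
  funext i
  simp

/-- substitution `x_j = ∏ y_i ^ (B j i)` -/
def substB (B : Matrix (Fin n) (Fin m) ℤ) : Words G n →* Words G m :=
  Monoid.Coprod.lift Monoid.Coprod.inl
    (FreeGroup.lift fun j => powWord (B j) fun i => Monoid.Coprod.inr (FreeGroup.of i))

lemma toAdd_powWord {m' : ℕ} (b : Fin m → ℤ) (y : Fin m → Multiplicative (Fin m' → ℤ)) :
    Multiplicative.toAdd (powWord b y) = ∑ i, b i • Multiplicative.toAdd (y i) := by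
  unfold powWord
  rw [List.prod_ofFn, toAdd_prod]
  refine Finset.sum_congr rfl fun i _ => ?_
  rw [toAdd_zpow]

lemma expSum_substB (B : Matrix (Fin n) (Fin m) ℤ) (x : Words G n) (i : Fin m) :
    Multiplicative.toAdd (expSum G m (substB B x)) i =
      ∑ j, Multiplicative.toAdd (expSum G n x) j * B j i := by
  have h1 : (expSum G m).comp (substB B) =
      (AddMonoidHom.toMultiplicative
        ((Matrix.vecMulLinear B).toAddMonoidHom)).comp (expSum G n) := by
    apply Monoid.Coprod.hom_ext
    · ext1 g; simp [expSum, substB]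
    · apply FreeGroup.ext_hom
      intro j
      simp only [MonoidHom.comp_apply, substB, Monoid.Coprod.lift_apply_inr,
        FreeGroup.lift_apply_of, map_powWord]
      apply Multiplicative.toAdd.injective
      rw [toAdd_powWord]
      funext i'
      simp only [expSum, Monoid.Coprod.lift_apply_inr, FreeGroup.lift_apply_of, toAdd_ofAdd, zsmul_eq_mul, Finset.sum_apply, Pi.mul_apply, Pi.intCast_apply, Int.cast_eq, Pi.single_apply, mul_ite, mul_one, mul_zero, Finset.sum_ite_eq, Finset.mem_univ, ↓reduceIte, AddMonoidHom.toMultiplicative_apply_apply, LinearMap.toAddMonoidHom_coe, LinearMap.flip_apply, Matrix.vecMulBilin_apply, Matrix.single_vecMul, one_smul, Matrix.row_apply]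
  have h2 := DFunLike.congr_fun h1 x
  have h3 : Multiplicative.toAdd (expSum G m (substB B x)) =
      Matrix.vecMul (Multiplicative.toAdd (expSum G n x)) B := by
    simp only [MonoidHom.comp_apply] at h2
    rw [h2]; rfl
  rw [h3]
  simp only [Matrix.vecMul, dotProduct]

lemma expMatrix_substB (B : Matrix (Fin n) (Fin m) ℤ) (w : Fin m → Words G n) :
    expMatrix (fun i => substB B (w i)) = expMatrix w * B := by
  ext i j
  simp only [expMatrix, Matrix.mul_apply]
  exact expSum_substB B (w i) j

lemma lift_substB {H : Type*} [Group H] (ι : G →* H) (B : Matrix (Fin n) (Fin m) ℤ)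
    (y : Fin m → H) (x : Words G n) :
    Monoid.Coprod.lift ι (FreeGroup.lift y) (substB B x) =
      Monoid.Coprod.lift ι (FreeGroup.lift fun j => powWord (B j) y) x := by
  have h1 : (Monoid.Coprod.lift ι (FreeGroup.lift y)).comp (substB B) =
      Monoid.Coprod.lift ι (FreeGroup.lift fun j => powWord (B j) y) := by
    apply Monoid.Coprod.hom_ext
    · ext g; simp only [substB, MonoidHom.coe_comp, Function.comp_apply, Monoid.Coprod.lift_apply_inl, Monoid.Coprod.lift_comp_inl]
    · ext j
      simp only [substB, MonoidHom.coe_comp, Function.comp_apply, Monoid.Coprod.lift_apply_inr, FreeGroup.lift_apply_of, map_powWord, Monoid.Coprod.lift_comp_inr]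
  exact DFunLike.congr_fun h1 x

end Subst

/-- The input from the Gerstenhaber-Rothaus theorem. -/
def UnitarySolve : Prop :=
  ∀ (N m d : ℕ), 0 < d → ∀ w : Fin m → Words (Matrix.unitaryGroup (Fin N) ℂ) m,
    expMatrix w = (d : ℤ) • (1 : Matrix (Fin m) (Fin m) ℤ) →
    ∃ h : Fin m → Matrix.unitaryGroup (Fin N) ℂ,
      ∀ i, Monoid.Coprod.lift (MonoidHom.id _) (FreeGroup.lift h) (w i) = 1

theorem unitary_solve_rect (hU : UnitarySolve) (N m n : ℕ)
    (w : Fin m → Words (Matrix.unitaryGroup (Fin N) ℂ) n) (hw : FullRank ℚ w) :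
    ∃ h : Fin n → Matrix.unitaryGroup (Fin N) ℂ,
      ∀ i, Monoid.Coprod.lift (MonoidHom.id _) (FreeGroup.lift h) (w i) = 1 := by
  obtain ⟨B, d, hd, hAB⟩ := exists_right_inverse_int (expMatrix w) hw
  obtain ⟨y, hy⟩ := hU N m d hd (fun i => substB B (w i)) (by rw [expMatrix_substB, hAB])
  refine ⟨fun j => powWord (B j) y, fun i => ?_⟩
  rw [← lift_substB]
  exact hy i

end Vale.Agent.P174
end

section

/-!
Hyperlinear groups.
-/

namespace Vale.Agent.P174

universe u

section

variable {k : ℕ}

lemma hsDist_sq (a b : Matrix (Fin k) (Fin k) ℂ) :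
    hsDist a b ^ 2 = (∑ p, ∑ q, ‖a p q - b p q‖ ^ 2) / k :=
  Real.sq_sqrt (by positivity)

lemma sum_sq_eq_trace (A : Matrix (Fin k) (Fin k) ℂ) :
    ((∑ p, ∑ q, ‖A p q‖ ^ 2 : ℝ) : ℂ) = (A.conjTranspose * A).trace := by
  simp only [Matrix.trace, Matrix.diag, Matrix.mul_apply, Matrix.conjTranspose_apply]
  rw [Finset.sum_comm]
  push_cast
  refine Finset.sum_congr rfl fun q _ => Finset.sum_congr rfl fun p _ => ?_
  rw [← Complex.conj_mul']
  rfl

lemma sum_sq_mul_left (U : Matrix.unitaryGroup (Fin k) ℂ) (A : Matrix (Fin k) (Fin k) ℂ) :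
    (∑ p, ∑ q, ‖((U : Matrix (Fin k) (Fin k) ℂ) * A) p q‖ ^ 2 : ℝ) = ∑ p, ∑ q, ‖A p q‖ ^ 2 := by
  have h : (((∑ p, ∑ q, ‖((U : Matrix (Fin k) (Fin k) ℂ) * A) p q‖ ^ 2 : ℝ)) : ℂ) =
      ((∑ p, ∑ q, ‖A p q‖ ^ 2 : ℝ) : ℂ) := by
    rw [sum_sq_eq_trace, sum_sq_eq_trace, Matrix.conjTranspose_mul, Matrix.mul_assoc,
      ← Matrix.mul_assoc _ _ A]
    have h1 : (U : Matrix (Fin k) (Fin k) ℂ).conjTranspose * (U : Matrix (Fin k) (Fin k) ℂ) = 1 :=
      Matrix.mem_unitaryGroup_iff'.1 U.2
    rw [h1, Matrix.one_mul]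
  exact_mod_cast h

lemma sum_sq_mul_right (U : Matrix.unitaryGroup (Fin k) ℂ) (A : Matrix (Fin k) (Fin k) ℂ) :
    (∑ p, ∑ q, ‖(A * (U : Matrix (Fin k) (Fin k) ℂ)) p q‖ ^ 2 : ℝ) = ∑ p, ∑ q, ‖A p q‖ ^ 2 := by
  have h : (((∑ p, ∑ q, ‖(A * (U : Matrix (Fin k) (Fin k) ℂ)) p q‖ ^ 2 : ℝ)) : ℂ) =
      ((∑ p, ∑ q, ‖A p q‖ ^ 2 : ℝ) : ℂ) := by
    rw [sum_sq_eq_trace, sum_sq_eq_trace, Matrix.conjTranspose_mul, Matrix.mul_assoc,
      Matrix.trace_mul_comm, Matrix.mul_assoc, Matrix.mul_assoc]
    have h1 : (U : Matrix (Fin k) (Fin k) ℂ) * (U : Matrix (Fin k) (Fin k) ℂ).conjTranspose = 1 :=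
      Matrix.mem_unitaryGroup_iff.1 U.2
    rw [h1, Matrix.mul_one]
  exact_mod_cast h

lemma sum_sq_add_le (A B : Matrix (Fin k) (Fin k) ℂ) :
    (∑ p, ∑ q, ‖(A + B) p q‖ ^ 2 : ℝ) ≤
      2 * (∑ p, ∑ q, ‖A p q‖ ^ 2) + 2 * (∑ p, ∑ q, ‖B p q‖ ^ 2) := by
  rw [Finset.mul_sum, Finset.mul_sum, ← Finset.sum_add_distrib]
  refine Finset.sum_le_sum fun p _ => ?_
  rw [Finset.mul_sum, Finset.mul_sum, ← Finset.sum_add_distrib]
  refine Finset.sum_le_sum fun q _ => ?_
  have h1 : ‖(A + B) p q‖ ≤ ‖A p q‖ + ‖B p q‖ := norm_add_le _ _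
  have h2 : ‖(A + B) p q‖ ^ 2 ≤ (‖A p q‖ + ‖B p q‖) ^ 2 :=
    pow_le_pow_left₀ (norm_nonneg _) h1 2
  nlinarith only [h2, sq_nonneg (‖A p q‖ - ‖B p q‖)]

end

open Filter Topology

/-- The normal subgroup of infinitesimal elements of a product of unitary groups with respect
to an ultrafilter and the normalized Hilbert-Schmidt distances. -/
def infinitesimal {I : Type u} (F : Ultrafilter I) (k : I → ℕ) :
    Subgroup (∀ i, Matrix.unitaryGroup (Fin (k i)) ℂ) where
  carrier := {x | Tendsto (fun i => hsDist ((x i : Matrix (Fin (k i)) (Fin (k i)) ℂ)) 1)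
    F (𝓝 0)}
  one_mem' := by
    have : (fun i => hsDist (((1 : ∀ i, Matrix.unitaryGroup (Fin (k i)) ℂ) i :
        Matrix (Fin (k i)) (Fin (k i)) ℂ)) 1) = fun _ => 0 := by
      funext i
      simp [hsDist]
    rw [Set.mem_ofPred_eq, this]
    exact tendsto_const_nhds
  mul_mem' := by
    intro x y hx hy
    rw [Set.mem_ofPred_eq] at hx hy ⊢
    have hb : ∀ i, hsDist (((x * y) i : Matrix (Fin (k i)) (Fin (k i)) ℂ)) 1 ^ 2 ≤
        2 * hsDist ((y i : Matrix (Fin (k i)) (Fin (k i)) ℂ)) 1 ^ 2 +
        2 * hsDist ((x i : Matrix (Fin (k i)) (Fin (k i)) ℂ)) 1 ^ 2 := by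
      intro i
      rw [hsDist_sq, hsDist_sq, hsDist_sq]
      have h1 : ((x * y) i : Matrix (Fin (k i)) (Fin (k i)) ℂ) - 1 =
          (x i : Matrix (Fin (k i)) (Fin (k i)) ℂ) * ((y i : Matrix (Fin (k i)) (Fin (k i)) ℂ) - 1)
            + ((x i : Matrix (Fin (k i)) (Fin (k i)) ℂ) - 1) := by
        rw [Matrix.mul_sub, Matrix.mul_one]
        simp
      have h2 := sum_sq_add_le
        ((x i : Matrix (Fin (k i)) (Fin (k i)) ℂ) * ((y i : Matrix (Fin (k i)) (Fin (k i)) ℂ) - 1))
        ((x i : Matrix (Fin (k i)) (Fin (k i)) ℂ) - 1)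
      rw [← h1, sum_sq_mul_left] at h2
      simp only [Matrix.sub_apply] at h2
      have h3 : (0 : ℝ) ≤ (k i : ℝ) := Nat.cast_nonneg _
      calc _ ≤ _ := div_le_div_of_nonneg_right h2 h3
        _ = _ := by ring
    have hsq : Tendsto (fun i => hsDist (((x * y) i : Matrix (Fin (k i)) (Fin (k i)) ℂ)) 1 ^ 2)
        F (𝓝 0) := by
      refine squeeze_zero (fun i => sq_nonneg _) hb ?_
      have := (((hy.pow 2).const_mul 2).add ((hx.pow 2).const_mul 2))
      simpa using this
    have h4 := (Real.continuous_sqrt.tendsto 0).comp hsq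
    rw [Real.sqrt_zero] at h4
    refine h4.congr fun i => ?_
    exact Real.sqrt_sq (Real.sqrt_nonneg _)
  inv_mem' := by
    intro x hx
    rw [Set.mem_ofPred_eq] at hx ⊢
    refine hx.congr fun i => ?_
    unfold hsDist
    congr 2
    have h1 : (x i : Matrix (Fin (k i)) (Fin (k i)) ℂ) - 1 =
        -((x i : Matrix (Fin (k i)) (Fin (k i)) ℂ) *
          (((x⁻¹ : ∀ i, Matrix.unitaryGroup (Fin (k i)) ℂ) i :
            Matrix (Fin (k i)) (Fin (k i)) ℂ) - 1)) := by
      have h2 : (x i : Matrix (Fin (k i)) (Fin (k i)) ℂ) *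
          ((x⁻¹ : ∀ i, Matrix.unitaryGroup (Fin (k i)) ℂ) i :
            Matrix (Fin (k i)) (Fin (k i)) ℂ) = 1 :=
        Matrix.mem_unitaryGroup_iff.1 (x i).2
      rw [Matrix.mul_sub, h2, Matrix.mul_one, neg_sub]
    have h3 : ∀ p q, ‖(x i : Matrix (Fin (k i)) (Fin (k i)) ℂ) p q -
        (1 : Matrix (Fin (k i)) (Fin (k i)) ℂ) p q‖ =
        ‖((x i : Matrix (Fin (k i)) (Fin (k i)) ℂ) *
          (((x⁻¹ : ∀ i, Matrix.unitaryGroup (Fin (k i)) ℂ) i :
            Matrix (Fin (k i)) (Fin (k i)) ℂ) - 1)) p q‖ := by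
      intro p q
      rw [← Matrix.sub_apply, h1, Matrix.neg_apply, norm_neg]
    simp only [h3]
    rw [sum_sq_mul_left]
    rfl

instance {I : Type u} (F : Ultrafilter I) (k : I → ℕ) : (infinitesimal F k).Normal where
  conj_mem := by
    intro x hx y
    change Tendsto _ _ _ at hx
    change Tendsto _ _ _
    refine hx.congr fun i => ?_
    unfold hsDist
    congr 2
    have h1 : ((y * x * y⁻¹) i : Matrix (Fin (k i)) (Fin (k i)) ℂ) - 1 =
        (y i : Matrix (Fin (k i)) (Fin (k i)) ℂ) *
          (((x i : Matrix (Fin (k i)) (Fin (k i)) ℂ) - 1) *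
            (((y i)⁻¹ : Matrix.unitaryGroup (Fin (k i)) ℂ) :
              Matrix (Fin (k i)) (Fin (k i)) ℂ)) := by
      have h2 : (y i : Matrix (Fin (k i)) (Fin (k i)) ℂ) *
          (((y i)⁻¹ : Matrix.unitaryGroup (Fin (k i)) ℂ) :
              Matrix (Fin (k i)) (Fin (k i)) ℂ) = 1 :=
        Matrix.mem_unitaryGroup_iff.1 (y i).2
      rw [Matrix.sub_mul, Matrix.mul_sub, Matrix.one_mul, h2]
      simp [Matrix.mul_assoc]
    have h3 : ∀ p q, ‖((y * x * y⁻¹) i : Matrix (Fin (k i)) (Fin (k i)) ℂ) p q -
        (1 : Matrix (Fin (k i)) (Fin (k i)) ℂ) p q‖ =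
        ‖((y i : Matrix (Fin (k i)) (Fin (k i)) ℂ) *
          (((x i : Matrix (Fin (k i)) (Fin (k i)) ℂ) - 1) *
            (((y i)⁻¹ : Matrix.unitaryGroup (Fin (k i)) ℂ) :
              Matrix (Fin (k i)) (Fin (k i)) ℂ))) p q‖ := by
      intro p q
      rw [← Matrix.sub_apply, h1]
    simp only [h3]
    rw [sum_sq_mul_left, sum_sq_mul_right]
    rfl

/-- A hyperlinear group embeds into the quotient of a product of unitary groups by the normal
subgroup of infinitesimal elements. -/
theorem Hyperlinear.exists_embedding {G : Type u} [Group G] (h : Hyperlinear G) :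
    ∃ (I : Type u) (F : Ultrafilter I) (k : I → ℕ)
      (φ : G →* (∀ i, Matrix.unitaryGroup (Fin (k i)) ℂ) ⧸ infinitesimal F k),
      Function.Injective φ := by
  obtain ⟨I, F, k, φ, h1, h2⟩ := h
  refine ⟨I, F, k, MonoidHom.mk' (fun g => QuotientGroup.mk' (infinitesimal F k) (φ g)) ?_, ?_⟩
  · intro a b
    rw [← MonoidHom.map_mul, QuotientGroup.mk'_eq_mk']
    refine ⟨(φ (a * b))⁻¹ * (φ a * φ b), ?_, by group⟩
    change Tendsto _ _ _
    refine (h1 a b).congr fun i => ?_
    unfold hsDist
    congr 2
    have e1 : (((φ (a * b))⁻¹ * (φ a * φ b)) i : Matrix (Fin (k i)) (Fin (k i)) ℂ) - 1 =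
        (((φ (a * b) i)⁻¹ : Matrix.unitaryGroup (Fin (k i)) ℂ) :
            Matrix (Fin (k i)) (Fin (k i)) ℂ) *
          ((φ a i * φ b i : Matrix.unitaryGroup (Fin (k i)) ℂ).1 - (φ (a * b) i).1) := by
      have e2 : (((φ (a * b) i)⁻¹ : Matrix.unitaryGroup (Fin (k i)) ℂ) :
            Matrix (Fin (k i)) (Fin (k i)) ℂ) * (φ (a * b) i).1 = 1 :=
        Matrix.mem_unitaryGroup_iff'.1 (φ (a * b) i).2
      rw [Matrix.mul_sub, e2]
      rfl
    have e3 : ∀ p q, ‖(((φ (a * b))⁻¹ * (φ a * φ b)) i : Matrix (Fin (k i)) (Fin (k i)) ℂ) p q -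
        (1 : Matrix (Fin (k i)) (Fin (k i)) ℂ) p q‖ =
        ‖((((φ (a * b) i)⁻¹ : Matrix.unitaryGroup (Fin (k i)) ℂ) :
            Matrix (Fin (k i)) (Fin (k i)) ℂ) *
          ((φ a i * φ b i : Matrix.unitaryGroup (Fin (k i)) ℂ).1 - (φ (a * b) i).1)) p q‖ := by
      intro p q
      rw [← Matrix.sub_apply, e1]
    simp only [e3]
    rw [sum_sq_mul_left]
    refine Finset.sum_congr rfl fun p _ => Finset.sum_congr rfl fun q _ => ?_
    rw [Matrix.sub_apply, norm_sub_rev]
  · rw [injective_iff_map_eq_one]
    intro a ha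
    by_contra hne
    refine h2 a hne ?_
    have h3 : φ a ∈ infinitesimal F k := by
      rw [← QuotientGroup.eq_one_iff]
      exact ha
    exact h3

end Vale.Agent.P174
end

section

/-!
Groups embedding into quotients of products of unitary groups.
-/

namespace Vale.Agent.P174

universe u v v'

section Functor

variable {G : Type u} [Group G] {H : Type v} [Group H] {m n : ℕ}

lemma expMatrix_map (φ : G →* H) (w : Fin m → Words G n) :
    expMatrix (fun i => Monoid.Coprod.map φ (MonoidHom.id (FreeGroup (Fin n))) (w i)) =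
      expMatrix w := by
  have h1 : (expSum H n).comp (Monoid.Coprod.map φ (MonoidHom.id _)) = expSum G n := by
    apply Monoid.Coprod.hom_ext
    · ext g; simp only [expSum, MonoidHom.coe_comp, Function.comp_apply, Monoid.Coprod.map_apply_inl, Monoid.Coprod.lift_apply_inl, MonoidHom.one_apply, toAdd_one, Pi.zero_apply, Monoid.Coprod.lift_comp_inl]
    · ext j; simp only [expSum, MonoidHom.coe_comp, Function.comp_apply, Monoid.Coprod.map_apply_inr, MonoidHom.id_apply, Monoid.Coprod.lift_apply_inr, FreeGroup.lift_apply_of, toAdd_ofAdd, Monoid.Coprod.lift_comp_inr]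
  funext i j
  have := DFunLike.congr_fun h1 (w i)
  simp only [MonoidHom.comp_apply] at this
  simp only [expMatrix, this]

lemma lift_wmap {K : Type*} [Group K] (φ : G →* H) (ι : H →* K) (y : Fin n → K) (x : Words G n) :
    Monoid.Coprod.lift ι (FreeGroup.lift y)
      (Monoid.Coprod.map φ (MonoidHom.id (FreeGroup (Fin n))) x) =
      Monoid.Coprod.lift (ι.comp φ) (FreeGroup.lift y) x := by
  have h1 : (Monoid.Coprod.lift ι (FreeGroup.lift y)).comp
      (Monoid.Coprod.map φ (MonoidHom.id _)) =
      Monoid.Coprod.lift (ι.comp φ) (FreeGroup.lift y) := by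
    apply Monoid.Coprod.hom_ext
    · ext g; simp only [MonoidHom.coe_comp, Function.comp_apply, Monoid.Coprod.map_apply_inl, Monoid.Coprod.lift_apply_inl, Monoid.Coprod.lift_comp_inl]
    · ext j; simp only [MonoidHom.coe_comp, Function.comp_apply, Monoid.Coprod.map_apply_inr, MonoidHom.id_apply, Monoid.Coprod.lift_apply_inr, FreeGroup.lift_apply_of, Monoid.Coprod.lift_comp_inr]
  exact DFunLike.congr_fun h1 x

lemma map_lift {K L : Type*} [Group K] [Group L] (ψ : K →* L) (ι : G →* K) (y : Fin n → K)
    (x : Words G n) :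
    ψ (Monoid.Coprod.lift ι (FreeGroup.lift y) x) =
      Monoid.Coprod.lift (ψ.comp ι) (FreeGroup.lift fun j => ψ (y j)) x := by
  have h1 : ψ.comp (Monoid.Coprod.lift ι (FreeGroup.lift y)) =
      Monoid.Coprod.lift (ψ.comp ι) (FreeGroup.lift fun j => ψ (y j)) := by
    apply Monoid.Coprod.hom_ext
    · ext g; simp only [MonoidHom.coe_comp, Function.comp_apply, Monoid.Coprod.lift_apply_inl, Monoid.Coprod.lift_comp_inl]
    · ext j; simp only [MonoidHom.coe_comp, Function.comp_apply, Monoid.Coprod.lift_apply_inr, FreeGroup.lift_apply_of, Monoid.Coprod.lift_comp_inr]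
  exact DFunLike.congr_fun h1 x

lemma map_surjective (φ : G →* H) (hφ : Function.Surjective φ) :
    Function.Surjective
      (Monoid.Coprod.map φ (MonoidHom.id (FreeGroup (Fin n))) : Words G n →* Words H n) := by
  intro x
  induction x using Monoid.Coprod.induction_on with
  | inl g =>
    obtain ⟨g', rfl⟩ := hφ g
    exact ⟨Monoid.Coprod.inl g', rfl⟩
  | inr y => exact ⟨Monoid.Coprod.inr y, rfl⟩
  | mul x y ihx ihy =>
    obtain ⟨a, rfl⟩ := ihx
    obtain ⟨b, rfl⟩ := ihy
    exact ⟨a * b, MonoidHom.map_mul _ _ _⟩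

end Functor

/-- full rank over some field implies full rank over `ℚ` -/
lemma fullRank_rat_of_fullRank {k : Type} [Field k] {m n : ℕ} (A : Matrix (Fin m) (Fin n) ℤ)
    (h : (A.map (fun a : ℤ => (a : k))).rank = m) :
    (A.map (fun a : ℤ => (a : ℚ))).rank = m := by
  classical
  have hrow : LinearIndependent k (A.map (fun a : ℤ => (a : k))).row := by
    rw [linearIndependent_iff_card_eq_finrank_span, Set.finrank, ← Matrix.rank_eq_finrank_span_row,
      Fintype.card_fin]
    exact h.symm
  have hZ : LinearIndependent ℤ (fun i => A.row i) := by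
    rw [Fintype.linearIndependent_iff]
    intro g hg
    by_contra hcon
    push Not at hcon
    obtain ⟨i0, hi0⟩ := hcon
    obtain ⟨g', hg', hgcd⟩ := Finset.extract_gcd g ⟨i0, Finset.mem_univ i0⟩
    set c := Finset.univ.gcd g with hc
    have hc0 : c ≠ 0 := by
      intro h0
      apply hi0
      rw [hg' i0 (Finset.mem_univ _), h0, zero_mul]
    have hg2 : ∑ i, g' i • A.row i = 0 := by
      have h1 : c • ∑ i, g' i • A.row i = 0 := by
        rw [← hg, Finset.smul_sum]
        refine Finset.sum_congr rfl fun i _ => ?_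
        rw [hg' i (Finset.mem_univ _), smul_smul]
      exact (smul_eq_zero.1 h1).resolve_left hc0
    have hk : ∑ i, (g' i : k) • (A.map (fun a : ℤ => (a : k))).row i = 0 := by
      funext j
      have h2 := congrFun hg2 j
      simp only [Finset.sum_apply, Pi.smul_apply, Matrix.row_apply, smul_eq_mul, Pi.zero_apply,
        Matrix.map_apply] at h2 ⊢
      exact_mod_cast congrArg (fun z : ℤ => (z : k)) h2
    have h3 := (Fintype.linearIndependent_iff.1 hrow) (fun i => (g' i : k)) hk
    have h4 : ((ringChar k : ℕ) : ℤ) ∣ Finset.univ.gcd g' := by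
      apply Finset.dvd_gcd
      intro i _
      exact (CharP.intCast_eq_zero_iff k (ringChar k) (g' i)).1 (h3 i)
    rw [hgcd] at h4
    have h5 : ((1 : ℤ) : k) = 0 := (CharP.intCast_eq_zero_iff k (ringChar k) 1).2 h4
    simp at h5
  have hQ : LinearIndependent ℚ (A.map (fun a : ℤ => (a : ℚ))).row := by
    have h1 : LinearIndependent ℤ (A.map (fun a : ℤ => (a : ℚ))).row := by
      have h2 := hZ.map' (R := ℤ) (LinearMap.compLeft (Algebra.linearMap ℤ ℚ) (Fin n)) (by
        rw [LinearMap.ker_eq_bot']
        intro v hv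
        funext j
        have := congrFun hv j
        simp only [LinearMap.compLeft_apply, Function.comp, Pi.zero_apply,
          Algebra.linearMap_apply] at this
        simpa using this)
      exact h2
    exact (LinearIndependent.iff_fractionRing ℤ ℚ).1 h1
  have := hQ.rank_matrix
  simpa only [Fintype.card_fin] using this

/-- `HowieOver ℚ` implies `HowieOver k` for every field `k`. -/
theorem HowieOver.of_rat {k : Type} [Field k] {G : Type u} [Group G] (h : HowieOver ℚ G) :
    HowieOver k G :=
  fun m n w hw => h m n w (fullRank_rat_of_fullRank _ hw)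

/-- groups embedding into quotients of products of unitary groups -/
theorem howie_of_quotient (hU : UnitarySolve) {G : Type u} [Group G] {I : Type v} (N : I → ℕ)
    (M : Subgroup (∀ i, Matrix.unitaryGroup (Fin (N i)) ℂ)) [M.Normal]
    (φ : G →* (∀ i, Matrix.unitaryGroup (Fin (N i)) ℂ) ⧸ M) (hφ : Function.Injective φ) :
    HowieOver ℚ G := by
  intro m n w hw
  rw [solvableOver_iff]
  intro g hg
  set P := ∀ i, Matrix.unitaryGroup (Fin (N i)) ℂ with hP
  have hq : Function.Surjective (QuotientGroup.mk' M) := QuotientGroup.mk'_surjective M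
  choose w' hw' using fun l => map_surjective (n := n) (QuotientGroup.mk' M) hq
    (Monoid.Coprod.map φ (MonoidHom.id (FreeGroup (Fin n))) (w l))
  have hexp : expMatrix w' = expMatrix w := by
    rw [← expMatrix_map φ w, ← expMatrix_map (QuotientGroup.mk' M) w']
    congr 1
    funext l
    exact hw' l
  have hsol : ∀ i, ∃ h : Fin n → Matrix.unitaryGroup (Fin (N i)) ℂ, ∀ l,
      Monoid.Coprod.lift (Pi.evalMonoidHom (fun i => Matrix.unitaryGroup (Fin (N i)) ℂ) i)
        (FreeGroup.lift h) (w' l) = 1 := by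
    intro i
    obtain ⟨h, hh⟩ := unitary_solve_rect hU (N i) m n
      (fun l => Monoid.Coprod.map (Pi.evalMonoidHom (fun i => Matrix.unitaryGroup (Fin (N i)) ℂ) i)
        (MonoidHom.id (FreeGroup (Fin n))) (w' l)) (by
        unfold FullRank
        rw [expMatrix_map, hexp]
        exact hw)
    refine ⟨h, fun l => ?_⟩
    have := hh l
    rw [lift_wmap] at this
    exact this
  choose h hh using hsol
  let y : Fin n → P := fun j i => h i j
  have hy : ∀ l, Monoid.Coprod.lift (MonoidHom.id P) (FreeGroup.lift y) (w' l) = 1 := by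
    intro l
    funext i
    have h1 := map_lift (Pi.evalMonoidHom (fun i => Matrix.unitaryGroup (Fin (N i)) ℂ) i)
      (MonoidHom.id P) y (w' l)
    exact h1.trans (hh i l)
  have hz : ∀ l, Monoid.Coprod.lift φ (FreeGroup.lift fun j => QuotientGroup.mk' M (y j)) (w l)
      = 1 := by
    intro l
    have h1 := lift_wmap φ (MonoidHom.id _) (fun j => QuotientGroup.mk' M (y j)) (w l)
    rw [← hw' l, lift_wmap] at h1
    have h2 := map_lift (QuotientGroup.mk' M) (MonoidHom.id P) y (w' l)
    rw [hy l, MonoidHom.map_one] at h2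
    exact h1.symm.trans h2.symm
  have hle : Subgroup.normalClosure (Set.range w) ≤
      (Monoid.Coprod.lift φ (FreeGroup.lift fun j => QuotientGroup.mk' M (y j))).ker := by
    apply Subgroup.normalClosure_le_normal
    rintro _ ⟨l, rfl⟩
    exact hz l
  have h1 := hle hg
  rw [MonoidHom.mem_ker, Monoid.Coprod.lift_apply_inl] at h1
  exact hφ (by rw [h1, MonoidHom.map_one])

theorem howie_of_hyperlinear (hU : UnitarySolve) {G : Type u} [Group G] (h : Hyperlinear G) :
    HowieOver ℚ G := by
  obtain ⟨I, F, k, φ, hφ⟩ := h.exists_embedding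
  exact howie_of_quotient hU k (infinitesimal F k) φ hφ

/-- The combined theorem. -/
theorem howie_combined (hU : UnitarySolve) (k : Type) [Field k] (G : Type u) [Group G]
    (h : ∀ H : Subgroup G, H.FG → (∀ f : H →* Multiplicative k, f = 1) → Hyperlinear H) :
    HowieOver k G := by
  rw [howieOver_iff_local]
  intro H hfg htr
  exact (howie_of_hyperlinear hU (h H hfg htr)).of_rat

end Vale.Agent.P174
end

section

/-!
The Gerstenhaber-Rothaus theorem for unitary groups.
-/

namespace Vale.Agent.P174

section Final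

variable {N m : ℕ}

/-- the projection of the free group on unknowns and constants onto `U(N) * F_m` -/
def projU : FreeGroup (Fin m ⊕ UU N) →* Words (UU N) m :=
  FreeGroup.lift (Sum.elim (fun j => Monoid.Coprod.inr (FreeGroup.of j))
    (fun c => Monoid.Coprod.inl c))

lemma projU_surjective : Function.Surjective (projU (N := N) (m := m)) := by
  intro x
  induction x using Monoid.Coprod.induction_on with
  | inl g => exact ⟨FreeGroup.of (Sum.inr g), by simp [projU]⟩
  | inr y =>
    refine ⟨FreeGroup.map Sum.inl y, ?_⟩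
    have : (projU (N := N) (m := m)).comp (FreeGroup.map Sum.inl) = Monoid.Coprod.inr := by
      ext1 j
      simp [projU]
    exact DFunLike.congr_fun this y
  | mul x y ihx ihy =>
    obtain ⟨a, rfl⟩ := ihx
    obtain ⟨b, rfl⟩ := ihy
    exact ⟨a * b, MonoidHom.map_mul _ _ _⟩

lemma lift_projU (t : Fin m → UU N) (x : FreeGroup (Fin m ⊕ UU N)) :
    Monoid.Coprod.lift (MonoidHom.id (UU N)) (FreeGroup.lift t) (projU x) =
      FreeGroup.lift (Sum.elim t id) x := by
  have : (Monoid.Coprod.lift (MonoidHom.id (UU N)) (FreeGroup.lift t)).comp projU =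
      FreeGroup.lift (Sum.elim t id) := by
    ext1 x
    rcases x with j | c <;> simp [projU]
  exact DFunLike.congr_fun this x

lemma sumJ_eq (j : Fin m) (x : FreeGroup (Fin m ⊕ UU N)) :
    sumJ j x = Multiplicative.ofAdd (Multiplicative.toAdd (expSum (UU N) m (projU x)) j) := by
  have : sumJ j = ((AddMonoidHom.toMultiplicative
      (Pi.evalAddMonoidHom (fun _ : Fin m => ℤ) j)).comp (expSum (UU N) m)).comp projU := by
    ext1 x
    rcases x with i | c
    · simp only [sumJ, FreeGroup.lift_apply_of, Sum.elim_inl, MonoidHom.comp_apply, projU, expSum,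
        Monoid.Coprod.lift_apply_inr]
      by_cases h : i = j
      · subst h
        simp only [↓reduceIte, AddMonoidHom.toMultiplicative_apply_apply, toAdd_ofAdd, Pi.evalAddMonoidHom_apply, Pi.single_eq_same]
      · simp only [h, ↓reduceIte, AddMonoidHom.toMultiplicative_apply_apply, toAdd_ofAdd, Pi.evalAddMonoidHom_apply, ne_eq, Ne.symm h, not_false_eq_true, Pi.single_eq_of_ne, ofAdd_zero]
    · simp only [sumJ, FreeGroup.lift_apply_of, Sum.elim_inr, expSum, projU, MonoidHom.coe_comp, AddMonoidHom.coe_toMultiplicative, Function.comp_apply, Monoid.Coprod.lift_apply_inl, MonoidHom.one_apply, toAdd_one, Pi.evalAddMonoidHom_apply, Pi.zero_apply, ofAdd_zero]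
  exact DFunLike.congr_fun this x

/-- **Gerstenhaber-Rothaus** for unitary groups: every square system with exponent sum matrix
`d • 1` is solvable in `U(N)` itself. -/
theorem unitarySolve : UnitarySolve := by
  intro N m d hd w hw
  choose w' hw' using fun i => projU_surjective (w i)
  have h1 : deg w' id ≠ 0 := by
    rw [deg_eq w' (fun j : Fin m => (FreeGroup.of (Sum.inl j : Fin m ⊕ UU N)) ^ d) id id]
    · exact deg_pow_ne_zero d hd id
    · intro i j
      rw [sumJ_eq, hw', map_pow]
      have h2 : Multiplicative.toAdd (expSum (UU N) m (w i)) j = expMatrix w i j := rfl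
      rw [h2, hw]
      by_cases h : i = j
      · subst h
        simp only [Matrix.smul_apply, Matrix.one_apply_eq, Int.zsmul_eq_mul, mul_one, sumJ, FreeGroup.lift_apply_of, Sum.elim_inl, ↓reduceIte, ← ofAdd_nsmul, Int.nsmul_eq_mul]
      · simp only [Matrix.smul_apply, ne_eq, h, not_false_eq_true, Matrix.one_apply_ne, Int.zsmul_eq_mul, mul_zero, ofAdd_zero, sumJ, FreeGroup.lift_apply_of, Sum.elim_inl, ↓reduceIte, one_pow]
  obtain ⟨t, ht⟩ := exists_sol w' id (fun F => invar w' id F) h1
  refine ⟨t, fun i => ?_⟩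
  rw [← hw' i, lift_projU]
  exact ht i

end Final

end Vale.Agent.P174
end

section

/-!
The relative localization theorem combined with the Gerstenhaber-Rothaus-Pestov theorem.
-/

namespace Vale.Agent.P174

universe u v

/-- elements killed by a full rank system die in every hyperlinear image -/
theorem killed_in_hyperlinear {k : Type} [Field k] {P : Type u} [Group P] {m n : ℕ}
    (w : Fin m → Words P n) (hw : FullRank k w) (g : P)
    (hg : Monoid.Coprod.inl g ∈ Subgroup.normalClosure (Set.range w))
    {H : Type u} [Group H] (hH : Hyperlinear H) (ρ : P →* H) : ρ g = 1 := by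
  have h1 : HowieOver k H := (howie_of_hyperlinear unitarySolve hH).of_rat
  have h2 := h1 m n _ ((fullRank_map ρ w).2 hw)
  rw [solvableOver_iff] at h2
  apply h2
  have hle : Subgroup.normalClosure (Set.range w) ≤ (Subgroup.normalClosure (Set.range
      fun i => Monoid.Coprod.map ρ (MonoidHom.id (FreeGroup (Fin n))) (w i))).comap
      (Monoid.Coprod.map ρ (MonoidHom.id (FreeGroup (Fin n)))) := by
    apply Subgroup.normalClosure_le_normal
    rintro _ ⟨i, rfl⟩
    exact Subgroup.subset_normalClosure ⟨i, rfl⟩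
  have h3 := hle hg
  rw [Subgroup.mem_comap, Monoid.Coprod.map_apply_inl] at h3
  exact h3

/-- The general localization theorem for killed elements. -/
theorem relative_kill {k : Type} [Field k] {G : Type u} [Group G] {Q : Type v} [Group Q]
    {m n : ℕ} (w : Fin m → Words G n) (φ : Words G n →* Q) (hφ : ∀ i, φ (w i) = 1)
    (hind : LinearIndependent (MonoidAlgebra k Q) (fun i => foxRow k φ (w i)))
    (g : G) (hg : Monoid.Coprod.inl g ∈ Subgroup.normalClosure (Set.range w)) :
    ∃ (P : Subgroup G) (hgP : g ∈ P), P.FG ∧ (∀ x ∈ P, φ (Monoid.Coprod.inl x) = 1) ∧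
      (∀ f : P →* Multiplicative k, f = 1) ∧
      (∀ (H : Type u) [Group H] (ρ : P →* H), Hyperlinear H → ρ ⟨g, hgP⟩ = 1) ∧
      ∃ (m' n' : ℕ) (w' : Fin m' → Words P n'), FullRank k w' ∧
        Monoid.Coprod.inl (⟨g, hgP⟩ : P) ∈ Subgroup.normalClosure (Set.range w') := by
  obtain ⟨P, hgP, hfg, hker, htr, m', n', w', hrank, hg'⟩ :=
    relative_localization w φ hφ hind g hg
  refine ⟨P, hgP, hfg, hker, htr, ?_, m', n', w', hrank, hg'⟩
  intro H _ ρ hH
  exact killed_in_hyperlinear w' hrank _ hg' hH ρ

/-- The relative theorem for hyperlinear groups. -/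
theorem relative_hyperlinear {k : Type} [Field k] {G : Type u} [Group G] {Q : Type v} [Group Q]
    {m n : ℕ} (w : Fin m → Words G n) (φ : Words G n →* Q) (hφ : ∀ i, φ (w i) = 1)
    (hind : LinearIndependent (MonoidAlgebra k Q) (fun i => foxRow k φ (w i)))
    (h : ∀ P : Subgroup G, P.FG → (∀ x ∈ P, φ (Monoid.Coprod.inl x) = 1) →
      (∀ f : P →* Multiplicative k, f = 1) → Hyperlinear P) : SolvableOver w :=
  relative_solvable w φ hφ hind fun P hfg hker htr =>
    (howie_of_hyperlinear unitarySolve (h P hfg hker htr)).of_rat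

end Vale.Agent.P174
end

section

/-!
The main results collected.
-/

namespace Vale.Agent.P174

universe u v

/-- elementwise localization together with the vanishing in hyperlinear images -/
theorem full_localization {k : Type} [Field k] {G : Type u} [Group G] {m n : ℕ}
    (w : Fin m → Words G n) (hw : FullRank k w) (g : G)
    (hg : Monoid.Coprod.inl g ∈ Subgroup.normalClosure (Set.range w)) :
    ∃ (P : Subgroup G) (hgP : g ∈ P), P.FG ∧ (∀ f : P →* Multiplicative k, f = 1) ∧
      (∀ (H : Type u) [Group H] (ρ : P →* H), Hyperlinear H → ρ ⟨g, hgP⟩ = 1) ∧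
      ∃ (m' n' : ℕ) (w' : Fin m' → Words P n'), FullRank k w' ∧
        Monoid.Coprod.inl (⟨g, hgP⟩ : P) ∈ Subgroup.normalClosure (Set.range w') := by
  obtain ⟨P, hgP, hfg, htr, m', n', w', hrank, hg'⟩ := localization w hw g hg
  refine ⟨P, hgP, hfg, htr, ?_, m', n', w', hrank, hg'⟩
  intro H _ ρ hH
  exact killed_in_hyperlinear w' hrank _ hg' hH ρ

end Vale.Agent.P174
end

section

/-!
The relative theorems with Fox derivatives characterized by their rules.
-/

namespace Vale.Agent.P174

universe u v

theorem isFox_foxRow {k : Type} [Field k] {G : Type u} [Group G] {Q : Type v} [Group Q] {n : ℕ}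
    (φ : Words G n →* Q) : IsFox φ (foxRow k φ) :=
  ⟨fun u u' => foxRow_mul φ u u', fun g => foxRow_inl φ g, fun j => foxRow_of φ j⟩

theorem isFox_unique {k : Type} [Field k] {G : Type u} [Group G] {Q : Type v} [Group Q] {n : ℕ}
    (φ : Words G n →* Q) (D D' : Words G n → Fin n → MonoidAlgebra k Q)
    (h : IsFox φ D) (h' : IsFox φ D') : D = D' := by
  have h1 : D 1 = 0 := by
    have := h.1 1 1
    rw [map_one, ← MonoidAlgebra.one_def, one_smul, mul_one] at this
    simpa using this
  have h1' : D' 1 = 0 := by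
    have := h'.1 1 1
    rw [map_one, ← MonoidAlgebra.one_def, one_smul, mul_one] at this
    simpa using this
  have hinv : ∀ u, D u = D' u → D u⁻¹ = D' u⁻¹ := by
    intro u hu
    have e1 := h.1 u⁻¹ u
    have e2 := h'.1 u⁻¹ u
    rw [inv_mul_cancel, h1] at e1
    rw [inv_mul_cancel, h1'] at e2
    rw [eq_neg_of_add_eq_zero_left e1.symm, eq_neg_of_add_eq_zero_left e2.symm, hu]
  funext u
  induction u using Monoid.Coprod.induction_on with
  | inl g => rw [h.2.1, h'.2.1]
  | inr y =>
    induction y using FreeGroup.induction_on with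
    | C1 => rw [map_one, h1, h1']
    | of j => rw [h.2.2, h'.2.2]
    | inv_of j hj => rw [map_inv]; exact hinv _ hj
    | mul y z hy hz => rw [map_mul, h.1, h'.1, hy, hz]
  | mul x y hx hy => rw [h.1, h'.1, hx, hy]

end Vale.Agent.P174
end

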